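import Vale.Agent.P004M.A6b
import Vale.Agent.P004M.Wrap0

/-!
# P004M, route D, row DU: an integral limit system is a congruence limit of expansions
-/

set_option autoImplicit false
set_option linter.all false

open UpperHalfPlane hiding I
open Matrix CongruenceSubgroup
open scoped MatrixGroups ModularForm

noncomputable section

namespace Vale.Agent.P004M.Du

open Vale.Agent.P022 Vale.Agent.P022.H783 Vale.Agent.P022K.UC Vale.Agent.P022K.UC.Hm
open Vale.Agent.P022.H567.Tw (cf cf_unique tz cf_tz gen_inr uℓ dec)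
open Vale.Agent.P022.H811.L3 (zero_of_coeff)
open Vale.Agent.P022.H218.L3 (IsMF isMF_of_form)
open Vale.Agent.P004M.A6 (TV dia_mul tr_raise)

/-- rational coefficients with bounded denominators -/
def Rb (c : ℕ → ℂ) : Prop :=
  ∃ (x : ℕ → ℚ) (g : WithZero (Multiplicative ℤ)),
    ∀ n, c n = x n ∧ Rat.padicValuation 2 (x n) ≤ g

theorem Rb.sum {ι : Type*} (s : Finset ι) {c : ι → ℕ → ℂ} (h : ∀ i, Rb (c i)) :
    Rb fun n => ∑ i ∈ s, c i n := by
  choose x g h using h
  refine ⟨fun n => ∑ i ∈ s, x i n, s.sup g, fun n => ⟨by simp [h], ?_⟩⟩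
  exact Valuation.map_sum_le _ fun i hi => (h i n).2.trans (Finset.le_sup hi)

section

open Vale.Agent.P027M.M Vale.Agent.P022D.V Vale.Agent.P022D.Th Latc

/-- **rational structure**, with the diamond operators -/
theorem ratd (N k : ℕ) [NeZero N] (hk : Even k) (h0 : k ≠ 0) : ∃ t : Finset (MF N k),
    Submodule.span ℂ (t : Set (MF N k)) = ⊤ ∧ ∀ f ∈ t, ∀ l : PA N, Rb (cf (dia k l f)) := by
  classical
  obtain ⟨i, rfl⟩ : ∃ i, k = i + 1 := ⟨k - 1, by omega⟩
  have M0 := NeZero.pos N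
  obtain ⟨inst⟩ := emb ℚ_[2] (PadicInt.subring 2) fun x => Iff.rfl
  obtain ⟨b1, b2⟩ := basq_even (M := N) hk
  obtain ⟨-, -, -, -, d5⟩ := bd xb (PadicInt.subring 2) 1 0 odd_one
  obtain ⟨t, t1, t2⟩ := b2 (XC N (i + 1) ⊓ Iv ℂ ℂ (H0 N 1 N)) inf_le_left
    fun σ a ha s hs => ⟨b1 σ a ha s hs.1, fun h hh => by
      funext g
      have e := congrFun (hs.2 h hh) (dg 1 a * g)
      rw [one_smul, rt_apply, mul_assoc] at e
      rw [one_smul, rt_apply, cj, cj, e]⟩
  have key : ∀ y : FT N ℂ, ∃ f : MF N (i + 1), y ∈ t → Rd _ N i y f ∧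
      ∀ l : PA N, Rb (cf (dia _ l f)) := by
    intro y
    by_cases hy : y ∈ t
    swap
    · exact ⟨0, fun h => (hy h).elim⟩
    obtain ⟨y1, y2⟩ := t1 y hy
    obtain ⟨F, f1, f2⟩ := y1.1
    obtain ⟨f, c, r1, r2⟩ := back N N i M0 dvd_rfl _ y1
    refine ⟨f, fun _ => ⟨rd_of M0 r2 r1, fun l => ?_⟩⟩
    obtain ⟨a, ha⟩ := ex_unit (dvd_refl N) l.coprime
    obtain ⟨m, hm⟩ := Bdd0.one_g (O := PadicInt.subring 2) M0 (Bdd0.tp_mf f1 (dg a 1)) (f2 _)
    have l0 : (l.1 : ℂ) ^ i ≠ 0 := pow_ne_zero _ (Nat.cast_ne_zero.2 l.2.1.ne_zero)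
    have e := fun b => dic_coeff M0 r2 a b (H353.PA_cop2 l) ha
    have e1 : ∀ n, cf (dia _ l f) n = (y (dg a 1)).coeff (N * n) := cf_unique _ _ fun τ => by
      have := (r1 l.1 (H353.PA_cop2 l) τ).mul_left ((l.1 : ℂ) ^ i)⁻¹
      rw [inv_mul_cancel_left₀ l0] at this
      rw [dia_coe]
      refine this.congr_fun fun n => ?_
      dsimp only
      rw [e 1, mul_assoc, inv_mul_cancel_left₀ l0, H783.qq, Function.Periodic.qParam,
        ← Complex.exp_nat_mul]
      congr 2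
      push_cast
      ring
    have k : ∀ n, ∃ x : ℚ, cf (dia _ l f) n = x ∧
        Rat.padicValuation 2 x ≤ (Rat.padicValuation 2 (2 ^ m))⁻¹ := by
      intro n
      obtain ⟨x, hx⟩ := aut.1 ((y (dg a 1)).coeff (N * n)) fun σ => by
        obtain ⟨a₁, h₁⟩ := aut.2 N σ M0
        have e2 := congrArg (PowerSeries.coeff (N * n)) (congrFun (y2 σ a₁ h₁) (dg a 1))
        rw [cj, dg_mul, one_mul, mul_one, PowerSeries.coeff_map,
          mul_left_cancel₀ l0 ((e a₁ n).symm.trans (e 1 n))] at e2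
        exact e2
      refine ⟨x, by rw [e1, hx], ?_⟩
      have := Rat.padicValuation_le_one_iff.2 (d5 (2 ^ m * x) (by
        push_cast
        rw [hx]
        exact hm _)).not_two_dvd_nat
      rwa [map_mul, ← le_inv_mul_iff₀ (zero_lt_iff.2 (by simp)), mul_one] at this
    choose x x1 using k
    exact ⟨x, _, x1⟩
  choose F hF using key
  refine ⟨t.image F, eq_top_iff.2 fun f _ => ?_, fun f hf => ?_⟩
  · obtain ⟨c, hc⟩ := H353.exists_rep f
    obtain ⟨s, s1, s2⟩ := tup N 1 N i M0 (one_dvd _) dvd_rfl f c hc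
    have k : ∀ s ∈ Submodule.span ℂ (t : Set (FT N ℂ)),
        ∃ f' ∈ Submodule.span ℂ ((t.image F : Finset _) : Set (MF N (i + 1))), Rd _ N i s f' := by
      intro s hs
      induction hs using Submodule.span_induction with
      | mem y hy => exact ⟨_, Submodule.subset_span
          (Finset.mem_coe.2 (Finset.mem_image_of_mem F hy)), (hF y hy).1⟩
      | zero => exact ⟨0, zero_mem _, rd_zero⟩
      | add a b _ _ ha hb =>
        obtain ⟨f1, m1, r1⟩ := ha
        obtain ⟨f2, m2, r2⟩ := hb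
        exact ⟨_, add_mem m1 m2, rd_add r1 r2⟩
      | smul z a _ ha =>
        obtain ⟨f1, m1, r1⟩ := ha
        exact ⟨_, Submodule.smul_mem _ z m1, rd_smul z r1⟩
    obtain ⟨f', m, r⟩ := k s (t2 s1)
    rwa [rd_inj (rd_of M0 s2 hc) r]
  · obtain ⟨y, hy, rfl⟩ := Finset.mem_image.1 hf
    exact (hF y hy).2

end

variable {N : ℕ} [NeZero N]

theorem ex_pa {d : ZMod N} (h : IsUnit d) : ∃ l : PA N, (l.1 : ZMod N) = d := by
  obtain ⟨p, p1, p2, p3⟩ := Nat.forall_exists_prime_gt_and_eq_mod h (2 * N)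
  exact ⟨⟨p, p2, fun e => (Nat.le_of_dvd (by have := NeZero.pos N; omega) e).not_gt p1⟩, p3⟩

theorem tv_mf {k : ℕ} {f : MF N k} (h : Tv f) : IsMF (Gamma0 N) k f :=
  ⟨(isMF_of_form (Gamma1 N) f).hol, fun γ hγ => by
    obtain ⟨l, hl⟩ := ex_pa (IsUnit.of_mul_eq_one_right _ (det_ZMod hγ))
    rw [← dFun_eq l hγ hl.symm, ← dia_coe, h], (isMF_of_form (Gamma1 N) f).bdd⟩

/-- the forms with trivial character and rational bounded coefficients span -/
theorem tv_ind {k : ℕ} (hk : Even k) (h0 : k ≠ 0) (S : Submodule ℂ (MF N k))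
    (h : ∀ f, Tv f → Rb (cf f) → f ∈ S) (f : MF N k) (hf : Tv f) : f ∈ S := by
  obtain ⟨t, t1, t2⟩ := ratd N k hk h0
  choose l l1 using fun d : (ZMod N)ˣ => ex_pa d.isUnit
  have e : (⊤ : Submodule ℂ (MF N k)) ≤ S.comap (∑ d, dia k (l d)) := by
    rw [← t1, Submodule.span_le]
    refine fun f hf => h _ (fun p => ?_) ?_
    · rw [LinearMap.sum_apply, map_sum, ← Equiv.sum_comp
        (Equiv.mulRight (ZMod.unitOfCoprime p.1 p.coprime)) fun d => dia k (l d) f]
      exact Finset.sum_congr rfl fun d _ => dia_mul _ (by simp [l1]) f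
    · convert Rb.sum Finset.univ fun d => t2 f hf (l d) with n
      rw [← cfL_apply, LinearMap.sum_apply, map_sum]
      rfl
  have := e (Submodule.mem_top (x := f))
  rw [Submodule.mem_comap, LinearMap.sum_apply, Finset.sum_congr rfl fun d _ => hf (l d),
    Finset.sum_const, ← Nat.cast_smul_eq_nsmul ℂ] at this
  exact (S.smul_mem_iff (Nat.cast_ne_zero.2 Fintype.card_ne_zero)).1 this

/-- depletion keeps the character trivial -/
theorem dep_tv (M : ℕ) [NeZero M] {i : ℕ} (f : MF N (i + 1)) (hf : Tv f) :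
    ∃ g : MF (N * M ^ 2) (i + 1), Tv g ∧ ∀ n, cf g n = if n.Coprime M then cf f n else 0 := by
  classical
  let c := ZMod.dft.symm fun u : ZMod M => if IsUnit (-u) then (1 : ℂ) else 0
  have key : ∀ (w : (ZMod M)ˣ) n, cf (∑ u, c u • tz N M (w * u) _ f) n =
      if n.Coprime M then cf f n else 0 := fun w n => by
    have h1 : ZMod.dft c (-(w * n : ZMod M)) = _ := congrFun (LinearEquiv.apply_symm_apply _ _) _
    rw [ZMod.dft_apply, neg_neg] at h1
    simp only [Units.isUnit_units_mul, ZMod.isUnit_iff_coprime, mul_neg, neg_neg,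
      smul_eq_mul] at h1
    rw [← cfL_apply, map_sum]
    simp only [map_smul, cfL_apply, cf_tz, smul_eq_mul, ← mul_assoc, ← Finset.sum_mul]
    rw [Finset.sum_congr rfl fun u _ => (mul_comm (c u) _).trans (by
      rw [mul_comm (w : ZMod M) u, mul_assoc u]), h1]
    split_ifs <;> simp
  refine ⟨∑ u, c u • tz N M ((1 : (ZMod M)ˣ) * u) _ f, fun l => ?_, key 1⟩
  refine sub_eq_zero.1 (zero_of_coeff (by omega) _ fun n _ => ?_)
  show cfL _ _ n _ = 0
  rw [map_sub, cfL_apply, cfL_apply, key, ← key (uℓ l ^ 2), sub_eq_zero, map_sum]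
  refine congrArg (cf · n) (Finset.sum_congr rfl fun u _ => ?_)
  rw [map_smul, Units.val_one, one_mul]
  refine congrArg _ (smul_right_injective _ (pow_ne_zero i
    (Nat.cast_ne_zero.2 l.2.1.ne_zero : (l.1 : ℂ) ≠ 0)) ((gen_inr u i l f).trans ?_))
  exact (map_smul (tz N M _ _) _ _).trans (congrArg _ (congrArg _ (hf _)))

open PowerSeries in
/-- relations give congruences -/
theorem rel (h2 : 2 ∣ N) {x : ℕ → ℤ} (hx : Ew N x) {B j : ℕ} (h : Hm.UCA N x B j) :
    ∃ f : ∀ m, MF N (2 * m + 2), (∀ m, Tv (f m)) ∧ ∀ n : ℕ, ∃ (D : ℕ) (z : ℤ), Odd D ∧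
      D * ((n : ℂ) ^ B * x n - ∑ m ∈ Finset.range (B + 1), (n : ℂ) ^ B * nc N m n (f m)) =
        2 ^ j * z := by
  classical
  have fd : ∀ m, FiniteDimensional ℂ (MF N (2 * m + 2)) := fun m => by
    obtain ⟨t, t1, -⟩ := ratd N (2 * m + 2) ⟨m + 1, by ring⟩ (by omega)
    exact ⟨⟨t, t1⟩⟩
  let Φ : (∀ m : Fin (B + 1), TV N (2 * m + 2)) →ₗ[ℂ] ℂ⟦X⟧ :=
    { toFun := fun f => PowerSeries.mk fun n => ∑ m : Fin (B + 1), (n : ℂ) ^ B * nc N m n (f m)
      map_add' := fun f g => PowerSeries.ext fun n => by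
        simp [mul_add, Finset.sum_add_distrib]
      map_smul' := fun c f => PowerSeries.ext fun n => by
        simp [Finset.mul_sum, mul_left_comm] }
  let v := Rat.padicValuation 2
  let V : Submodule ℚ ℚ⟦X⟧ :=
    { carrier := {y | PowerSeries.map (algebraMap ℚ ℂ) y ∈ LinearMap.range Φ ∧
        ∃ g, ∀ n, v (coeff n y) ≤ g}
      zero_mem' := ⟨by simp, 0, by simp⟩
      add_mem' := fun ⟨h1, g, h2⟩ ⟨h3, g', h4⟩ => ⟨by rw [map_add]; exact add_mem h1 h3,
        max g g', fun n => by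
          rw [map_add]
          exact v.map_add_le ((h2 n).trans (le_max_left _ _)) ((h4 n).trans (le_max_right _ _))⟩
      smul_mem' := fun c y ⟨h1, g, h2⟩ => ⟨by
          rw [smul_eq_C_mul, map_mul, map_C, ← smul_eq_C_mul]
          exact Submodule.smul_mem _ _ h1, v c * g, fun n => by
          rw [map_smul, smul_eq_mul, map_mul]
          exact mul_le_mul_right (h2 n) _⟩ }
  haveI := (Rt.dim (E := ℚ) (LinearMap.range Φ)).1
  haveI : FiniteDimensional ℚ V := Submodule.finiteDimensional_of_le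
    (show V ≤ Rt ℚ (LinearMap.range Φ) from fun y hy => by
      convert Rt.of (E := ℚ) hy.1 using 1
      ext n
      simp)
  obtain ⟨b, p, r1, r2⟩ := echelon v _ V rfl fun y hy => hy.2
  have key : ∀ m ≤ B, ∀ (f : MF N (2 * m + 2)), Tv f → ∀ n : ℕ, (n : ℂ) ^ B * nc N m n f =
      ∑ k, ((p k : ℂ) ^ B * nc N m (p k) f) * (coeff n (b k) : ℚ) := fun m hm f hf n => by
    have := tv_ind ⟨m + 1, by ring⟩ (by omega) (LinearMap.ker ((n : ℂ) ^ B • nc N m n -
      ∑ k, ((coeff n (b k) : ℚ) * (p k : ℂ) ^ B) • nc N m (p k))) (fun f hf ⟨c, g, hc⟩ => ?_) f hf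
    · simpa [sub_eq_zero, mul_comm, mul_left_comm, mul_assoc] using this
    obtain ⟨r, rfl⟩ := Nat.exists_eq_add_of_le hm
    let y : ℚ⟦X⟧ := PowerSeries.mk fun n => (n : ℚ) ^ r * if n.Coprime (2 * N) then c n else 0
    have e : ∀ n : ℕ, (n : ℂ) ^ (m + r) * nc N m n f = (coeff n y : ℚ) := fun n => by
      rw [coeff_mk, nc]
      split_ifs with hn
      · have : (n : ℂ) ≠ 0 := Nat.cast_ne_zero.2 (by
          rintro rfl
          have := Nat.coprime_zero_left _ |>.1 hn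
          omega)
        rw [LinearMap.smul_apply, cfL_apply, (hc n).1, smul_eq_mul]
        push_cast
        field_simp
        ring
      · simp
    have hy : y ∈ V := by
      refine ⟨⟨Pi.single ⟨m, by omega⟩ ⟨f, hf⟩, PowerSeries.ext fun n => ?_⟩, g, fun n => ?_⟩
      · rw [coeff_map, eq_ratCast, ← e]
        simp only [Φ, LinearMap.coe_mk, AddHom.coe_mk, coeff_mk]
        rw [Finset.sum_eq_single (⟨m, by omega⟩ : Fin (m + r + 1)) (fun i _ hi => by
          rw [Pi.single_eq_of_ne hi]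
          simp) (by simp), Pi.single_eq_same]
      · rw [coeff_mk, map_mul, map_pow]
        refine (mul_le_mul' (pow_le_one' (Rat.padicValuation_le_one_iff.2 (by simp)) _)
          (?_ : _ ≤ g)).trans (one_mul g).le
        split_ifs
        · exact (hc n).2
        · simp
    simp only [LinearMap.mem_ker, LinearMap.sub_apply, LinearMap.sum_apply, LinearMap.smul_apply,
      smul_eq_mul, mul_assoc, e, sub_eq_zero]
    nth_rewrite 1 [r2 y hy]
    simp [mul_comm]
  obtain ⟨f, hf⟩ := sum_mem (t := Finset.univ) fun k _ =>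
    Submodule.smul_mem _ ((p k : ℂ) ^ B * x (p k)) (r1 k).1.1
  refine ⟨fun m => if h : m < B + 1 then f ⟨m, h⟩ else 0, fun m => ?_, fun n => ?_⟩
  · dsimp only
    split_ifs
    · exact (f _).2
    · exact (TV N _).zero_mem
  obtain ⟨D, a, h1, h3⟩ := ex_int (fun k => coeff n (b k)) fun k =>
    Rat.padicValuation_le_one_iff.1 ((r1 k).2 n)
  have h4 : ∀ k, (a k : ℂ) = D * (coeff n (b k) : ℚ) := fun k => by
    exact_mod_cast congrArg (Rat.cast : ℚ → ℂ) (h3 k)
  obtain ⟨z, hz⟩ := rel_of_uca h2 hx h (Option (Fin _))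
    (fun i => i.elim (D * n ^ B) fun k => -(a k * p k ^ B)) (fun i => i.elim n p)
    fun m hm f hf => by
      simp only [Fintype.sum_option, Option.elim]
      push_cast
      rw [mul_assoc, key m hm f hf n, Finset.mul_sum, ← Finset.sum_add_distrib]
      refine Finset.sum_eq_zero fun k _ => ?_
      rw [h4]
      ring
  refine ⟨D, z, h1, ?_⟩
  have h5 := (coeff_mk n fun n : ℕ => ∑ m : Fin (B + 1), (n : ℂ) ^ B * nc N m n (f m)).symm.trans
    (congrArg (coeff n) hf)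
  have h6 := congrArg (Int.cast : ℤ → ℂ) hz
  simp only [Fintype.sum_option, Option.elim] at h6
  push_cast at h6
  rw [Finset.sum_range, ← h6]
  simp only [Fin.is_lt, dite_true, Fin.eta]
  rw [h5, mul_sub, map_sum, Finset.mul_sum, sub_eq_add_neg,
    ← Finset.sum_neg_distrib, mul_assoc]
  refine congrArg _ (Finset.sum_congr rfl fun k _ => ?_)
  rw [h4, map_smul, coeff_map, smul_eq_mul, eq_ratCast]
  ring

/-- **DU** -/
theorem du0 (A : ValuationSubring ℂ) (hA : A.valuation 2 < 1) (N : ℕ) [NeZero N] (a : ℕ → ℤ)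
    (h : A6 N a) (j : ℕ) : ∃ (x : ℕ → ℤ) (B : ℕ) (f : ℕ → ℍ → ℂ) (c : ℕ → ℕ → ℂ), Ew N x ∧
      (∀ l : PA N, x l.1 = a l.1) ∧
      (∀ m, IsMF (Gamma0 (N ^ 3 * 2 ^ 5)) ((2 * m + 2 : ℕ) : ℤ) (f m) ∧ Sm (c m) (f m)) ∧
      ∀ n : ℕ, A.valuation ((n : ℂ) ^ B * x n -
        ∑ m ∈ Finset.range (B + 1), (n : ℂ) ^ (B - m) * c m n) ≤ A.valuation 2 ^ j := by
  obtain ⟨x, x1, x2, x3⟩ := ex_eig (M := 2 * N) (by omega) a fun l => (l : ℤ)
  obtain ⟨B, hB⟩ := h j
  have co : ∀ n : ℕ, n.Coprime (2 * (N * 2)) ↔ n.Coprime (2 * N) := fun n => by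
    simp only [Nat.coprime_mul_iff_right]
    tauto
  have hp : ∀ l : PA (N * 2), ¬ l.1 ∣ 2 * N := fun l e => l.2.2 (e.trans ⟨2, by ring⟩)
  obtain ⟨f, f1, f2⟩ := rel (N := N * 2) (dvd_mul_left _ _) (x := x) (B := B) (j := j)
    ⟨x1, fun n hn => x2 n (mt (co n).2 hn), fun l => (x3 _ l.2.1 (hp l)).2⟩ fun P hP => by
      obtain ⟨Q, q1, q2⟩ := tr_raise N 2 P
      rw [q2 ℤ a x fun l => by simp [(x3 _ l.2.1 (hp l)).1]]
      exact hB Q fun m hm => q1 m (hP m hm)
  choose g g1 g2 using fun m => dep_tv (2 * N) (i := 2 * m + 1) (f m) (f1 m)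
  refine ⟨x, B, fun m => g m, fun m => cf (g m), ⟨x1, x2, fun l => (x3 _ l.2.1 l.2.2).2⟩,
    fun l => (x3 _ l.2.1 l.2.2).1, fun m => ⟨(tv_mf (g1 m)).mono fun γ hγ => ?_,
      hasSum_form (g m)⟩, fun n => ?_⟩
  · rw [Gamma0_mem, ZMod.intCast_zmod_eq_zero_iff_dvd] at hγ ⊢
    exact (Int.natCast_dvd_natCast.2 ⟨4, by ring⟩).trans hγ
  obtain ⟨D, z, ⟨d, rfl⟩, e⟩ := f2 n
  rw [Finset.sum_congr rfl (g := fun m => (n : ℂ) ^ (B - m) * cf (g m) n) fun m hm => by
    rw [g2, nc]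
    simp only [co]
    split_ifs with hn
    · have : (n : ℂ) ≠ 0 := Nat.cast_ne_zero.2 (by
        rintro rfl
        have := Nat.coprime_zero_left _ |>.1 hn
        omega)
      rw [LinearMap.smul_apply, cfL_apply, smul_eq_mul, ← mul_assoc,
        pow_sub₀ _ this (Nat.lt_succ_iff.1 (Finset.mem_range.1 hm))]
    · simp] at e
  have h1 := congrArg A.valuation e
  rw [map_mul, map_mul, map_pow, Nat.cast_add, Nat.cast_one, add_comm,
    A.valuation.map_one_add_of_lt (by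
      rw [Nat.cast_mul, map_mul]
      exact mul_lt_one_of_lt_of_le hA (A.valuation_le_one_iff _ |>.2 (natCast_mem A d))),
    one_mul] at h1
  rw [h1]
  exact mul_le_of_le_one_right' (A.valuation_le_one_iff _ |>.2 (intCast_mem A z))

end Vale.Agent.P004M.Du
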