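import Vale.Agent.P022D.V.IrrB
import Vale.Agent.P022.H67.Der3
import Vale.Agent.P022.H353.Lift
import Vale.Agent.P022.H875.Cos
import Vale.Agent.P022K.UC.AmSt

/-!
# P004M, route D, row SE: Serre's trace to odd level
-/

set_option autoImplicit false
set_option linter.all false

open scoped ModularForm MatrixGroups Manifold Real
open UpperHalfPlane Matrix CongruenceSubgroup

noncomputable section

namespace Vale.Agent.P004M.D.Se

open Vale.Agent.P022 Vale.Agent.P022.H220 Vale.Agent.P022.H645 Vale.Agent.P022.H218.L3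
open Vale.Agent.P022.H353 Vale.Agent.P022.H67 Vale.Agent.P022D Vale.Agent.P022K.UC

theorem qp (R n : ℕ) (τ : ℍ) : Function.Periodic.qParam (R : ℝ) (τ : ℂ) ^ n =
    Complex.exp (2 * π * Complex.I * n * (τ : ℂ) / R) := by
  rw [Function.Periodic.qParam, ← Complex.exp_nat_mul]
  congr 1
  push_cast
  ring

theorem sm_iff {c : ℕ → ℂ} {f : ℍ → ℂ} : Sm c f ↔ Hs f c := forall_congr' fun τ => by
  have := fun n => qp 1 n τ
  simp only [Nat.cast_one] at this
  simp only [smul_eq_mul, this, Nat.cast_one]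

theorem exq {Γ : Subgroup SL(2, ℤ)} {k : ℤ} {f : ℍ → ℂ} {M : ℕ} (hM : 0 < M) (h : IsMF Γ k f)
    (hT : ModularGroup.T ^ M ∈ Γ) (τ : ℍ) :
    HasSum (fun n : ℕ => (qExpansion (M : ℝ) f).coeff n *
      Complex.exp (2 * π * Complex.I * n * (τ : ℂ) / M)) (f τ) := by
  have h3 := h.slash _ hT
  rw [← zpow_natCast] at h3
  have hr : (0 : ℝ) < M := by exact_mod_cast hM
  have hp : Function.Periodic (f ∘ ofComplex) (M : ℝ) := by
    intro z
    by_cases hz : 0 < z.im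
    · have hz' : 0 < (z + (M : ℝ)).im := by simpa using hz
      have := congrFun h3 ⟨z, hz⟩
      rw [ModularForm.SL_slash_apply, ModularGroup.denom_apply, ModularGroup.coe_T_zpow,
        UpperHalfPlane.modular_T_zpow_smul] at this
      simp only [Function.comp_apply, ofComplex_apply_of_im_pos hz, ofComplex_apply_of_im_pos hz']
      rw [← this]
      simp only [of_apply, cons_val', cons_val_zero, cons_val_one, cons_val_fin_one, Int.cast_zero,
        zero_mul, Int.cast_one, zero_add, _root_.one_zpow, mul_one]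
      congr 1
      ext
      simp [add_comm]
    · have hz' : ¬ 0 < (z + (M : ℝ)).im := by simpa using hz
      simp only [Function.comp_apply]
      rw [ofComplex_apply_eq_of_im_nonpos (not_lt.1 hz') (not_lt.1 hz)]
  refine hs_congr' (UpperHalfPlane.hasSum_qExpansion hr hp h.hol (by simpa using h.bdd 1) τ)
    fun n => ?_
  rw [smul_eq_mul, qp]

/-- Serre's trace from `Γ₀(M) ∩ Γ₀(2 ^ t)` to `Γ₀(M)` -/
theorem tr0 {O : Subring ℂ} (hO : Ex.RootStable O.toAddSubgroup) {M t k R : ℕ} (hM : Odd M)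
    (hR : 0 < R) (B n : ℕ) {F : ℍ → ℂ}
    (hF : ∀ γ ∈ Gamma0 M, γ ∈ Gamma0 (2 ^ t) → F ∣[(k : ℤ)] γ = F)
    (hFe : ∀ γ : SL(2, ℤ), Ex (two O (-B)) R (F ∣[(k : ℤ)] γ)) :
    ∃ G, IsMF (Gamma0 M) ((k + 2 ^ n * H889.kk t : ℕ) : ℤ) G ∧
      Ex (two O (n + 1 - B)) (R * 2 ^ t) fun τ => G τ - F τ := by
  have hH1 : Ex (two O 1) (R * 2 ^ t) (fun τ => H889.H t τ - 1) := by
    have h1 := Ex.up one_pos (S := R * 2 ^ t) (by positivity) (H889.H_one O t)
    rw [one_mul] at h1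
    refine Ex.congr (fun τ => ?_) (Ex.smul (c := 2) (B := two O 1) (fun a ha => ⟨a, ha, by simp⟩)
      h1)
    push_cast
    ring
  have hH2 : ∀ γ : SL(2, ℤ), γ ∉ Gamma0 (2 ^ t) →
      Ex (two O 1) (R * 2 ^ t) (H889.H t ∣[((H889.kk t : ℕ) : ℤ)] γ) := fun γ hγ => by
    have h2 := Ex.up (by positivity) (S := R) hR
      (H889.H_off O hO t γ fun h => hγ (gamma0_of_dvd h))
    rw [mul_comm] at h2
    refine Ex.congr (fun τ => ?_) (Ex.smul (c := 2) (B := two O 1) (fun a ha => ⟨a, ha, by simp⟩)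
      h2)
    ring
  have hH := fun γ (h : γ ∈ Gamma0 (2 ^ t)) => H889.H_inv t γ (dvd_of_gamma0 h)
  have hE := fun γ => Ex.up hR (Nat.two_pow_pos t) (hFe γ)
  generalize H889.H t = H, H889.kk t = h at hH1 hH2 hH
  have e1 := slash_mul_pow k h (2 ^ n) F H
  generalize (fun τ => F τ * H τ ^ 2 ^ n) = f, ((k + 2 ^ n * h : ℕ) : ℤ) = w at e1
  have hle : ((n : ℤ) + 1) ≤ ((2 ^ n : ℕ) : ℤ) := by exact_mod_cast Nat.lt_two_pow_self
  have e2 : ∀ γ : SL(2, ℤ), γ ∉ Gamma0 (2 ^ t) →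
      Ex (two O (n + 1 - B)) (R * 2 ^ t) (f ∣[w] γ) := fun γ hγ => by
    rw [e1]
    exact Ex.mono (two_anti O (by linarith)) (Ex.mul (two_mul_mem (m := -B) (n := (2 ^ n : ℕ)))
      (hE γ) (Ex_pow (hH2 γ hγ) (2 ^ n)))
  have e3 : ∀ γ ∈ Gamma0 (2 ^ t), Ex (two O (n + 1 - B)) (R * 2 ^ t)
      (fun τ => (f ∣[w] γ) τ - (F ∣[(k : ℤ)] γ) τ) := fun γ hγ => by
    rw [e1, hH γ hγ]
    exact Ex.congr (fun τ => by ring) (Ex.mono (two_anti O (by linarith))
      (Ex.mul (two_mul_mem (m := -B) (n := (n + 1))) (hE γ) (Ex_one_pow hH1 n)))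
  have e4 : ∀ γ : SL(2, ℤ), Ex (two O (-B)) (R * 2 ^ t) (f ∣[w] γ) := fun γ => by
    by_cases hγ : γ ∈ Gamma0 (2 ^ t)
    · exact Ex.congr (fun τ => by ring)
        (Ex.add (Ex.mono (two_anti O (by linarith)) (e3 γ hγ)) (hE γ))
    · exact Ex.mono (two_anti O (by linarith)) (e2 γ hγ)
  have : NeZero (2 ^ t) := ⟨by positivity⟩
  obtain ⟨ι, _, _, i0, r, h0, h1, h2, -, -, h5⟩ := H875.cos (N := M) (M := 2 ^ t)
    (Nat.Coprime.pow_right t (Nat.coprime_two_right.2 hM))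
  have h1' : ∀ i, r i ∈ Gamma0 M := fun i => Gamma0_mem.2 (Gamma_mem.1 (h1 i)).2.2.1
  have e5 : ∀ γ : SL(2, ℤ), Ex (two O (-B)) (R * 2 ^ t) ((∑ i, f ∣[w] r i) ∣[w] γ) := fun γ => by
    rw [SlashAction.sum_slash]
    refine Ex.congr (fun τ => Finset.sum_apply _ _ _) (Ex.sum _ fun i _ => ?_)
    rw [slash_mk]
    exact e4 _
  have e6 := e5 1
  rw [slash_one_eq] at e6
  refine ⟨∑ i, f ∣[w] r i, ⟨Ex_mdiff (by positivity) e6, fun δ hδ => ?_,
    fun γ => Ex_bdd (e5 γ)⟩, ?_⟩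
  · obtain ⟨σ, hσ⟩ := h5 δ
    rw [SlashAction.sum_slash, ← Equiv.sum_comp σ fun i => f ∣[w] r i]
    refine Finset.sum_congr rfl fun i _ => ?_
    rw [slash_mk, ← inv_mul_cancel_right (r i * δ) (r (σ i)), ← slash_mk, e1,
      hF _ (mul_mem (mul_mem (h1' i) hδ) (inv_mem (h1' _))) (hσ i), hH _ (hσ i), ← slash_one_eq k F,
      ← slash_one_eq h H, ← e1, slash_one_eq]
  · refine Ex.congr (fun τ => ?_) (Ex.add (e3 1 (one_mem _)) (Ex.sum (Finset.univ.erase i0)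
      fun i hi => e2 (r i) fun h => Finset.ne_of_mem_erase hi (h2 i h)))
    rw [Finset.sum_apply, ← Finset.add_sum_erase _ _ (Finset.mem_univ i0), h0, slash_one_eq k]
    ring

variable {A : ValuationSubring ℂ}

theorem le_of_two {j : ℕ} {x : ℂ} (h : x ∈ two A.toSubring j) :
    A.valuation x ≤ A.valuation 2 ^ j := by
  obtain ⟨y, hy, rfl⟩ := h
  rw [map_mul, zpow_natCast, map_pow]
  exact mul_le_of_le_one_right' ((A.valuation_le_one_iff y).2 hy)

theorem root_mem (z : ℂ) (n : ℕ) (hn : 0 < n) (h : z ^ n = 1) : z ∈ A.toSubring := by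
  refine (A.valuation_le_one_iff z).1 ((pow_eq_one_iff_left hn.ne').1 ?_).le
  rw [← map_pow, h, map_one]

variable (h2 : A.valuation 2 < 1)

include h2

theorem odd_mem (m : ℕ) (h : Odd m) : (m : ℂ)⁻¹ ∈ A.toSubring := by
  obtain ⟨a, rfl⟩ := h
  refine (A.valuation_le_one_iff _).1 ?_
  rw [map_inv₀, Nat.cast_add, Nat.cast_one, add_comm, Valuation.map_one_add_of_lt, inv_one]
  rw [Nat.cast_mul, map_mul]
  exact mul_lt_one_of_lt_of_le h2 ((A.valuation_le_one_iff _).2 (natCast_mem A a))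

theorem bd (hA : Irr.Arch A) {L k : ℕ} (hL : 0 < L) {f : ℍ → ℂ} (h : IsMF (Gamma0 L) k f) :
    ∃ B : ℕ, ∀ γ : SL(2, ℤ), Ex (two A.toSubring (-B)) L (f ∣[(k : ℤ)] γ) := by
  have : NeZero L := ⟨hL.ne'⟩
  have h1 : IsMF (Gamma L) k f := h.mono fun γ h => Gamma0_mem.2 (Gamma_mem.1 h).2.2.1
  obtain ⟨c, c0, hc⟩ := Irr.bnd A hA hL h1
  obtain ⟨B, hB⟩ := hA 2⁻¹ c (fun e => by
    have := (A.valuation_le_one_iff _).2 e
    rw [map_inv₀, inv_le_one₀ (zero_lt_iff.2 ((map_ne_zero _).2 two_ne_zero))] at this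
    exact h2.not_ge this) c0
  refine ⟨B, fun γ => ⟨_, fun n => ⟨_, mul_mem ((A.mem_or_inv_mem _).resolve_left hB) (hc γ n),
    ?_⟩, exq hL (Irr.conjN h1 γ) (Irr.T_pow_Gamma L)⟩⟩
  rw [_root_.zpow_neg, zpow_natCast, inv_pow]
  field_simp

/-- **SE** -/
theorem se0 (hA : Irr.Arch A) (M s B : ℕ) (f : ℕ → ℍ → ℂ) (c : ℕ → ℕ → ℂ) (hM : Odd M)
    (hf : ∀ m, IsMF (Gamma0 (M * 2 ^ s)) ((2 * m + 2 : ℕ) : ℤ) (f m) ∧ Sm (c m) (f m)) (j : ℕ) :
    ∃ (w : ℕ) (H : ℍ → ℂ) (d : ℕ → ℂ), IsMF (Gamma0 M) ((2 * (B + 2 ^ j * w) + 2 : ℕ) : ℤ) H ∧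
      Sm d H ∧ ∀ n : ℕ, A.valuation (d n - ∑ m ∈ Finset.range (B + 1),
        (n : ℂ) ^ (B - m) * c m n) ≤ A.valuation 2 ^ j := by
  have hL : 0 < M * 2 ^ s := Nat.mul_pos hM.pos (Nat.two_pow_pos s)
  choose b hb using fun m => bd h2 hA hL (hf m).1
  obtain ⟨b0, h0⟩ := ((Finset.range (B + 1)).image b).bddAbove
  have hb0 : ∀ m ∈ Finset.range (B + 1), ∀ γ, Ex (two A.toSubring (-b0)) _ _ := fun m hm γ =>
    Ex.mono (two_anti _ (neg_le_neg (Int.ofNat_le.2 (h0 (by simpa using ⟨m, by simpa using hm,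
      rfl⟩))))) (hb m γ)
  obtain ⟨t, ht⟩ : ∃ t, t = s + j + b0 + 2 := ⟨_, rfl⟩
  choose b' R' p' h' using itM_cusps root_mem (odd_mem h2) t b0 _ hL
  have ew : ∀ m ∈ Finset.range (B + 1), 2 * m + 2 + 2 * (B - m) = 2 * B + 2 := fun m hm => by
    have := Finset.mem_range.1 hm
    omega
  obtain ⟨G, g1, g2⟩ := tr0 (rs_self root_mem) (t := t) (k := 2 * B + 2) hM
    (R := ∏ i ∈ Finset.range (B + 1), R' (B - i)) (Finset.prod_pos fun i _ => p' _)
    (∑ i ∈ Finset.range (B + 1), b' (B - i)) (j + 1 + ∑ i ∈ Finset.range (B + 1), b' (B - i))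
    (F := ∑ m ∈ Finset.range (B + 1), itM t (2 * m + 2) (f m) (B - m)) (fun γ h1 h3 => by
      rw [SlashAction.sum_slash]
      refine Finset.sum_congr rfl fun m hm => ?_
      rw [← ew m hm, itM_slash' t _ (hf m).1.hol γ (dvd_of_gamma0 h3), (hf m).1.slash]
      refine gamma0_of_dvd ?_
      rw [Nat.cast_mul]
      exact IsCoprime.mul_dvd (Nat.isCoprime_iff_coprime.2 (Nat.Coprime.pow_right s
        (Nat.coprime_two_right.2 hM))) (dvd_of_gamma0 h1) ((Int.natCast_dvd_natCast.2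
          (pow_dvd_pow 2 (by omega))).trans (dvd_of_gamma0 h3))) fun γ => by
      rw [SlashAction.sum_slash]
      refine Ex.congr (fun τ => Finset.sum_apply _ _ _) (Ex.sum _ fun m hm => ?_)
      rw [← ew m hm, ← Finset.mul_prod_erase _ _ hm]
      exact Ex.mono (two_anti _ (neg_le_neg (Int.ofNat_le.2
        (Finset.single_le_sum (f := fun i => b' (B - i)) (fun _ _ => Nat.zero_le _) hm))))
        (Ex.up (p' _) (Finset.prod_pos fun i _ => p' _) (h' _ _ _ (hb0 m hm) γ))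
  have hG : Hs G _ := exq one_pos g1 (gamma0_of_dvd (by rw [pow_one]; simp [ModularGroup.T]))
  have hc := fun m => sm_iff.1 (hf m).2
  choose! e e1 e2 using fun m (hm : m ∈ Finset.range (B + 1)) =>
    itM_coeff (by simpa using odd_mem h2 3 (by decide)) root_mem t (2 * m + 2) (by omega) (-b0)
      (f m) (c m) ((hc m).mem hL (slash_one_eq _ (f m) ▸ hb0 m hm 1)) (hc m) (B - m)
  refine ⟨2 ^ (∑ i ∈ Finset.range (B + 1), b' (B - i)) * H889.kk t, G, _, ?_, sm_iff.2 hG,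
    fun n => le_of_two ?_⟩
  · convert g1 using 2
    ring
  · have h3 := (hG.sub (Hs.sum _ e2)).mem (Nat.mul_pos (Finset.prod_pos fun i _ => p' _)
      (Nat.two_pow_pos t))      (Ex.congr (fun τ => by rw [Finset.sum_apply]) g2) n
    have h4 := (two _ _).sum_mem fun m hm => e1 m hm n
    rw [Finset.sum_sub_distrib] at h4
    have := add_mem (two_anti _ (m := j) (by push_cast; omega) h3)
      (two_anti _ (m := j) (by omega) h4)
    rwa [sub_add_sub_cancel] at this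

end Vale.Agent.P004M.D.Se
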