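import Vale.Agent.P004M.D.St
import Vale.Agent.P004M.D.Se
import Vale.Agent.P004M.D.Du0

/-!
# P004M, route D, rows DU and SE
-/

set_option autoImplicit false

namespace Vale.Agent.P004M.D

theorem du : DU := fun A h N _ a _ h6 j => Du.du0 A h.two N a h6 j

theorem se : SE := fun _ h => Se.se0 h.two h.arch

end Vale.Agent.P004M.D
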