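import Vale.Agent.P004M.D.Hk2

/-!
# P004M, route D, row D0
-/

set_option autoImplicit false
set_option linter.all false

noncomputable section

namespace Vale.Agent.P004M.D

open Vale.Agent.P022 Vale.Agent.P022K.UC Vale.Agent.P022K.UC.Hm Hk

/-- **D0** -/
theorem d0 (hU : DU) (hS : SE) : D0 := by
  intro A hA N _ a hN ha j
  obtain ⟨x, B, f, c, hx, xa, hf, e1⟩ := hU A hA N a hN ha (j + 1)
  obtain ⟨w, H, d, h1, h2, e2⟩ := hS A hA (N ^ 3) 5 B f c hN.pow hf (j + 1)
  have e : ∀ n : ℕ, A.valuation (d n - (n : ℂ) ^ (B + 2 ^ (j + 1) * w) * x n) ≤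
      A.valuation 2 ^ (j + 1) := fun n => by
    obtain ⟨k, hk⟩ : (2 : ℤ) ^ (j + 1) ∣ ((n : ℤ) ^ (2 ^ (j + 1) * w) - 1) * x n := by
      rcases Nat.even_or_odd' n with ⟨k, rfl | rfl⟩
      · rw [hx.dep _ fun e => by simpa using e.coprime_mul_right.coprime_mul_right_right, mul_zero]
        exact dvd_zero _
      · refine Dvd.dvd.mul_right ?_ _
        have := dvd_sub_pow_of_dvd_sub (R := ℤ) (p := 2) (a := (2 * k + 1 : ℕ)) (b := 1)
          ⟨k, by push_cast; ring⟩ (j + 1)
        rw [one_pow] at this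
        rw [pow_mul]
        exact ((pow_dvd_pow _ (Nat.le_succ _)).trans this).trans (sub_one_dvd_pow_sub_one _ _)
    have hk' : ((n : ℂ) ^ (2 ^ (j + 1) * w) - 1) * x n = 2 ^ (j + 1) * k := by exact_mod_cast hk
    rw [show d n - (n : ℂ) ^ (B + 2 ^ (j + 1) * w) * x n =
      (d n - ∑ m ∈ Finset.range (B + 1), (n : ℂ) ^ (B - m) * c m n) - ((n : ℂ) ^ B * x n -
        ∑ m ∈ Finset.range (B + 1), (n : ℂ) ^ (B - m) * c m n) - (n ^ B * k) * 2 ^ (j + 1) by
      linear_combination (-(n : ℂ) ^ B) * hk']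
    exact A.valuation.map_sub_le (A.valuation.map_sub_le (e2 n) (e1 n))
      (val_mul_le (mul_mem (pow_mem (natCast_mem A n) _) (intCast_mem A k)) (map_pow _ _ _).le)
  generalize B + 2 ^ (j + 1) * w = m at h1 e
  have lt : A.valuation 2 ^ (j + 1) < 1 := pow_lt_one₀ zero_le' hA.two (Nat.succ_ne_zero j)
  refine ⟨m, H, d, ⟨h1, h2, fun n => ?_⟩, ?_, fun l hl k n => ?_⟩
  · have := add_mem (mem_of_lt ((e n).trans_lt lt))
      (mul_mem (pow_mem (natCast_mem A n) m) (intCast_mem A (x n)))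
    rwa [sub_add_cancel] at this
  · have := A.valuation.map_one_add_of_lt ((e 1).trans_lt lt)
    simpa [hx.one] using this
  · have k1 : ((x (l * n) : ℤ) : ℂ) + (if l ∣ n then (l : ℂ) * x (n / l) else 0) = a l * x n := by
      have := congrArg (Int.cast : ℤ → ℂ) (hx.hecke ⟨l, hl, k⟩ n)
      rw [xa ⟨l, hl, k⟩] at this
      push_cast at this
      exact this
    refine le_trans ?_ (pow_le_pow_right_of_le_one' hA.two.le (Nat.le_succ j))
    have lA := natCast_mem A l
    have k2 := A.valuation.map_sub_le (e (l * n))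
      (val_mul_le (mul_mem (pow_mem lA m) (intCast_mem A (a l))) (e n))
    split_ifs at k1 ⊢ with k3
    · obtain ⟨n, rfl⟩ := k3
      rw [Nat.mul_div_cancel_left _ hl.pos] at k1 ⊢
      refine le_of_eq_of_le (congrArg _ ?_) (A.valuation.map_add_le k2
        (val_mul_le (pow_mem lA (2 * m + 1)) (e n)))
      push_cast
      linear_combination ((l : ℂ) * (l * n)) ^ m * k1
    · refine le_of_eq_of_le (congrArg _ ?_) k2
      push_cast
      linear_combination ((l : ℂ) * n) ^ m * k1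

end Vale.Agent.P004M.D
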