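import Vale.Agent.P004M.D.Iv1

/-!
# P004M, route D, row LIP: close points have close values
-/

set_option autoImplicit false
set_option linter.all false

open UpperHalfPlane hiding I
open Polynomial CongruenceSubgroup Filter
open scoped MatrixGroups ModularForm Manifold Real Classical

noncomputable section

namespace Vale.Agent.P004M.D.Iv

open Vale.Agent.P027H Vale.Agent.P022.H218.L3 Vale.Agent.P022.H236.L3 Vale.Agent.P022.H542.L3
  Vale.Agent.P022D.Irr Vale.Agent.P027M.M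

variable {A : ValuationSubring ℂ}

/-- close integral numbers -/
structure Cl (A : ValuationSubring ℂ) (e : A.ValueGroup) (a b : ℂ) : Prop where
  l : a ∈ A
  r : b ∈ A
  le : A.valuation (a - b) ≤ e

namespace Cl
variable {e : A.ValueGroup} {a b c d : ℂ}

theorem rf (e : A.ValueGroup) (h : a ∈ A) : Cl A e a a := ⟨h, h, by simp⟩

theorem sub (h : Cl A e a b) (h' : Cl A e c d) : Cl A e (a - c) (b - d) :=
  ⟨sub_mem h.l h'.l, sub_mem h.r h'.r, by
    rw [sub_sub_sub_comm]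
    exact A.valuation.map_sub_le h.le h'.le⟩

theorem add (h : Cl A e a b) (h' : Cl A e c d) : Cl A e (a + c) (b + d) :=
  ⟨add_mem h.l h'.l, add_mem h.r h'.r, by
    rw [add_sub_add_comm]
    exact A.valuation.map_add_le h.le h'.le⟩

theorem mul (h : Cl A e a b) (h' : Cl A e c d) : Cl A e (a * c) (b * d) :=
  ⟨mul_mem h.l h'.l, mul_mem h.r h'.r, by
    rw [show a * c - b * d = a * (c - d) + d * (a - b) by ring]
    exact A.valuation.map_add_le ((mul_le_l h.l).trans h'.le) ((mul_le_l h'.r).trans h.le)⟩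

theorem pow (h : Cl A e a b) (n : ℕ) : Cl A e (a ^ n) (b ^ n) :=
  ⟨pow_mem h.l n, pow_mem h.r n, (pow_sub_le h.l h.r n).trans h.le⟩

theorem div (h : Cl A e a b) (h' : Cl A e c d) (hc : A.valuation c = 1)
    (hd : A.valuation d = 1) : Cl A e (a / c) (b / d) := by
  have c0 : c ≠ 0 := fun e => by simp [e] at hc
  have d0 : d ≠ 0 := fun e => by simp [e] at hd
  rw [div_eq_mul_inv, div_eq_mul_inv]
  refine h.mul ⟨?_, ?_, ?_⟩
  · rw [← A.valuation_le_one_iff, map_inv₀, hc, inv_one]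
  · rw [← A.valuation_le_one_iff, map_inv₀, hd, inv_one]
  · rw [inv_sub_inv c0 d0, map_div₀, map_mul, hc, hd, one_mul, div_one, Valuation.map_sub_swap]
    exact h'.le

theorem mono {e' : A.ValueGroup} (h : Cl A e a b) (k : e ≤ e') : Cl A e' a b :=
  ⟨h.l, h.r, h.le.trans k⟩

end Cl

theorem canc {a u : ℂ} {j b : ℕ} (hu : A.valuation 2 ^ b ≤ A.valuation u)
    (h : A.valuation (a * u) ≤ A.valuation 2 ^ (j + b)) : A.valuation a ≤ A.valuation 2 ^ j := by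
  rw [map_mul, pow_add] at h
  exact le_of_mul_le_mul_right ((mul_le_mul_right hu _).trans h) (pow_pos two_pos' b)

theorem canc' {a a' u u' : ℂ} {j b : ℕ} (hu : A.valuation 2 ^ b ≤ A.valuation u) (ha : a' ∈ A)
    (h : A.valuation (u - u') ≤ A.valuation 2 ^ (j + b))
    (h' : A.valuation (a' * u' - a * u) ≤ A.valuation 2 ^ (j + b)) :
    A.valuation (a - a') ≤ A.valuation 2 ^ j := by
  refine canc hu ?_
  rw [show (a - a') * u = -(a' * u' - a * u) - a' * (u - u') by ring]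
  exact A.valuation.map_sub_le (by rwa [Valuation.map_neg]) ((mul_le_l ha).trans h)

section
variable (h2 : A.valuation 2 < 1) (hA : Arch A)
include h2 hA

theorem ev_pow (c : ℂ) : ∀ᶠ b : ℕ in atTop, 2 ^ b * c ∈ A := by
  obtain ⟨b, hb⟩ := ex_pow h2 hA c
  filter_upwards [eventually_ge_atTop b] with a ha
  obtain ⟨d, rfl⟩ := Nat.exists_eq_add_of_le' ha
  rw [pow_add, mul_assoc]
  exact mul_mem (pow_mem (ofNat_mem A 2) _) hb

theorem ev_low {c : ℂ} (hc : c ≠ 0) : ∀ᶠ b : ℕ in atTop, A.valuation 2 ^ b ≤ A.valuation c := by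
  filter_upwards [ev_pow h2 hA c⁻¹] with b hb
  have := le1 hb
  rwa [← div_eq_mul_inv, map_div₀, map_pow, div_le_one₀ ((Valuation.pos_iff _).2 hc)] at this

theorem ev_poly (P : ℂ[X]) : ∀ᶠ b : ℕ in atTop, ∀ n, 2 ^ b * P.coeff n ∈ A := by
  filter_upwards [(eventually_all_finset P.support).2 fun n _ => ev_pow h2 hA (P.coeff n)]
    with b hb n
  by_cases h : n ∈ P.support
  · exact hb n h
  · rw [notMem_support_iff.1 h, mul_zero]
    exact A.zero_mem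

theorem low_poly {P : ℂ[X]} (hP : P ≠ 0) : ∃ Z : Finset A.ValueGroup, ∀ r ∉ Z, ∃ b : ℕ,
    ∀ t, A.valuation t = r → A.valuation 2 ^ b ≤ A.valuation (P.eval t) := by
  classical
  refine ⟨P.roots.toFinset.image A.valuation, fun r hr => ?_⟩
  obtain ⟨s, rfl⟩ := A.valuation_surjective r
  have k : ∀ ρ ∈ P.roots, A.valuation s ≠ A.valuation ρ := fun ρ h e =>
    hr (e ▸ Finset.mem_image_of_mem _ (Multiset.mem_toFinset.2 h))
  obtain ⟨b, hb⟩ := (ev_low h2 hA (c := P.eval s) fun e =>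
    k s ((mem_roots hP).2 e) rfl).exists
  refine ⟨b, fun t ht => hb.trans_eq ?_⟩
  rw [(IsAlgClosed.splits P).eval_eq_prod_roots, (IsAlgClosed.splits P).eval_eq_prod_roots,
    map_mul, map_mul, map_multiset_prod, map_multiset_prod, Multiset.map_map, Multiset.map_map]
  congr 2
  refine Multiset.map_congr rfl fun ρ h => ?_
  have := k ρ h
  simp only [Function.comp, sub_eq_add_neg]
  rw [Valuation.map_add_of_distinct_val, Valuation.map_add_of_distinct_val, ht]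
  · rwa [ht, Valuation.map_neg]
  · rwa [Valuation.map_neg]

omit h2 hA in
theorem eval_monic {α : Type} [Fintype α] (r : α → ℂ) (y : ℂ) : ∏ g, (y - r g) =
    y ^ Fintype.card α + ∑ i ∈ Finset.range (Fintype.card α),
      (∏ g, (X - C (r g))).coeff i * y ^ i := by
  have := congrArg (eval y) (monic_prod_of_monic Finset.univ (fun g => X - C (r g))
    fun g _ => monic_X_sub_C _).as_sum
  simpa only [eval_prod, eval_sub, eval_X, eval_C, eval_add, eval_pow, eval_finset_sum, eval_mul,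
    deg_prod] using this

variable {N : ℕ} [NeZero N]

theorem near1 (x : WW N) (j : ℕ) : ∀ᶠ i : ℕ in atTop, ∀ τ τ' : ℍ,
    Cl A (A.valuation 2 ^ i) (jf τ) (jf τ') →
      ∃ g : GG N, A.valuation (x.1 τ' - (g • x).1 τ) ≤ A.valuation 2 ^ j := by
  obtain ⟨P, hP⟩ := chi x
  obtain ⟨b, hb⟩ := ((eventually_all_finset (Finset.range (Fintype.card (GG N)))).2
    fun i _ => ev_poly h2 hA (P i)).exists
  have hQ : ∀ i < Fintype.card (GG N), ∀ m,
      (P i * C ((2 ^ b) ^ (Fintype.card (GG N) - i))).coeff m ∈ A := fun i hi m => by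
    obtain ⟨d, hd⟩ := Nat.exists_eq_add_of_le' (Nat.sub_pos_of_lt hi)
    rw [coeff_mul_C, hd, pow_succ, mul_comm, mul_assoc]
    exact mul_mem (pow_mem (pow_mem (ofNat_mem A 2) _) _) (hb i (Finset.mem_range.2 hi) m)
  have e : ∀ τ i, (∏ g : GG N, (X - C ((g • x).1 τ * 2 ^ b))).coeff i =
      (P i * C ((2 ^ b) ^ (Fintype.card (GG N) - i))).eval (jf τ) := fun τ i => by
    rw [coeff_scale, (hP i).2, eval_mul, eval_C]
  filter_upwards [eventually_gt_atTop ((j + b) * Fintype.card (GG N))] with i hi τ τ' h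
  have y := root_mem (fun g : GG N => (g • x).1 τ' * 2 ^ b)
    (fun i hi => by rw [e]; exact eval_mem (hQ i hi) h.r) 1
  have e1 := eval_monic (fun g : GG N => (g • x).1 τ * 2 ^ b) (((1 : GG N) • x).1 τ' * 2 ^ b)
  have e2 := eval_monic (fun g : GG N => (g • x).1 τ' * 2 ^ b) (((1 : GG N) • x).1 τ' * 2 ^ b)
  rw [Finset.prod_eq_zero (Finset.mem_univ 1) (sub_self _)] at e2
  rw [one_smul] at y e1 e2
  have e3 := congrArg₂ (· - ·) e1 e2
  simp only [sub_zero, add_sub_add_left_eq_sub, ← Finset.sum_sub_distrib, ← sub_mul, e] at e3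
  have k : A.valuation (∏ g : GG N, (x.1 τ' - (g • x).1 τ) * 2 ^ b) ≤ A.valuation 2 ^ i := by
    rw [e3]
    refine A.valuation.map_sum_le fun i hi => ?_
    rw [mul_comm]
    exact (mul_le_l (pow_mem y i)).trans
      ((eval_sub_le (hQ i (Finset.mem_range.1 hi)) h.l h.r).trans h.le)
  by_contra! hc
  rw [map_prod] at k
  refine (pow_lt_pow_right_of_lt_one₀ two_pos' h2 hi).not_ge (le_trans ?_ k)
  rw [pow_mul]
  refine Finset.pow_card_le_prod _ _ _ fun g _ => ?_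
  rw [map_mul, map_pow, pow_add]
  exact mul_le_mul_left (hc g).le _

theorem near2 (x y : WW N) (j : ℕ) : ∃ i : ℕ, ∀ τ τ' : ℍ,
    Cl A (A.valuation 2 ^ i) (jf τ) (jf τ') →
      ∃ g : GG N, A.valuation (x.1 τ' - (g • x).1 τ) ≤ A.valuation 2 ^ j ∧
        A.valuation (y.1 τ' - (g • y).1 τ) ≤ A.valuation 2 ^ j := by
  obtain ⟨b, hb⟩ := (eventually_all.2 fun p : Fin (Fintype.card (GG N) + 1) × Fin (Fintype.card
    (GG N) + 1) => show ∀ᶠ b : ℕ in atTop, p.1 ≠ p.2 → A.valuation 2 ^ b ≤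
      A.valuation (((p.1 : ℕ) : ℂ) - (p.2 : ℕ)) from by
    by_cases h : p.1 = p.2
    · exact .of_forall fun _ e => (e h).elim
    · exact (ev_low h2 hA (sub_ne_zero.2 fun e => h (Fin.ext (Nat.cast_injective e)))).mono
        fun _ e _ => e).exists
  obtain ⟨i, hi⟩ := (eventually_all.2 fun a : Fin (Fintype.card (GG N) + 1) =>
    near1 h2 hA (x + cst N (a : ℕ) * y) (j + b)).exists
  refine ⟨i, fun τ τ' h => ?_⟩
  choose g hg using fun a => hi a τ τ' h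
  have e : ∀ a : Fin (Fintype.card (GG N) + 1), (x + cst N (a : ℕ) * y).1 τ' -
      (g a • (x + cst N (a : ℕ) * y)).1 τ = x.1 τ' - (g a • x).1 τ +
        (a : ℕ) * (y.1 τ' - (g a • y).1 τ) := fun a => by
    obtain ⟨γ, hγ⟩ := pr_surj N (g a)
    rw [← hγ]
    show x.1 τ' + ((a : ℕ) : ℂ) * y.1 τ' - (x.1 (γ⁻¹ • τ) + ((a : ℕ) : ℂ) * y.1 (γ⁻¹ • τ)) =
      x.1 τ' - x.1 (γ⁻¹ • τ) + (a : ℕ) * (y.1 τ' - y.1 (γ⁻¹ • τ))
    ring
  simp only [e] at hg
  obtain ⟨a, a', ne, k⟩ := Fintype.exists_ne_map_eq_of_card_lt g (by simp)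
  have k1 := A.valuation.map_sub_le (hg a) (hg a')
  rw [← k, add_sub_add_left_eq_sub, ← sub_mul, mul_comm] at k1
  have k2 := canc (hb (a, a') ne) k1
  refine ⟨g a, ?_, k2⟩
  have := A.valuation.map_sub_le ((hg a).trans (two_anti h2 (Nat.le_add_right j b)))
    ((mul_le_l (natCast_mem A a)).trans k2)
  rwa [add_sub_cancel_right] at this

end

/-- the value of `E₄ E₆ / Δ` -/
def uu (t : ℂ) : ℂ := (t ^ 4 - 24 * t) * (t ^ 6 - 36 * t ^ 3 + 216) / (t ^ 3 - 27)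

variable {Λ Λ' : Submodule ℤ ℂ} {t t' ω ω' : ℂ} {τ τ' : ℍ} {e : A.ValueGroup}

theorem cl_uu (h : Ss A Λ t) (h' : Ss A Λ' t') (c : Cl A e t t') : Cl A e (uu t) (uu t') :=
  (((c.pow 4).sub ((Cl.rf e (ofNat_mem A 24)).mul c)).mul
    (((c.pow 6).sub ((Cl.rf e (ofNat_mem A 36)).mul (c.pow 3))).add (.rf e (ofNat_mem A 216)))).div
      ((c.pow 3).sub (.rf e (ofNat_mem A 27))) (val_D h) (val_D h')

theorem cl_jf (h : Ss A Λ t) (h' : Ss A Λ' t') (b : B Λ ω τ) (b' : B Λ' ω' τ')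
    (c : Cl A e t t') : Cl A e (jf τ) (jf τ') := by
  rw [jf_eq h.toNm b, jf_eq h'.toNm b']
  exact (((c.pow 4).sub ((Cl.rf e (ofNat_mem A 24)).mul c)).pow 3).div
    ((c.pow 3).sub (.rf e (ofNat_mem A 27))) (val_D h) (val_D h')

theorem low_uu (h2 : A.valuation 2 < 1) (hA : Arch A) : ∃ Z : Finset A.ValueGroup, ∀ r ∉ Z,
    ∃ b : ℕ, ∀ Λ t, Ss A Λ t → A.valuation t = r → A.valuation 2 ^ b ≤ A.valuation (uu t) := by
  obtain ⟨Z, hZ⟩ := low_poly h2 hA
    (P := (X ^ 4 - C 24 * X) * (X ^ 6 - C 36 * X ^ 3 + C 216)) fun e => by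
      have := congrArg (eval 1) e
      norm_num at this
  refine ⟨Z, fun r hr => (hZ r hr).imp fun b hb Λ t h ht => (hb t ht).trans_eq ?_⟩
  rw [uu, map_div₀, val_D h, div_one]
  simp

theorem ex_W {N : ℕ} [NeZero N] {m : ℕ} {f : ℍ → ℂ} (hf : IsMF (Gamma N) (2 * m : ℕ) f) :
    ∃ x : WW N, ∀ Λ t ω τ, Nm Λ t → B Λ ω τ → x.1 τ = w (2 * m) f ω τ * uu t ^ m := by
  have h1 := hf.mul (((isMF_E4.mul (isMF_top ModularForm.E₆)).pow m).mono le_top)
  rw [show ((2 * m : ℕ) : ℤ) + m * (4 + 6) = m * 12 by push_cast; ring] at h1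
  refine ⟨⟨_, div_mem_WW h1 (disc_pow _ m) (disc_pow_ne m)⟩, fun Λ t ω τ h b => ?_⟩
  have c0 := tp_ne b
  have d0 := ModularForm.discriminant_ne_zero τ
  rw [uu, ← w4 h b, ← w6 h b, ← w12 h b, w, w, w, w]
  generalize (2 * π * Complex.I / ω : ℂ) = c at c0
  rw [show c ^ 4 * ModularForm.E₄ τ * (c ^ 6 * ModularForm.E₆ τ) /
    (c ^ 12 * ModularForm.discriminant τ) = ModularForm.E₄ τ * ModularForm.E₆ τ /
      ModularForm.discriminant τ / c ^ 2 by field_simp, div_pow, div_pow, pow_mul]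
  simp only [Pi.div_apply, Pi.mul_apply, Pi.pow_apply]
  field_simp

theorem xv_mf {M : ℕ} (hM : 1 < M) : IsMF (Gamma (M * 4)) (2 * 1 : ℕ) (xv M ![0, 1]) := by
  have lv : Lv (M * 4) := ⟨by omega, dvd_mul_left _ _⟩
  have z : P027M.M.NZ (M * 4) ![0, 4] := Pre.nz_of 1 (by simp) (by
    simp only [Matrix.cons_val_one, Matrix.cons_val_zero, abs_lt]
    omega)
  have h := (((Pre.Wf_isMF lv.pos z (Pre.nz1 lv)).add (Pre.Wf_isMF lv.pos z (Pre.nz2 lv))).add
    (Pre.Wf_isMF lv.pos z (Pre.nz3 lv))).smul 3⁻¹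
  have e : xv (M * 4) ![0, 4] = xv M ![0, 1] := xv_level lv.pos (by omega) (by
    rw [Fin.forall_fin_two]
    simp)
  refine (show xv M ![0, 1] = _ from funext fun τ => ?_) ▸
    h.mono (P022.H231.L3.Gamma_le _ _ dvd_rfl)
  simp only [Pi.smul_apply, Pi.add_apply, Wf_apply, e, Pre.xv1 lv, Pre.xv2 lv, Pre.xv3 lv,
    smul_eq_mul]
  linear_combination 3⁻¹ * B1.xv_sum τ

theorem B.div_mem (b : B Λ ω τ) {M : ℕ} (hM : 0 < M) {c d : ℤ}
    (h : ω * (c * (τ : ℂ) + d) / M ∈ Λ) : (M : ℤ) ∣ c ∧ (M : ℤ) ∣ d := by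
  have := (zt_mem (v := ![c, d]) (τ := τ) hM).1 ((b.hom.2 _).2 (mem_of_eq h (by
    simp only [zt, Matrix.cons_val_one, Matrix.cons_val_zero]
    ring)))
  exact ⟨not_not.1 this 0, not_not.1 this 1⟩

theorem B.ot (b : B Λ ω τ) {M : ℕ} (hM : Odd M) : OT Λ (ω / M) :=
  ⟨M, hM, (b.2 _).2 ⟨0, 1, by
    have : (M : ℂ) ≠ 0 := Nat.cast_ne_zero.2 hM.pos.ne'
    field_simp
    simp⟩⟩

theorem rd_ne (h : Ss A Λ t) (b : B Λ ω τ) {M : ℕ} (hM : Odd M) (h1 : 1 < M) {u : ℤ}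
    (hu : IsCoprime u M) : h.rd (u * (ω / M)) ≠ 0 := fun e => by
  have := (b.div_mem hM.pos (c := 0) (d := u)
    (mem_of_eq (h.inj ((b.ot hM).int_mul u) e) (by simp; ring))).2
  have := Int.isUnit_iff.1 (hu.isUnit_of_dvd' this dvd_rfl)
  omega

theorem rd_ne1 (h : Ss A Λ t) (b : B Λ ω τ) {M : ℕ} (hM : Odd M) (h1 : 1 < M) :
    h.rd (ω / M) ≠ 0 := by
  simpa using rd_ne h b hM h1 (u := 1) isCoprime_one_left

/-- **LIP** -/
theorem lip0 (h2 : A.valuation 2 < 1) (hA : Arch A) : ∃ Z : Finset A.ValueGroup,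
    ∀ (M : ℕ), Odd M → ∀ (m : ℕ) (f : ℍ → ℂ), IsMF (Gamma0 M) (2 * m : ℕ) f →
    (∀ Λ t ω τ, Ss A Λ t → B Λ ω τ → w (2 * m) f ω τ ∈ A) → ∀ r ∉ Z, ∀ j : ℕ, ∃ i : ℕ,
    ∀ (Λ Λ' : Submodule ℤ ℂ) (t t' ω ω' : ℂ) (τ τ' : ℍ) (h : Ss A Λ t) (h' : Ss A Λ' t') (u : ℤ),
      B Λ ω τ → B Λ' ω' τ' → A.valuation t = r →
      A.valuation (t - t') ≤ A.valuation 2 ^ i → IsCoprime u (M : ℤ) →
      xc (h'.rd (ω' / M)) = xc (h.rd (u * (ω / M))) →
      A.valuation (w (2 * m) f ω τ - w (2 * m) f ω' τ') ≤ A.valuation 2 ^ j := by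
  obtain ⟨Z, hZ⟩ := low_uu h2 hA
  refine ⟨Z, fun M hM m f hf hi r hr j => ?_⟩
  obtain ⟨B, hB⟩ := hZ r hr
  have : NeZero M := ⟨hM.pos.ne'⟩
  obtain ⟨x, hx⟩ := ex_W (N := M * 4) (hf.mono (gamma_le.trans fun γ h =>
    Gamma0_mem.2 (Gamma_mem.1 h).2.2.1))
  obtain ⟨y, hy⟩ : ∃ y : WW (M * 4), 1 < M → ∀ Λ t ω τ, Nm Λ t → Iv.B Λ ω τ →
      y.1 τ = wp Λ (ω / M) * uu t := by
    by_cases h1 : 1 < M
    · obtain ⟨y, hy⟩ := ex_W (xv_mf h1)
      refine ⟨y, fun _ Λ t ω τ h b => ?_⟩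
      rw [hy Λ t ω τ h b, pow_one, mul_one, w_wp b]
      simp [zt, div_eq_mul_inv]
    · exact ⟨0, fun h => (h1 h).elim⟩
  obtain ⟨i, hi'⟩ := near2 h2 hA x y (j + B * m + 3 + B)
  refine ⟨i + (j + B * m + 3 + B), fun Λ Λ' t t' ω ω' τ τ' h h' u b b' ht hd hu e => ?_⟩
  have c : Cl A _ t t' := ⟨h.mem, h'.mem, hd⟩
  obtain ⟨g, k1, k2⟩ := hi' τ τ' ((cl_jf h h' b b' c).mono (two_anti h2 (by omega)))
  obtain ⟨γ, rfl⟩ := pr_surj _ g
  obtain ⟨δ, rfl⟩ := inv_surjective γ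
  have b1 := b.smul δ
  simp only [smul_coe, inv_inv] at k1 k2
  have hδ : δ ∈ Gamma0 M := by
    rw [Gamma0_mem, ZMod.intCast_zmod_eq_zero_iff_dvd]
    by_cases h1 : 1 < M
    swap
    · rw [show M = 1 by have := hM.pos; omega]
      exact one_dvd _
    have n1 := rd_ne1 h b1 hM h1
    have n2 := rd_ne1 h' b' hM h1
    have m1 := (h.rd_ne_zero.1 n1).2
    have m2 := (h'.rd_ne_zero.1 n2).2
    have k3 := (mul_le_l (ofNat_mem A 12)).trans k2
    have w1 : ∀ Λ t z, 12 * (wp Λ z * uu t) = (12 * xx Λ t z + t ^ 2) * uu t := fun Λ t z => by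
      rw [xx]
      ring
    rw [hy h1 _ _ _ _ h.toNm b1, hy h1 _ _ _ _ h'.toNm b', mul_sub, w1, w1] at k3
    have k4 := canc' (j := 3) (hB _ _ h ht) (add_mem (mul_mem (ofNat_mem A 12) m2)
      (pow_mem h'.mem 2)) ((cl_uu h h' c).le.trans (two_anti h2 (by omega)))
      (k3.trans (two_anti h2 (by omega)))
    have k5 := A.valuation.map_sub_le k4 ((c.pow 2).le.trans (two_anti h2 (a := 3) (by omega)))
    have v3 : A.valuation (3 : ℂ) = 1 := by exact_mod_cast val_odd h2 (n := 3) (by decide)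
    rw [show ∀ a b c d : ℂ, 12 * a + c - (12 * b + d) - (c - d) = (a - b) * (2 ^ 2 * 3) from
      fun _ _ _ _ => by ring] at k5
    have k6 := canc (j := 1) (b := 2) (by rw [map_mul, v3, map_pow, mul_one]) k5
    have k7 := h.xc_rd n1
    rw [← sub_add_cancel (xx Λ t _) (xx Λ' t' (ω' / M)), rs_add (sub_mem m1 m2) m2,
      (rs_eq_zero (sub_mem m1 m2)).2 (k6.trans_lt (by rwa [pow_one])), zero_add,
      ← h'.xc_rd n2] at k7
    have o := (b.ot hM).int_mul u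
    rcases xc_eq n1 (rd_ne h b hM h1 hu) (k7.trans e) with k | k
    · exact (b.div_mem hM.pos (d := δ 1 1 - u)
        (mem_of_eq (h.inj' (b1.ot hM) o k) (by push_cast; ring))).1
    · exact (b.div_mem hM.pos (d := δ 1 1 + u) (mem_of_eq (h.inj' (b1.ot hM) o.neg
        (k.trans (map_neg h.rd _).symm)) (by push_cast; ring))).1
  rw [hx _ _ _ _ h.toNm b1, hx _ _ _ _ h'.toNm b', w_smul, hf.slash δ hδ] at k1
  refine canc' (b := B * m) ?_ (hi _ _ _ _ h' b')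
    (((cl_uu h h' c).pow m).le.trans (two_anti h2 (by omega))) (k1.trans (two_anti h2 (by omega)))
  rw [pow_mul, map_pow]
  exact pow_le_pow_left₀ zero_le' (hB _ _ h ht) m

end Vale.Agent.P004M.D.Iv
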