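import Vale.Agent.P004M.D.St
import Vale.Agent.P004M.D.Iv2

/-!
# P004M, route D: the rows INT, NZ, LIP
-/

set_option autoImplicit false
set_option linter.all false

open UpperHalfPlane CongruenceSubgroup

noncomputable section

namespace Vale.Agent.P004M.D

open Vale.Agent.P022.H218.L3 Vale.Agent.P022.H236.L3 Vale.Agent.P022D.Irr

namespace Iv

variable {A : ValuationSubring ℂ} {M k : ℕ} {f : ℍ → ℂ} {c : ℕ → ℂ}

theorem inv_mem (h : Ok A) (hM : Odd M) : (M : ℂ)⁻¹ ∈ A := by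
  rw [← A.valuation_le_one_iff, map_inv₀, ← Int.cast_natCast, val_odd h.two hM.natCast, inv_one]

theorem mf (h : Fm A M k f c) : IsMF (Gamma M) k f :=
  h.mf.mono fun _ h => Gamma0_mem.2 (Gamma_mem.1 h).2.2.1

theorem ex (h : Fm A M k f c) : ExL 1 (HahnSeries.ofPowerSeries ℤ ℂ (PowerSeries.mk c)) f :=
  exL_of_hasSum (by simpa [P022K.UC.Sm, mul_comm] using h.sm)

theorem im (h : Fm A M k f c) : HahnSeries.ofPowerSeries ℤ ℂ (PowerSeries.mk c) ∈ Int A :=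
  ofPS_int.2 fun n => by simpa using h.int n

end Iv

/-- **INT** -/
theorem int : INT := fun A h M k f c hM hf Λ t ω τ hs b =>
  haveI : NeZero M := ⟨hM.pos.ne'⟩
  Iv.int0 h.arch (Iv.inv_mem h hM) (Iv.mf hf) (Iv.ex hf) (Iv.im hf) hs ⟨b.ne, b.mem⟩

/-- **NZ** -/
theorem nz : NZ := fun A h M k f c hM hf h1 Z => by
  have : NeZero M := ⟨hM.pos.ne'⟩
  obtain ⟨Λ, t, ω, τ, a, b, r⟩ := Iv.nz0 h.two h.arch (Iv.inv_mem h hM) (Iv.mf hf) (Iv.ex hf)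
    (Iv.im hf) (n := (1 : ℕ)) (by rwa [LaurentSeries.coeff_coe_powerSeries, PowerSeries.coeff_mk]) Z
  exact ⟨Λ, t, ω, τ, a, ⟨b.1, b.2⟩, r⟩

/-- **LIP** -/
theorem lip : LIP := fun A h M hM => by
  obtain ⟨Z, hZ⟩ := Iv.lip0 h.two h.arch
  refine ⟨Z, fun k f c hk hf r hr j => ?_⟩
  obtain ⟨m, rfl⟩ := hk.two_dvd
  obtain ⟨i, hi⟩ := hZ M hM m f hf.mf
    (fun Λ t ω τ s b => int A h M _ f c hM hf Λ t ω τ s ⟨b.1, b.2⟩) r hr j
  exact ⟨i, fun Λ Λ' t t' ω ω' τ τ' s s' u b b' e _ =>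
    hi Λ Λ' t t' ω ω' τ τ' s s' u ⟨b.ne, b.mem⟩ ⟨b'.ne, b'.mem⟩ e⟩

end Vale.Agent.P004M.D
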