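import Vale.Agent.P004M.D.HE0

/-!
# P004M, route D, block H: left ideals of prime norm in the Hurwitz order
-/

set_option autoImplicit false
set_option linter.all false

open scoped Classical

noncomputable section

namespace Vale.Agent.P004M.D.Hu

/-- equality up to a unit on the left -/
def st : Setoid Hu where
  r x y := ∃ u, nm u = 1 ∧ x = u * y
  iseqv := ⟨fun x => ⟨1, map_one _, (one_mul x).symm⟩,
    fun ⟨u, h1, h2⟩ => ⟨cj u, by rw [nm_cj, h1], by rw [h2, ← mul_assoc, cj_mul, h1]; simp⟩,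
    fun ⟨u, h1, h2⟩ ⟨v, h3, h4⟩ => ⟨u * v, by rw [map_mul, h1, h3, one_mul], by
      rw [h2, h4, mul_assoc]⟩⟩

/-- representatives of the elements of norm `l` modulo units on the left -/
def Rp (l : ℕ) : Finset Hu := (On l).image fun x => (Quotient.mk st x).out

theorem Rp_nm {l : ℕ} {α : Hu} (h : α ∈ Rp l) : nm α = l := by
  obtain ⟨x, h1, rfl⟩ := Finset.mem_image.1 h
  obtain ⟨u, h2, h3⟩ := Quotient.mk_out (s := st) x
  rw [h3, map_mul, h2, one_mul, mem_On.1 h1]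

theorem Rp_ex {l : ℕ} {β : Hu} (h : nm β = l) : ∃ α ∈ Rp l, ∃ u, nm u = 1 ∧ β = u * α :=
  ⟨_, Finset.mem_image_of_mem _ (mem_On.2 h), st.symm (Quotient.mk_out (s := st) β)⟩

theorem Rp_uniq {l : ℕ} {α α' u : Hu} (h : α ∈ Rp l) (h' : α' ∈ Rp l) (hu : nm u = 1)
    (e : α = u * α') : α = α' := by
  obtain ⟨x, -, rfl⟩ := Finset.mem_image.1 h
  obtain ⟨y, -, rfl⟩ := Finset.mem_image.1 h'
  have := Quotient.sound (s := st) ⟨u, hu, e⟩
  rw [Quotient.out_eq, Quotient.out_eq] at this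
  rw [this]

/-- `j` -/
def jj : Hu := ⟨0, -1, 1, -1⟩
/-- `k` -/
def kq : Hu := ⟨1, 0, 1, 1⟩

theorem tr_eq (x : Hu) : ((2 * co x 0 : ℤ) : Hu) = x - ii * x * ii - jj * x * jj - kq * x * kq := by
  generalize hn : 2 * co x 0 = n
  simp only [co, Matrix.cons_val_zero] at hn
  ext <;> simp [ii, jj, kq] <;> omega

theorem not_mul {l : ℕ} (hl : l.Prime) {α : Hu} (h : nm α = l) (ε : Hu) : α ≠ l * ε := fun e => by
  rw [e, map_mul, nm_nat] at h
  have h1 : (l : ℤ) * (l * nm ε) = l * 1 := by linear_combination h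
  exact hl.one_lt.ne' (by
    exact_mod_cast Int.eq_one_of_mul_eq_one_right (by positivity)
      (mul_left_cancel₀ (by exact_mod_cast hl.ne_zero) h1))

section mod

variable {V : Type*} [AddCommGroup V] (ρ : Hu →+* AddMonoid.End V) {l : ℕ}

theorem rho_mul (a b : Hu) (v : V) : ρ (a * b) v = ρ a (ρ b v) := by rw [map_mul]; rfl
theorem rho_int (n : ℤ) (v : V) : ρ n v = n • v := by rw [map_intCast]; simp
theorem rho_nat (n : ℕ) (v : V) : ρ n v = n • v := by rw [map_natCast]; simp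
theorem rho_sub (a b : Hu) (v : V) : ρ (a - b) v = ρ a v - ρ b v := by rw [map_sub]; rfl
theorem rho_cj (a : Hu) (v : V) : ρ (cj a) (ρ a v) = nm a • v := by rw [← rho_mul, cj_mul, rho_int]

/-- the `l`-torsion -/
def Tl (V : Type*) [AddCommGroup V] (l : ℕ) : AddSubgroup V := (nsmulAddMonoidHom l).ker

theorem mem_Tl {v : V} : v ∈ Tl V l ↔ l • v = 0 := Iff.rfl

theorem rho_Tl (a : Hu) {v : V} (h : l • v = 0) : l • ρ a v = 0 := by rw [← map_nsmul, h, map_zero]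

theorem card_zm (hl : l.Prime) {v : V} (h0 : v ≠ 0) (h : l • v = 0) :
    Nat.card (AddSubgroup.zmultiples v) = l := by
  haveI := Fact.mk hl
  rw [Nat.card_zmultiples, addOrderOf_eq_prime h h0]

theorem eq_zm (hl : l.Prime) {U : AddSubgroup V} (hU : Nat.card U = l) {v : V} (h0 : v ≠ 0)
    (hv : v ∈ U) : AddSubgroup.zmultiples v = U := by
  haveI : Finite U := Nat.finite_of_card_ne_zero (hU ▸ hl.ne_zero)
  have h : l • v = 0 := by
    have := card_nsmul_eq_zero' (x := (⟨v, hv⟩ : U))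
    rw [hU] at this
    exact congrArg Subtype.val this
  exact AddSubgroup.eq_of_le_of_card_ge (by simpa using hv) (by rw [hU, card_zm hl h0 h])

theorem ex_ne {U : AddSubgroup V} (h : Nat.card U ≠ 1) : ∃ v ∈ U, v ≠ 0 := by
  by_contra hc
  push Not at hc
  exact h (by rw [(AddSubgroup.eq_bot_iff_forall _).2 hc]; simp)

variable (hl : l.Prime) (h2 : l ≠ 2) (hV : Nat.card {v : V // l • v = 0} = l ^ 2)
include hl hV

theorem card_Tl : Nat.card (Tl V l) = l ^ 2 := hV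

theorem fin_Tl : Finite (Tl V l) :=
  Nat.finite_of_card_ne_zero (by rw [card_Tl hl hV]; exact pow_ne_zero _ hl.ne_zero)

include h2

theorem faith {δ : Hu} (h : ∀ v, l • v = 0 → ρ δ v = 0) : ∃ ε, δ = l * ε := by
  haveI := Fact.mk hl
  obtain ⟨v, v1, v0⟩ := ex_ne (U := Tl V l) (by
    rw [card_Tl hl hV]; exact (Nat.one_lt_pow two_ne_zero hl.one_lt).ne')
  have p : Prime (l : ℤ) := Nat.prime_iff_prime_int.1 hl
  have o : ∀ n : ℤ, (l : ℤ) ∣ 2 * n → (l : ℤ) ∣ n := fun n hn =>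
    (p.dvd_or_dvd hn).resolve_left fun e => h2 ((Nat.prime_dvd_prime_iff_eq hl Nat.prime_two).1
      (by exact_mod_cast e))
  have k : ∀ b : Hu, (l : ℤ) ∣ co (δ * b) 0 := fun b => o _ (by
    have e : ∀ a : Hu, ρ (a * (δ * b) * a) v = 0 := fun a => by
      rw [rho_mul, rho_mul, rho_mul, h _ (rho_Tl ρ _ (rho_Tl ρ _ v1)), map_zero]
    rw [← addOrderOf_eq_prime v1 v0, addOrderOf_dvd_iff_zsmul_eq_zero, ← rho_int ρ, tr_eq, rho_sub,
      rho_sub, rho_sub, e, e, e, rho_mul, h _ (rho_Tl ρ _ v1)]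
    simp)
  obtain ⟨n0, k0⟩ := k 1
  obtain ⟨n1, k1⟩ := k ii
  obtain ⟨n2, k2⟩ := k jj
  obtain ⟨n3, k3⟩ := k kq
  simp [co, ii, jj, kq] at k0 k1 k2 k3
  obtain ⟨a, ha⟩ := o δ.a ⟨n0 - n3, by linear_combination k0 - k3⟩
  obtain ⟨b, hb⟩ := o δ.b ⟨n2 - n1, by linear_combination k2 - k1⟩
  obtain ⟨c, hc⟩ := o δ.c ⟨-n2 - n3, by linear_combination -k2 - k3⟩
  obtain ⟨d, hd⟩ := o δ.d ⟨n2 - n3, by linear_combination k2 - k3⟩
  exact ⟨⟨a, b, c, d⟩, by ext <;> simp [ha, hb, hc, hd]⟩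

theorem card_inf {δ : Hu} (h : (l : ℤ) ∣ nm δ) (h' : ¬ ∃ ε, δ = l * ε) :
    Nat.card ↥((ρ δ).ker ⊓ Tl V l) = l := by
  haveI := fin_Tl hl hV
  have h1 := AddSubgroup.card_dvd_of_le (inf_le_right : (ρ δ).ker ⊓ Tl V l ≤ Tl V l)
  rw [card_Tl hl hV] at h1
  obtain ⟨m, m1, m2⟩ := (Nat.dvd_prime_pow hl).1 h1
  interval_cases m
  · exfalso
    rw [pow_zero, AddSubgroup.card_eq_one] at m2
    have i : Function.Injective (fun v : Tl V l => (⟨ρ δ v, rho_Tl ρ δ v.2⟩ : Tl V l)) := by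
      intro v v' e
      have : v.1 - v'.1 ∈ (ρ δ).ker ⊓ Tl V l := ⟨by
        show ρ δ _ = 0
        rw [map_sub, sub_eq_zero]
        exact congrArg Subtype.val e, (Tl V l).sub_mem v.2 v'.2⟩
      rw [m2] at this
      exact Subtype.ext (sub_eq_zero.1 this)
    obtain ⟨ε, e⟩ := faith ρ hl h2 hV (δ := cj δ) fun v hv => by
      obtain ⟨u, hu⟩ := Finite.surjective_of_injective i ⟨v, hv⟩
      obtain ⟨c, hc⟩ := h
      rw [← show ρ δ u = v from congrArg Subtype.val hu, rho_cj, hc, mul_comm, mul_smul,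
        natCast_zsmul, show l • u.1 = 0 from u.2, smul_zero]
    exact h' ⟨cj ε, by rw [← cj_cj δ, e, cj_mul_rev, cj_nat, Nat.cast_comm]⟩
  · rw [m2, pow_one]
  · exfalso
    have := AddSubgroup.eq_of_le_of_card_ge (inf_le_right : (ρ δ).ker ⊓ Tl V l ≤ Tl V l)
      (by rw [m2, card_Tl hl hV])
    exact h' (faith ρ hl h2 hV fun v hv => (show v ∈ (ρ δ).ker ⊓ Tl V l by rw [this]; exact hv).1)

theorem card_ker {α : Hu} (h : nm α = l) : Nat.card (ρ α).ker = l := by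
  have := card_inf ρ hl h2 hV (δ := α) (by rw [h]) fun ⟨ε, e⟩ => not_mul hl h ε e
  rwa [inf_eq_left.2] at this
  intro v hv
  rw [mem_Tl, ← natCast_zsmul, ← h, ← rho_cj ρ, show ρ α v = 0 from hv, map_zero]

theorem ex_gen {U : AddSubgroup V} (hU : Nat.card U = l) : ∃ α, nm α = l ∧ (ρ α).ker = U ∧
    ∀ δ, (∀ v ∈ U, ρ δ v = 0) → ∃ β, δ = β * α := by
  haveI := fin_Tl hl hV
  haveI := Fintype.ofFinite (Tl V l)
  obtain ⟨v, v1, v0⟩ := ex_ne (U := U) (hU ▸ hl.one_lt.ne')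
  have e := eq_zm hl hU v0 v1
  have lv : l • v = 0 := by
    rw [← hU, ← e, Nat.card_zmultiples, addOrderOf_nsmul_eq_zero]
  have k : ∀ δ, ρ δ v = 0 → ∀ u ∈ U, ρ δ u = 0 := fun δ h u hu => by
    rw [← e] at hu
    obtain ⟨n, rfl⟩ := hu
    simp [h]
  obtain ⟨α, a1, a2⟩ := princ
    { carrier := {δ | ρ δ v = 0}
      add_mem' := fun {a b} ha hb => by
        show ρ (a + b) v = 0
        rw [map_add]
        exact (congrArg₂ (· + ·) ha hb).trans (add_zero _)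
      zero_mem' := by simp
      smul_mem' := fun c a ha => by
        show ρ (c * a) v = 0
        rw [rho_mul, show ρ a v = 0 from ha, map_zero] }
  replace a1 : ρ α v = 0 := a1
  obtain ⟨β, hβ⟩ := a2 l (by show ρ l v = 0; rw [rho_nat, lv])
  have n1 := congrArg nm hβ
  rw [map_mul, nm_nat] at n1
  obtain ⟨n, hn⟩ := Int.eq_ofNat_of_zero_le (nm_nonneg α)
  have n2 : n ∣ l ^ 2 := by
    rw [← Int.natCast_dvd_natCast, ← hn]
    exact ⟨nm β, by push_cast; rw [n1, mul_comm]⟩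
  obtain ⟨m, m1, rfl⟩ := (Nat.dvd_prime_pow hl).1 n2
  interval_cases m
  · exact absurd (by simpa [a1, hn] using (rho_cj ρ α v).symm) v0
  · rw [pow_one] at hn
    haveI : Finite (ρ α).ker :=
      Nat.finite_of_card_ne_zero (by rw [card_ker ρ hl h2 hV hn]; exact hl.ne_zero)
    exact ⟨α, hn, (AddSubgroup.eq_of_le_of_card_ge (k α a1)
      (by rw [card_ker ρ hl h2 hV hn, hU])).symm, fun δ h => a2 δ (h v v1)⟩
  · exfalso
    have b1 : nm β = 1 := by
      rw [hn] at n1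
      push_cast at n1
      exact mul_right_cancel₀ (pow_ne_zero 2 (Int.natCast_ne_zero.2 hl.ne_zero))
        (n1.symm.trans (one_mul _).symm)
    obtain ⟨x, y, h1, h3⟩ := Fintype.exists_ne_map_eq_of_card_lt
      (fun x : Fin l × Fin l × Fin l => (⟨ρ ⟨x.1, x.2.1, x.2.2, 0⟩ v, rho_Tl ρ _ lv⟩ : Tl V l)) (by
        rw [← Nat.card_eq_fintype_card, card_Tl hl hV]
        simp only [Fintype.card_prod, Fintype.card_fin]
        have := hl.one_lt
        nlinarith)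
    obtain ⟨γ, hγ⟩ := a2 (⟨x.1, x.2.1, x.2.2, 0⟩ - ⟨y.1, y.2.1, y.2.2, 0⟩) (by
      show ρ _ v = 0
      rw [rho_sub, sub_eq_zero]
      exact congrArg Subtype.val h3)
    have : α = (l : Hu) * cj β := by
      rw [Nat.cast_comm, hβ, ← mul_assoc, cj_mul, b1]; simp
    rw [this, ← mul_assoc, ← Nat.cast_comm, mul_assoc] at hγ
    have z : ∀ (a b : Fin l) (c : ℤ), (a : ℤ) - b = l * c → a = b := fun a b c h => by
      have := Int.eq_zero_of_abs_lt_dvd ⟨c, h⟩ (by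
        have := a.2
        have := b.2
        rw [abs_lt]
        omega)
      exact Fin.ext (by omega)
    generalize γ * cj β = ε at hγ
    exact h1 (Prod.ext (z _ _ ε.a (by simpa using congrArg Hu.a hγ))
      (Prod.ext (z _ _ ε.b (by simpa using congrArg Hu.b hγ))
        (z _ _ ε.c (by simpa using congrArg Hu.c hγ))))

theorem dvd_iff {α : Hu} (h : nm α = l) (δ : Hu) :
    (∃ β, δ = β * α) ↔ ∀ v, ρ α v = 0 → ρ δ v = 0 := by
  refine ⟨fun ⟨β, e⟩ v hv => by rw [e, rho_mul, hv, map_zero], fun k => ?_⟩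
  obtain ⟨α₀, a1, -, a3⟩ := ex_gen ρ hl h2 hV (card_ker ρ hl h2 hV h)
  obtain ⟨u, hu⟩ := a3 α fun v hv => hv
  obtain ⟨β, hβ⟩ := a3 δ k
  have u1 : nm u = 1 := by
    rw [hu, map_mul, a1] at h
    exact mul_right_cancel₀ (Int.natCast_ne_zero.2 hl.ne_zero) (h.trans (one_mul _).symm)
  exact ⟨β * cj u, by rw [hβ, hu, mul_assoc, ← mul_assoc (cj u), cj_mul, u1]; simp⟩

/-- **left ideals of norm `l` and subgroups of order `l`** -/
theorem lines : Set.BijOn (fun α => (ρ α).ker) (Rp l) {U : AddSubgroup V | Nat.card U = l} := by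
  refine ⟨fun α h => card_ker ρ hl h2 hV (Rp_nm h), fun α h α' h' e => ?_, fun U hU => ?_⟩
  · obtain ⟨u, hu⟩ := (dvd_iff ρ hl h2 hV (Rp_nm h') α).2 fun v hv =>
      (show v ∈ (ρ α).ker by rw [show (ρ α).ker = (ρ α').ker from e]; exact hv)
    refine Rp_uniq h h' ?_ hu
    have := Rp_nm h
    rw [hu, map_mul, Rp_nm h'] at this
    exact mul_right_cancel₀ (Int.natCast_ne_zero.2 hl.ne_zero) (this.trans (one_mul _).symm)
  · obtain ⟨β, b1, b2, -⟩ := ex_gen ρ hl h2 hV hU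
    obtain ⟨α, a1, u, u1, rfl⟩ := Rp_ex b1
    refine ⟨α, a1, ?_⟩
    rw [← b2]
    ext v
    show ρ α v = 0 ↔ ρ (u * α) v = 0
    rw [rho_mul]
    refine ⟨fun e => by rw [e, map_zero], fun e => ?_⟩
    simpa [e, u1] using (rho_cj ρ u (ρ α v)).symm

theorem uniq_ker {U : AddSubgroup V} (hU : Nat.card U = l) {p : Hu → Prop}
    (hp : ∀ α ∈ Rp l, p α ↔ (ρ α).ker = U) : ((Rp l).filter p).card = 1 := by
  obtain ⟨α, a1, a2⟩ := (lines ρ hl h2 hV).surjOn hU
  refine Finset.card_eq_one.2 ⟨α, Finset.ext fun β => ?_⟩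
  rw [Finset.mem_filter, Finset.mem_singleton]
  exact ⟨fun h => (lines ρ hl h2 hV).injOn h.1 a1 (((hp β h.1).1 h.2).trans a2.symm),
    fun h => h ▸ ⟨a1, (hp α a1).2 a2⟩⟩

include ρ

theorem card_Rp' : (Rp l).card = l + 1 := by
  haveI := fin_Tl hl hV
  have f : (Tl V l : Set V).Finite := Set.toFinite _
  have c : ∀ U : AddSubgroup V, U ≤ Tl V l → ∀ s : Finset V, (∀ v, v ∈ s ↔ v ≠ 0 ∧ v ∈ U) →
      s.card + 1 = Nat.card U := fun U hU s hs => by
    have e : (U : Set V) = ↑(insert 0 s) := by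
      ext v
      by_cases h : v = 0 <;> simp [hs, h]
    rw [← SetLike.coe_sort_coe, Nat.card_coe_set_eq, e, Set.ncard_coe_finset,
      Finset.card_insert_of_notMem (by simp [hs])]
  have c1 := c _ le_rfl (f.toFinset.erase 0) (by simp)
  have key := Finset.card_mul_eq_card_mul (s := Rp l) (t := f.toFinset.erase 0) (m := l - 1) (n := 1)
    (fun α v => ρ α v = 0) (fun α h => by
      have le : (ρ α).ker ≤ Tl V l := fun v hv => by
        rw [mem_Tl, ← natCast_zsmul, ← Rp_nm h, ← rho_cj ρ, show ρ α v = 0 from hv, map_zero]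
      have := c _ le ((f.toFinset.erase 0).bipartiteAbove (fun α v => ρ α v = 0) α) fun v => by
        simp only [Finset.mem_bipartiteAbove, Finset.mem_erase, Set.Finite.mem_toFinset]
        exact ⟨fun k => ⟨k.1.1, k.2⟩, fun k => ⟨⟨k.1, le k.2⟩, k.2⟩⟩
      rw [card_ker ρ hl h2 hV (Rp_nm h)] at this
      omega) (fun v hv => by
      rw [Finset.mem_erase, Set.Finite.mem_toFinset] at hv
      exact uniq_ker ρ hl h2 hV (card_zm hl hv.1 hv.2) fun α h =>
        ⟨fun k => (eq_zm hl (card_ker ρ hl h2 hV (Rp_nm h)) hv.1 k).symm,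
          fun k => show v ∈ (ρ α).ker by rw [k]; exact AddSubgroup.mem_zmultiples v⟩)
  rw [card_Tl hl hV] at c1
  obtain ⟨m, rfl⟩ : ∃ m, l = m + 2 := ⟨l - 2, by have := hl.two_le; omega⟩
  refine Nat.eq_of_mul_eq_mul_right (m := m + 1) (by omega) ?_
  rw [show m + 2 - 1 = m + 1 by omega] at key
  nlinarith

theorem count' {δ : Hu} (h : (l : ℤ) ∣ nm δ) :
    ((Rp l).filter fun α => ∃ β, δ = β * α).card = if ∃ ε, δ = l * ε then l + 1 else 1 := by
  split_ifs with k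
  · obtain ⟨ε, rfl⟩ := k
    rw [Finset.filter_true_of_mem, card_Rp' ρ hl h2 hV]
    exact fun α a => ⟨ε * cj α, by rw [mul_assoc, cj_mul, Rp_nm a, Nat.cast_comm]; simp⟩
  · have c := card_inf ρ hl h2 hV h k
    haveI : Finite ↥((ρ δ).ker ⊓ Tl V l) := Nat.finite_of_card_ne_zero (by rw [c]; exact hl.ne_zero)
    refine uniq_ker ρ hl h2 hV c fun α a => ?_
    rw [dvd_iff ρ hl h2 hV (Rp_nm a)]
    refine ⟨fun e => AddSubgroup.eq_of_le_of_card_ge (fun v hv => ⟨e v hv, ?_⟩)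
      (by rw [c, card_ker ρ hl h2 hV (Rp_nm a)]), fun e v hv =>
        (show v ∈ (ρ δ).ker ⊓ Tl V l by rw [← e]; exact hv).1⟩
    show l • v = 0
    rw [← natCast_zsmul, ← Rp_nm a, ← rho_cj ρ, show ρ α v = 0 from hv, map_zero]

end mod

/-- a splitting over a ring in which `2` is invertible and `-1` is a sum of two squares -/
def spl {R : Type*} [CommRing R] {a b h : R} (e : a ^ 2 + b ^ 2 = -1) (e' : 2 * h = 1) :
    Hu →+* Matrix (Fin 2) (Fin 2) R :=
  Hu.lift !![0, -1; 1, 0] !![h * (-1 + a - b), h * (-1 + b + a); h * (1 + b + a), h * (-1 - a + b)]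
    (by ext i j; fin_cases i <;> fin_cases j <;> simp)
    (by ext i j; fin_cases i <;> fin_cases j <;> simp <;> grind)
    (by ext i j; fin_cases i <;> fin_cases j <;> simp <;> grind)

section
variable {l : ℕ} (hl : l.Prime) (h2 : l ≠ 2)
include hl h2

theorem ex_mod : ∃ ρ : Hu →+* AddMonoid.End (Fin 2 → ZMod l),
    Nat.card {v : Fin 2 → ZMod l // l • v = 0} = l ^ 2 := by
  haveI := Fact.mk hl
  obtain ⟨a, b, e⟩ := ZMod.sq_add_sq l (-1)
  have h : (2 : ZMod l) ≠ 0 := fun e => h2 ((Nat.prime_dvd_prime_iff_eq hl Nat.prime_two).1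
    ((ZMod.natCast_eq_zero_iff 2 l).1 (by exact_mod_cast e)))
  refine ⟨(Module.toAddMonoidEnd (Module.End (ZMod l) (Fin 2 → ZMod l)) _).comp
    ((Matrix.toLinAlgEquiv' (R := ZMod l) (n := Fin 2)).toRingEquiv.toRingHom.comp
      (spl e (mul_inv_cancel₀ h))), ?_⟩
  rw [Nat.card_congr (Equiv.subtypeUnivEquiv fun v => by ext i; simp)]
  simp

theorem card_Rp : (Rp l).card = l + 1 :=
  (ex_mod hl h2).elim fun ρ hV => card_Rp' ρ hl h2 hV

theorem count {δ : Hu} (h : (l : ℤ) ∣ nm δ) :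
    ((Rp l).filter fun α => ∃ β, δ = β * α).card = if ∃ ε, δ = l * ε then l + 1 else 1 :=
  (ex_mod hl h2).elim fun ρ hV => count' ρ hl h2 hV h

/-- **the Hecke relation** -/
theorem hecke {M : Type*} [AddCommMonoid M] (Φ : Hu → M) (n : ℤ) :
    ∑ α ∈ Rp l, ∑ β ∈ On n, Φ (β * α) = ∑ δ ∈ On (l * n), Φ δ +
      if (l : ℤ) ∣ n then l • ∑ ε ∈ On (n / l), Φ (l * ε) else 0 := by
  have l0 : (l : ℤ) ≠ 0 := Int.natCast_ne_zero.2 hl.ne_zero
  have h1 : ∀ α ∈ Rp l, ∑ β ∈ On n, Φ (β * α) =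
      ∑ δ ∈ On (l * n), if ∃ β, δ = β * α then Φ δ else 0 := fun α a => by
    have a0 : α ≠ 0 := fun e => l0 (by rw [← Rp_nm a, e, nm_eq_zero])
    rw [← Finset.sum_filter]
    refine Finset.sum_bij (fun β _ => β * α) (fun β b => ?_) (fun β _ β' _ e => mul_right_cancel₀ a0 e)
      (fun δ d => ?_) fun _ _ => rfl
    · exact Finset.mem_filter.2 ⟨mem_On.2 (by rw [map_mul, mem_On.1 b, Rp_nm a, mul_comm]), β, rfl⟩
    · obtain ⟨d1, β, rfl⟩ := Finset.mem_filter.1 d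
      rw [mem_On, map_mul, Rp_nm a, mul_comm] at d1
      exact ⟨β, mem_On.2 (mul_left_cancel₀ l0 d1), rfl⟩
  have h3 : ∀ δ ∈ On (l * n), (∑ α ∈ Rp l, if ∃ β, δ = β * α then Φ δ else 0) =
      Φ δ + l • if ∃ ε, δ = l * ε then Φ δ else 0 := fun δ d => by
    rw [← Finset.sum_filter, Finset.sum_const, count hl h2 ⟨n, mem_On.1 d⟩]
    split_ifs <;> simp [add_smul, add_comm]
  rw [Finset.sum_congr rfl h1, Finset.sum_comm, Finset.sum_congr rfl h3, Finset.sum_add_distrib,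
    ← Finset.smul_sum, ← Finset.sum_filter]
  congr 1
  have k : ∀ ε : Hu, nm (l * ε) = l * n → l * nm ε = n := fun ε e => by
    rw [map_mul, nm_nat] at e
    exact mul_left_cancel₀ l0 (by linear_combination e)
  split_ifs with h
  · obtain ⟨m, rfl⟩ := h
    rw [Int.mul_ediv_cancel_left _ l0]
    congr 1
    refine (Finset.sum_bij (fun ε _ => (l : Hu) * ε) (fun ε b => ?_)
      (fun β _ β' _ e => mul_left_cancel₀ (fun e => l0 (by simpa using congrArg Hu.a e)) e)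
      (fun δ d => ?_) fun _ _ => rfl).symm
    · exact Finset.mem_filter.2 ⟨mem_On.2 (by rw [map_mul, mem_On.1 b, nm_nat]; ring), ε, rfl⟩
    · obtain ⟨d1, ε, rfl⟩ := Finset.mem_filter.1 d
      exact ⟨ε, mem_On.2 (mul_left_cancel₀ l0 (k ε (mem_On.1 d1))), rfl⟩
  · rw [Finset.filter_false_of_mem, Finset.sum_empty, smul_zero]
    rintro _ d ⟨ε, rfl⟩
    exact h ⟨_, (k ε (mem_On.1 d)).symm⟩

end

end Vale.Agent.P004M.D.Hu
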