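import Vale.Agent.P004M.D.Hur

/-!
# P004M, route D: the words of the rate step
-/

set_option autoImplicit false
set_option linter.all false

noncomputable section

namespace Vale.Agent.P004M.D

open Hu MvPolynomial

/-- the norm is prime to `2 M` -/
def Cp (M : ℕ) (x : Hu) : Prop := IsCoprime (nm x) (2 * M : ℤ)

/-- a sum of left translations -/
def TL (V : Type) [AddCommGroup V] (s : Finset Hu) : Module.End ℤ (Hu → V) :=
  ∑ α ∈ s, LinearMap.funLeft ℤ V (α * ·)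

theorem TL_apply {V : Type} [AddCommGroup V] (s : Finset Hu) (Φ : Hu → V) (x : Hu) :
    TL V s Φ x = ∑ α ∈ s, Φ (α * x) := by
  simp [TL, LinearMap.sum_apply, Finset.sum_apply]

variable {ι : Type}

/-- words in the sums of translations -/
def wT (V : Type) [AddCommGroup V] (R : ι → Finset Hu) :
    FreeAlgebra ℤ ι →ₐ[ℤ] Module.End ℤ (Hu → V) := FreeAlgebra.lift ℤ fun l => TL V (R l)

/-- smooth eigenfunctions -/
structure Eig (M : ℕ) (R : ι → Finset Hu) (a : ι → ℤ) {V : Type} [AddCommGroup V] (ψ : Hu → V) :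
    Prop where
  tor : ∃ i, ∀ x, 2 ^ i • ψ x = 0
  per : ∃ n, ∀ x y, Cp M x → ψ (x + (2 ^ n * M : ℕ) • y) = ψ x
  un : ∀ u x, nm u = 1 → Cp M x → ψ (u * x) = ψ x
  sc : ∀ (d : ℤ) x, IsCoprime d (2 * M) → Cp M x → ψ (d • x) = ψ x
  eg : ∀ l x, Cp M x → ∑ α ∈ R l, ψ (α * x) = a l • ψ x

/-- smooth eigenfunctions of unbounded order -/
def EIGr (M : ℕ) (R : ι → Finset Hu) (a : ι → ℤ) : Prop :=
  ∀ j : ℕ, ∃ (V : Type) (_ : AddCommGroup V) (ψ : Hu → V), Eig M R a ψ ∧ ∃ x, Cp M x ∧ 2 ^ j • ψ x ≠ 0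

/-- on each class modulo `4 M` and scalars, a homogeneous polynomial over a power of the norm -/
def Pq (K : Type) [Field K] (M m : ℕ) (Φ : Hu → K) : Prop :=
  ∃ P : Hu → MvPolynomial (Fin 4) K, (∀ x, (P x).IsHomogeneous (2 * m)) ∧
    (∀ x y, P (x + (4 * M : ℕ) • y) = P x) ∧
    (∀ (d : ℤ) x, IsCoprime d (2 * M) → P (d • x) = P x) ∧
    ∀ x, Φ x = eval (fun i => (co x i : K)) (P x) / (nm x : K) ^ m

/-- the word `P` kills the algebraic functions of degree `m` -/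
def Kil (K : Type) [Field K] (M : ℕ) (R : ι → Finset Hu) (m : ℕ) (P : FreeAlgebra ℤ ι) : Prop :=
  ∀ Φ, Pq K M m Φ → ∀ x, Cp M x → wT K R P (TL K (On 1) Φ) x = 0

theorem Cp.mul {M : ℕ} {x y : Hu} (h : Cp M x) (h' : Cp M y) : Cp M (x * y) := by
  rw [Cp, map_mul]; exact IsCoprime.mul_left h h'

/-- words commute with additive maps on the values, and see only the norms prime to `2 M` -/
theorem wT_map {V W : Type} [AddCommGroup V] [AddCommGroup W] {M : ℕ} {R : ι → Finset Hu}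
    (hR : ∀ l, ∀ α ∈ R l, Cp M α) (π : V →+ W) (P : FreeAlgebra ℤ ι) :
    ∀ (Φ : Hu → V) (ψ : Hu → W), (∀ x, Cp M x → π (Φ x) = ψ x) →
      ∀ x, Cp M x → π (wT V R P Φ x) = wT W R P ψ x := by
  induction P using FreeAlgebra.induction with
  | grade0 r => intro Φ ψ h x hx; simp [← h x hx, Module.algebraMap_end_apply, -zsmul_eq_mul]
  | grade1 l =>
    intro Φ ψ h x hx
    simp only [wT, FreeAlgebra.lift_ι_apply, TL_apply, map_sum]
    exact Finset.sum_congr rfl fun α hα => h _ ((hR l α hα).mul hx)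
  | mul a b ha hb => intro Φ ψ h; rw [map_mul, map_mul]; exact ha _ _ (hb _ _ h)
  | add a b ha hb => intro Φ ψ h x hx; simp [ha Φ ψ h x hx, hb Φ ψ h x hx]

theorem Kil.of_hom {K L : Type} [Field K] [Field L] (σ : K →+* L) {M m : ℕ} {R : ι → Finset Hu}
    (hR : ∀ l, ∀ α ∈ R l, Cp M α) {P : FreeAlgebra ℤ ι} (h : Kil L M R m P) : Kil K M R m P := by
  rintro Φ ⟨Q, h1, h2, h3, h4⟩ x hx
  refine σ.injective ((wT_map hR σ.toAddMonoidHom P _ (TL L (On 1) (σ ∘ Φ)) (fun x _ => by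
    simp [TL_apply]) x hx).trans ((h _ ⟨fun x => map σ (Q x), fun x => (h1 x).map σ,
      fun x y => congrArg _ (h2 x y), fun d x k => congrArg _ (h3 d x k), fun x => ?_⟩ x hx).trans σ.map_zero.symm))
  rw [Function.comp, h4, map_div₀, map_pow, map_intCast, map_eval]
  simp [Function.comp_def]

end Vale.Agent.P004M.D
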