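import Vale.Agent.P004M.D.ThE
import Vale.Agent.P004M.D.HLin
import Vale.Agent.P004M.D.Rt0
import Vale.Agent.P022K.UC.UcB

/-!
# P004M, route D: KILL in the words of the rate step, and UCN from the rate
-/

set_option linter.all false

noncomputable section

namespace Vale.Agent.P004M.D

open Vale.Agent.P022 Vale.Agent.P022K.UC.Hm Hu

variable {M : ℕ}

theorem dvd_lev {l : ℕ} (hl : l.Prime) : l ∣ 256 * M ^ 2 ↔ l ∣ 2 * M := by
  refine ⟨fun h => hl.dvd_of_dvd_pow (n := 8) (h.trans ⟨M ^ 6, by ring⟩),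
    fun h => h.trans ⟨128 * M, by ring⟩⟩

theorem PA_not (l : PA (256 * M ^ 2)) : ¬ l.1 ∣ 2 * M := fun h =>
  l.2.2 (((dvd_lev l.2.1).2 h).mul_left 2)

theorem PA_two (l : PA (256 * M ^ 2)) : l.1 ≠ 2 := fun e => PA_not l ⟨M, by rw [e]⟩

theorem cp_Rp (l : PA (256 * M ^ 2)) : ∀ α ∈ Rp l.1, Cp M α := fun α h => by
  rw [Cp, Rp_nm h]
  exact_mod_cast Nat.isCoprime_iff_coprime.2 ((Nat.Prime.coprime_iff_not_dvd l.2.1).2 (PA_not l))

theorem Cp.odd {x : Hu} (h : Cp M x) : Odd (nm x) :=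
  Int.isCoprime_two_right.1 h.of_mul_right_left

variable [NeZero M]

instance lev_ne : NeZero (256 * M ^ 2) := inferInstance

/-- **KILL** -/
theorem kil (K : Type) [Field K] [CharZero K] {m : ℕ} {P : FreeAlgebra ℤ (PA (256 * M ^ 2))}
    (hP : ∀ i ≤ m, ∀ F, Tv F → wd (256 * M ^ 2) i P F = 0) :
    Kil K M (fun l : PA (256 * M ^ 2) => Rp l.1) m P := by
  rintro Φ ⟨p, h1, h2, h3, h4⟩ x hx
  have := kill3 (R := Rp) (M := M) (by exact ⟨1, by ring⟩) (fun l Φ n => by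
      simpa only [Int.natCast_dvd_natCast] using hecke l.2.1 (PA_two l) Φ n)
    (fun l α a => (cp_Rp l α a).odd) hP h1 h2
    (fun e he y => h3 e y (he.of_isCoprime_of_dvd_right ⟨128 * M, by push_cast; ring⟩)) hx.odd
  rw [show TL K (On 1) Φ = _ from funext fun x => (TL_apply _ _ x).trans
    (Finset.sum_congr rfl fun u _ => h4 _)]
  exact this

/-- **UCN** from the rate -/
theorem ucn_kil {a : ℕ → ℤ} {C : ℕ} (h : ∀ j P, Kil ℚ_[2] M (fun l : PA (256 * M ^ 2) => Rp l.1)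
    (C * (j + 1)) P → (2 : ℤ) ^ j ∣ FreeAlgebra.lift ℤ (fun l => a l.1) P) :
    UCN (256 * M ^ 2) fun l => ((a l : ℤ) : ℚ_[2]) := by
  refine ⟨1, 1, C, one_ne_zero, le_rfl, by norm_num, fun j => ⟨C * (j + 1), by simp,
    fun P hP => ?_⟩⟩
  obtain ⟨k, hk⟩ := h j P (kil _ hP)
  have := map_lift (Int.castRingHom ℚ_[2]) (fun l : PA (256 * M ^ 2) => a l.1) P
  rw [hk] at this
  simp only [eq_intCast] at this
  rw [← this]
  push_cast
  rw [norm_mul, norm_pow]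
  exact mul_le_of_le_one_right (by positivity) (Padic.norm_int_le_one k)

/-- the row RK from the rate -/
theorem rk_of {a : ℕ → ℤ} (h : ∃ C, ∀ j P, Kil ℚ_[2] M (fun l : PA (256 * M ^ 2) => Rp l.1)
    (C * (j + 1)) P → (2 : ℤ) ^ j ∣ FreeAlgebra.lift ℤ (fun l => a l.1) P) :
    ∃ (N' : ℕ) (_ : NeZero N'), (∀ l : ℕ, l.Prime → (l ∣ N' ↔ l ∣ 2 * M)) ∧
      UCN N' fun l => ((a l : ℤ) : ℚ_[2]) :=
  h.elim fun _ h => ⟨_, lev_ne, fun _ => dvd_lev, ucn_kil h⟩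

end Vale.Agent.P004M.D
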