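import Vale.Agent.P004M.D.St
import Vale.Agent.P004M.D.ThF

/-!
# P004M, route D: the row RK from the rate
-/

namespace Vale.Agent.P004M.D

/-- the rate step -/
def RT : Prop := ∀ (ι : Type) (M : ℕ) (R : ι → Finset Hu) (a : ι → ℤ), M ≠ 0 →
  (∀ l, ∀ α ∈ R l, Cp M α) → EIGr M R a →
  ∃ C, ∀ j P, Kil ℚ_[2] M R (C * (j + 1)) P → (2 : ℤ) ^ j ∣ FreeAlgebra.lift ℤ a P

theorem rk_rt (h : RT) : RK := fun M _ _ _ he =>
  rk_of (h _ M _ _ (NeZero.ne M) cp_Rp (he _ Subtype.val fun l => ⟨l.2.1, PA_not l⟩))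

end Vale.Agent.P004M.D
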