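import Vale.Agent.P004M.D.Rt1

/-!
# P004M, route D: the linear rate for smooth eigenfunctions on the Hurwitz order
-/

set_option autoImplicit false
set_option linter.all false

noncomputable section

open scoped Quaternion Classical

namespace Vale.Agent.P004M.D.Rt

open Hu MvPolynomial J0 Ar

variable {M : ℕ} {ι : Type}

theorem per_mono {ψ : Hu → QZ 2} {n : ℕ} (k : ℕ)
    (h : ∀ x, 2 ^ n • ψ x = 0 ∧ ∀ y, ψ (x + (4 * M * 2 ^ n) • y) = ψ x) (x : Hu) :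
    2 ^ (n + k) • ψ x = 0 ∧ ∀ y, ψ (x + (4 * M * 2 ^ (n + k)) • y) = ψ x :=
  ⟨by rw [pow_add, mul_nsmul, (h x).1, nsmul_zero], fun y => by
    rw [pow_add, ← mul_assoc, mul_nsmul', (h x).2]⟩

variable (M) in
/-- smooth functions on the elements of norm prime to `2 M`, modulo scalars -/
def Mo : Submodule ℤ (Hu → QZ 2) := AddSubgroup.toIntSubmodule
  { carrier := {ψ | (∀ x, ¬ Cp M x → ψ x = 0) ∧
      (∀ (d : ℤ) x, IsCoprime d (2 * M) → ψ (d • x) = ψ x) ∧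
      ∃ n, ∀ x, 2 ^ n • ψ x = 0 ∧ ∀ y, ψ (x + (4 * M * 2 ^ n) • y) = ψ x}
    zero_mem' := ⟨fun _ _ => rfl, fun _ _ _ => rfl, 0, fun _ => ⟨nsmul_zero _, fun _ => rfl⟩⟩
    add_mem' := fun ⟨h1, h2, n, h3⟩ ⟨k1, k2, m, k3⟩ => ⟨fun x h => by simp [h1 x h, k1 x h],
      fun d x h => by rw [Pi.add_apply, h2 d x h, k2 d x h]; rfl, n + m, fun x => by
        have h4 := per_mono m h3 x
        have k4 := per_mono n k3 x
        rw [add_comm m] at k4
        exact ⟨by rw [Pi.add_apply, nsmul_add, h4.1, k4.1, add_zero], fun y => by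
          rw [Pi.add_apply, h4.2, k4.2]; rfl⟩⟩
    neg_mem' := fun ⟨h1, h2, n, h3⟩ => ⟨fun x h => by simp [h1 x h],
      fun d x h => congrArg Neg.neg (h2 d x h), n, fun x => ⟨by
        rw [Pi.neg_apply, neg_nsmul, (h3 x).1, neg_zero], fun y => congrArg Neg.neg ((h3 x).2 y)⟩⟩ }

theorem cp_un {u : Hu} (h : nm u = 1) : Cp M u := by rw [Cp, h]; exact isCoprime_one_left

/-- a numerator -/
def nu (γ : Cg (OL M) (4 * M)) : Hu := γ.1.1.2.choose_spec.choose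

theorem act (ψ : Mo M) {z : ℍ[ℚ]} {d d' : ℤ} {x x' : Hu} (h : Nu M z d x) (h' : Nu M z d' x')
    (y : Hu) : ψ.1 (y * x) = ψ.1 (y * x') := by
  rw [← ψ.2.2.1 d' _ h'.1, ← mul_smul_comm, h.uniq h', mul_smul_comm, ψ.2.2.1 d _ h.1]

variable (M) in
/-- right translations -/
def rho : Representation ℤ (Cg (OL M) (4 * M)) (Mo M) where
  toFun γ := (LinearMap.funLeft ℤ _ (· * nu γ)).restrict fun ψ ⟨h1, h2, n, h3⟩ =>
    ⟨fun x h => h1 _ fun k => h (cp_mul.1 k).1,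
      fun d x h => (congrArg ψ (smul_mul_assoc d x _)).trans (h2 d _ h), n, fun x => ⟨(h3 _).1,
        fun y => (congrArg ψ (by simp only [add_mul, smul_mul_assoc])).trans ((h3 _).2 (y * nu γ))⟩⟩
  map_one' := LinearMap.ext fun ψ => Subtype.ext (_root_.funext fun y =>
    (act ψ (1 : Cg (OL M) (4 * M)).1.1.2.choose_spec.choose_spec
      (by simpa using nu_q 1) y).trans (congrArg ψ.1 (mul_one y)))
  map_mul' γ δ := LinearMap.ext fun ψ => Subtype.ext (_root_.funext fun y =>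
    (act ψ (γ * δ).1.1.2.choose_spec.choose_spec (γ.1.1.2.choose_spec.choose_spec.mul
      δ.1.1.2.choose_spec.choose_spec) y).trans (congrArg ψ.1 (mul_assoc _ _ _).symm))

theorem rho_eq {γ : Cg (OL M) (4 * M)} {d : ℤ} {x : Hu} (h : Nu M γ.1.1 d x) (ψ : Mo M) (y : Hu) :
    (rho M γ ψ).1 y = ψ.1 (y * x) := act ψ γ.1.1.2.choose_spec.choose_spec h y

theorem tors_fin : {v : QZ 2 | 2 • v = 0}.Finite := by
  refine ((Set.finite_lt_nat 2).image fun n : ℕ => ((n / 2 : ℚ_[2]) : QZ 2)).subset fun v hv => ?_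
  obtain ⟨r, rfl⟩ := QuotientAddGroup.mk_surjective v
  obtain ⟨n, h1, h2⟩ := PadicInt.exists_mem_range
    (⟨2 • r, (QuotientAddGroup.eq_zero_iff _).1 hv⟩ : ℤ_[2])
  rw [PadicInt.maximalIdeal_eq_span_p, Ideal.mem_span_singleton'] at h2
  obtain ⟨w, hw⟩ := h2
  have : (w : ℚ_[2]) * ((2 : ℕ) : ℤ_[2]) = 2 • r - (n : ℤ_[2]) := congrArg Subtype.val hw
  refine ⟨n, h1, (QuotientAddGroup.eq_iff_sub_mem.2 ?_).symm⟩
  rw [show r - n / 2 = w by
    rw [PadicInt.coe_natCast, PadicInt.coe_natCast, two_nsmul, Nat.cast_two] at this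
    linear_combination (-1 / 2 : ℚ_[2]) * this]
  exact w.2

theorem ad (hM : M ≠ 0) : Ad (rho M) 2 (NC (OL M) 2 (4 * M)) where
  sm ψ := by
    obtain ⟨n, h⟩ := ψ.2.2.2
    refine ⟨n, fun γ ⟨z, e⟩ => Subtype.ext (_root_.funext fun y => ?_)⟩
    obtain ⟨d, x, k⟩ := z.2
    have k1 := k.one_add (4 * M * 2 ^ n)
    rw [← show (γ.1.1 : ℍ[ℚ]) = 1 + (4 * M * 2 ^ n) • z.1 from congrArg Subtype.val e] at k1
    rw [rho_eq k1, mul_add, mul_smul_comm, (h _).2,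
      ← (Int.cast_commute d y).eq, ← zsmul_eq_mul, ψ.2.2.1 d y k.1]
  tor ψ := ψ.2.2.2.imp fun n h => Subtype.ext (_root_.funext fun x => (h x).1)
  fin := by
    have k : ∀ ψ : Mo M, (∀ γ, rho M γ ψ = ψ) → ∀ x y, ψ.1 (x + (4 * M) • y) = ψ.1 x :=
      fun ψ h x y => by
        by_cases hx : Cp M x
        · have k := nu_fr hx (cj x * y)
          have k1 := rho_eq (γ := gC un ⟨_, _, _, k⟩) (k.one_add _) ψ x
          rw [h, mul_add, mul_smul_comm, ← mul_assoc,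
            mul_cj, ← (Int.cast_commute _ x).eq, ← mul_smul_comm, ← mul_add, ← zsmul_eq_mul,
            ψ.2.2.1 _ _ hx] at k1
          exact k1.symm
        · rw [ψ.2.1 x hx, ψ.2.1 _ (mt (cp_per ⟨2, by ring⟩ y).1 hx)]
    refine Set.Finite.of_finite_image (f := fun (ψ : Mo M) (a : Fin 4 → Set.Ico (0 : ℤ) (4 * M : ℕ)) =>
      ψ.1 (∑ i, (a i).1 • eb i)) ((Set.Finite.pi' fun _ => tors_fin).subset ?_)
      fun ψ h ψ' h' e => Subtype.ext (_root_.funext fun x => ?_)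
    · rintro _ ⟨ψ, h, rfl⟩ a
      exact congrFun (congrArg Subtype.val h.1) _
    · have k0 : (0 : ℤ) < (4 * M : ℕ) := by omega
      have k1 := congrFun e fun i => ⟨_, Int.emod_nonneg (fc x i) k0.ne', Int.emod_lt_of_pos _ k0⟩
      rw [show x = ∑ i, (fc x i % (4 * M : ℕ)) • eb i + (4 * M) • ∑ i, (fc x i / (4 * M : ℕ)) • eb i by
        rw [Finset.smul_sum, ← Finset.sum_add_distrib]
        refine (fc_sum x).trans (Finset.sum_congr rfl fun i _ => ?_)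
        rw [← natCast_zsmul, smul_smul, ← add_smul, Int.emod_add_mul_ediv], k _ h.2, k _ h'.2]
      exact k1

/-- `y` lies in the class of `x` -/
def Rl (M : ℕ) (x y : Hu) : Prop :=
  Cp M x ∧ ∃ (e : ℤ) (z : Hu), IsCoprime e (2 * M) ∧ cj x * y = e + (4 * M) • z

theorem loc (hM : M ≠ 0) {d : ℕ} {v : Mo M} (hv : v ∈ Sd (rho M) 2 d) (x : Hu) :
    ∃ P : MvPolynomial (Fin 4) ℚ_[2], P.IsHomogeneous (2 * d) ∧ ∀ y, Rl M x y →
      v.1 y = (eval (fun i => (co y i : ℚ_[2])) P / (nm y : ℚ_[2]) ^ d : ℚ_[2]) := by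
  choose L h1 h2 using fun i => lin ℚ_[2]
    (((Pi.evalAddMonoidHom _ i).comp fc).comp (AddMonoidHom.mulLeft (cj x)))
  let H := Hq (fun (y : {y // nm y ≠ 0}) i => (co y i : ℚ_[2])) (fun y => nm y) 1
  have k1 : 1 ∈ H := ⟨C (1 / 4) * ∑ i, X i ^ 2, (IsHomogeneous.sum _ _ _ fun i _ =>
    (isHomogeneous_X _ i).pow 2).C_mul _, fun y => by
      have := congrArg (Int.cast : ℤ → ℚ_[2]) (nm_co y)
      have k : (nm y.1 : ℚ_[2]) ≠ 0 := Int.cast_ne_zero.2 y.2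
      simp at this
      simp [← this, k]⟩
  obtain ⟨q, h3, h4⟩ := poly (cv_C (uo hM) Nat.prime_two ⟨2 * M, by ring⟩ un (ad hM).sm) (eO M)
    (fun i => ((4 * M : ℕ) : ℚ_[2])⁻¹ • ((nm x : ℚ_[2])⁻¹ • (fun y : {y // nm y ≠ 0} =>
      (fc (cj x * y) 0 * fc (cj x * y) i / nm y.1 ^ 1 : ℚ_[2])) - (fc 1 i : ℚ_[2]) • 1)) H k1
    (fun i => H.smul_mem _ (sub_mem (H.smul_mem _ ⟨L 0 * L i, (h1 0).mul (h1 i), fun y => by
      rw [map_mul, ← h2, ← h2]; rfl⟩) (H.smul_mem _ k1))) hv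
    ((Pi.evalAddMonoidHom _ x).comp (Mo M).subtype.toAddMonoidHom)
  obtain ⟨P, h5, h6⟩ := Hq_pow _ _ d h3
  refine ⟨P, h5, fun y ⟨hx, e, z, he, hz⟩ => ?_⟩
  obtain ⟨t, ht⟩ := nm_add e z (4 * M)
  have k2 : Cp M (cj x * y) := hz ▸ cp_add ⟨2, by ring⟩ z (cp_int he)
  have k3 : fc (cj x * y) 0 = e + 2 * M * (2 * z.a) := by
    rw [hz, map_add, map_nsmul]; simp [fc]; ring
  have k4 : (nm (cj x * y) : Hu) + (4 * M) • (e • z + z.a • (cj x * y) - t) =
      fc (cj x * y) 0 • (cj x * y) := by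
    rw [k3, hz, ht, nm_int, ← zsmul_one, ← zsmul_one e, ← zsmul_one t]
    module
  have k5 := nu_fr k2 (e • z + z.a • (cj x * y) - t)
  have k6 := h4 ⟨y, ne0 (cp_mul.1 k2).2⟩ (gC un ⟨_, _, _, k5⟩) _ rfl (by
    convert dig (z := ⟨_, _, _, k5⟩) k5 using 2 with i
    have k7 := congrArg fc k4
    have k8 : (nm y : ℚ_[2]) ≠ 0 := Int.cast_ne_zero.2 (ne0 (cp_mul.1 k2).2)
    have k9 : (nm x : ℚ_[2]) ≠ 0 := Int.cast_ne_zero.2 (ne0 hx)
    have k0 : (M : ℚ_[2]) ≠ 0 := Nat.cast_ne_zero.2 hM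
    rw [← zsmul_one, map_add, map_zsmul, map_nsmul, map_zsmul] at k7
    replace k7 := congrArg (Int.cast : ℤ → ℚ_[2]) (congrFun k7 i)
    generalize fc (e • z + z.a • (cj x * y) - t) = w at k7 ⊢
    simp [nm_cj] at k7 ⊢
    field_simp
    linear_combination -k7)
  rw [← h6 ⟨y, ne0 (cp_mul.1 k2).2⟩, ← k6]
  refine ((rho_eq (k5.one_add _) v x).trans ?_).symm
  rw [k4, mul_smul_comm, ← mul_assoc, mul_cj, ← zsmul_eq_mul, v.2.2.1 _ _ (k3 ▸ he.add_mul_left_left _),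
    v.2.2.1 _ _ hx]

theorem pq (hM : M ≠ 0) {d : ℕ} {v : Mo M} (hv : v ∈ Sd (rho M) 2 d) :
    ∃ Φ, Pq ℚ_[2] M d Φ ∧ ∀ x, Cp M x → QuotientAddGroup.mk' _ (Φ x) = v.1 x := by
  choose P h1 h2 using loc hM hv
  refine ⟨_, ⟨fun y => P (Classical.epsilon (Rl M · y)), fun _ => h1 _, fun y w => ?_,
    fun n y h => ?_, fun _ => rfl⟩, fun y hy => (h2 _ y (Classical.epsilon_spec (p := (Rl M · y))
      ⟨y, hy, _, 0, hy, by simp [cj_mul]⟩)).symm⟩ <;>
    refine congrArg (fun s => P (Classical.epsilon s)) (_root_.funext fun x => propext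
      (and_congr_right' ⟨fun ⟨e, z, he, k⟩ => ?_, fun ⟨e, z, he, k⟩ => ?_⟩))
  · exact ⟨e, z - cj x * w, he, by
      rw [smul_sub, ← add_sub_assoc, ← k, mul_add, mul_smul_comm, add_sub_cancel_right]⟩
  · exact ⟨e, z + cj x * w, he, by rw [smul_add, ← add_assoc, ← k, mul_add, mul_smul_comm]⟩
  · obtain ⟨a, b, s⟩ := h.mul_right h.of_mul_right_left
    refine ⟨a * e, a • z + b • (cj x * y), IsCoprime.mul_left ⟨n, b * 2, by
      linear_combination s⟩ he, ?_⟩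
    rw [mul_smul_comm, ← zsmul_one e] at k
    rw [← zsmul_one]
    linear_combination (norm := module) a • k - s • (cj x * y)
  · exact ⟨n * e, n • z, h.mul_left he, by
      rw [mul_smul_comm, k, ← zsmul_one, ← zsmul_one]; module⟩

theorem chr {V : Type} [AddCommGroup V] {v : V} {i : ℕ} (h : 2 ^ i • v = 0) (h0 : v ≠ 0) :
    ∃ χ : V →+ QZ 2, χ v ≠ 0 := by
  obtain ⟨c, hc⟩ := CharacterModule.exists_character_apply_ne_zero_of_ne_zero h0
  refine ⟨(QuotientAddGroup.map _ _ (Rat.castHom ℚ_[2]).toAddMonoidHom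
    ((AddSubgroup.zmultiples_le_of_mem (by simp)))).comp c, fun k => hc ?_⟩
  have k1 : 2 ^ i • c v = 0 := by rw [← map_nsmul, h, map_zero]
  obtain ⟨r, hr⟩ := QuotientAddGroup.mk_surjective (c v)
  erw [AddMonoidHom.comp_apply, ← hr] at k
  rw [← hr] at k1 ⊢
  obtain ⟨m, hm⟩ := (QuotientAddGroup.eq_zero_iff _).1 k1
  have k2 : ‖(r : ℚ_[2])‖ ≤ 1 := (QuotientAddGroup.eq_zero_iff _).1 k
  have k3 : (m : ℚ_[2]) = ((2 : ℕ) : ℚ_[2]) ^ i * r := by
    simpa using congrArg (Rat.cast : ℚ → ℚ_[2]) hm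
  obtain ⟨s, rfl⟩ := (Padic.norm_int_le_pow_iff_dvd m i).1 (by
    rw [k3, norm_mul, Padic.norm_p_pow]; exact mul_le_of_le_one_right (by positivity) k2)
  exact (QuotientAddGroup.eq_zero_iff _).2 ⟨s, by simpa using hm⟩

variable (M) in
/-- the eigenfunctions -/
def Ei (R : ι → Finset Hu) (a : ι → ℤ) : Submodule ℤ (Mo M) where
  carrier := {ψ | (∀ u x, nm u = 1 → ψ.1 (u * x) = ψ.1 x) ∧ ∀ l, TL (QZ 2) (R l) ψ.1 = a l • ψ.1}
  zero_mem' := ⟨fun _ _ _ => rfl, by simp⟩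
  add_mem' h k := ⟨fun u x e => congrArg₂ (· + ·) (h.1 u x e) (k.1 u x e), by simp [h.2, k.2, zsmul_add]⟩
  smul_mem' c _ h := ⟨fun u x e => congrArg (c • ·) (h.1 u x e), fun l => by
    rw [Submodule.coe_smul, map_smul, h.2, smul_comm]⟩

end Rt

open Hu J0 Ar Rt

/-- **the linear rate** -/
theorem rt {ι : Type} {M : ℕ} {R : ι → Finset Hu} {a : ι → ℤ} (hM : M ≠ 0)
    (hR : ∀ l, ∀ α ∈ R l, Cp M α) (h : EIGr M R a) : ∃ C, ∀ (j : ℕ) P,
      Kil ℚ_[2] M R (C * (j + 1)) P → (2 : ℤ) ^ j ∣ FreeAlgebra.lift ℤ a P := by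
  obtain ⟨c, hc⟩ := rate (uo hM) Nat.prime_two (ad hM) (Z := ⊥) (A := Ei M R a) (Sd_gs (p := 2) 0)
    (fun γ v hv => ⟨fun u x e => (congrArg v.1 (mul_assoc _ _ _)).trans (hv.1 u _ e), fun l =>
      funext fun x => by
        have := congrFun (hv.2 l) (x * nu γ)
        simp only [TL_apply, ← mul_assoc] at this ⊢
        exact this⟩) bot_le fun j => by
    obtain ⟨V, _, ψ, ⟨⟨i, h1⟩, ⟨n, h2⟩, h3, h4, h5⟩, x, hx, h6⟩ := h j
    obtain ⟨χ, h7⟩ := chr (i := i) (by rw [smul_comm, h1, nsmul_zero]) h6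
    refine ⟨⟨fun x => if Cp M x then χ (ψ x) else 0, fun x k => if_neg k, fun d x k => ?_, n + i,
      fun x => ⟨?_, fun y => ?_⟩⟩, ⟨fun u x k => ?_, fun l => funext fun x => ?_⟩, fun k => h7 ?_⟩
    · exact if_ctx_congr (by rw [zsmul_eq_mul, cp_mul, and_iff_right (cp_int k)])
        (fun e => by rw [h4 d x k e]) fun _ => rfl
    · beta_reduce
      split_ifs
      · rw [← map_nsmul, pow_add, mul_nsmul', h1, nsmul_zero, map_zero]
      · exact nsmul_zero _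
    · refine if_ctx_congr (cp_per ⟨2 * 2 ^ (n + i), by ring⟩ y) (fun e => ?_) fun _ => rfl
      rw [show 4 * M * 2 ^ (n + i) = 2 ^ n * M * (4 * 2 ^ i) by ring, mul_nsmul', h2 x _ e]
    · exact if_ctx_congr (by rw [cp_mul, and_iff_right (cp_un k)])
        (fun e => by rw [h3 u x k e]) fun _ => rfl
    · rw [TL_apply, Pi.smul_apply]
      dsimp only
      by_cases e : Cp M x
      · rw [if_pos e, ← map_zsmul, ← h5 l x e, map_sum]
        exact Finset.sum_congr rfl fun α k => if_pos ((hR l α k).mul e)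
      · rw [if_neg e, smul_zero]
        exact Finset.sum_eq_zero fun α k => if_neg fun k => e (cp_mul.1 k).2
    · simpa [hx] using congrFun (congrArg Subtype.val k) x
  obtain ⟨s, o, ho, hs⟩ := Nat.exists_eq_pow_mul_and_not_dvd
    (Finset.card_ne_zero.2 ⟨1, mem_On.2 (map_one nm)⟩) 2 (by decide)
  refine ⟨c * (s + 1) + 1, fun j P hP => by_contra fun k => ?_⟩
  refine absurd (hc (j + s) ((c * (s + 1) + 1) * (j + 1)) fun v hv hd => ?_)
    (by nlinarith [Nat.zero_le (c * s * j)])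
  obtain ⟨Φ, h1, h2⟩ := pq hM hd
  have k1 : ∀ P, wT (QZ 2) R P v.1 = FreeAlgebra.lift ℤ a P • v.1 := fun P => by
    induction P using FreeAlgebra.induction with
    | grade0 r => simp [Module.algebraMap_end_apply, -zsmul_eq_mul]
    | grade1 l => simp [wT, hv.2 l]
    | mul a b ha hb => rw [map_mul, map_mul, Module.End.mul_apply, hb, map_smul, ha, mul_comm, mul_smul]
    | add a b ha hb => simp [ha, hb, add_zsmul]
  refine Subtype.ext (funext fun x => ?_)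
  by_cases hx : Cp M x
  swap
  · simp [v.2.1 x hx]
  have k2 := wT_map hR (QuotientAddGroup.mk' _) P (TL ℚ_[2] (On 1) Φ) ((On 1).card • v.1)
    (fun x hx => by
      rw [TL_apply, map_sum, Pi.smul_apply, ← Finset.sum_const]
      refine Finset.sum_congr rfl fun u hu => ?_
      rw [h2 _ ((cp_un (mem_On.1 hu)).mul hx),
        hv.1 u x (mem_On.1 hu)]) x hx
  rw [hP Φ h1 x hx, map_zero, map_nsmul, k1, Pi.smul_apply, Pi.smul_apply, ← natCast_zsmul,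
    smul_smul, eq_comm, ← addOrderOf_dvd_iff_zsmul_eq_zero, hs] at k2
  obtain ⟨n, hn⟩ := v.2.2.2
  obtain ⟨r, -, hr⟩ := (Nat.dvd_prime_pow Nat.prime_two).1
    (addOrderOf_dvd_of_nsmul_eq_zero (hn x).1)
  refine addOrderOf_dvd_iff_nsmul_eq_zero.1 (hr ▸ pow_dvd_pow 2 (not_lt.1 fun e => k ?_))
  have k3 := (pow_dvd_pow (2 : ℤ) (show s + j ≤ r by omega)).trans (by simpa [hr] using k2)
  rw [pow_add, mul_assoc, mul_dvd_mul_iff_left (by positivity)] at k3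
  exact Int.prime_two.pow_dvd_of_dvd_mul_left j (mt Int.natCast_dvd_natCast.1 ho) k3

end Vale.Agent.P004M.D
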