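import Vale.Agent.P004M.D.HDef

/-!
# P004M, route D, block H: rigidity of the series which commute with duplication
-/

set_option autoImplicit false
set_option linter.all false

open PowerSeries
open scoped Classical

noncomputable section

namespace Vale.Agent.P004M.D

variable {A : Type} [CommRing A]

/-- the series whose first `L` coefficients lie in `I` -/
def Jd (I : Ideal A) (L : ℕ) : Ideal A⟦X⟧ where
  carrier := {f | ∀ j < L, coeff j f ∈ I}
  zero_mem' j _ := by simp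
  add_mem' {f g} hf hg j hj := by rw [map_add]; exact I.add_mem (hf j hj) (hg j hj)
  smul_mem' c f hf j hj := by
    rw [smul_eq_mul, coeff_mul]
    exact I.sum_mem fun p hp => I.mul_mem_left _ (hf _ (by
      have := Finset.HasAntidiagonal.mem_antidiagonal.1 hp
      omega))

variable {I K : Ideal A} {L : ℕ} {f g f' : A⟦X⟧} {t s s' : A}

theorem Jd_mul (hf : f ∈ Jd I L) (hg : g ∈ Jd K L) : f * g ∈ Jd (I * K) L := fun j hj => by
  rw [coeff_mul]
  exact Ideal.sum_mem _ fun p hp => by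
    have := Finset.HasAntidiagonal.mem_antidiagonal.1 hp
    exact Ideal.mul_mem_mul (hf _ (by omega)) (hg _ (by omega))

theorem Jd_C {a : A} (h : a ∈ I) : C a ∈ Jd I L := fun j _ => by
  rw [coeff_C]
  split_ifs
  · exact h
  · exact I.zero_mem

theorem Jd_two (h : (2 : A) ∈ I) : (2 : A⟦X⟧) ∈ Jd I L := by
  rw [← map_ofNat (C (R := A)) 2]; exact Jd_C h

theorem Jd_X : (X : A⟦X⟧) ^ L ∈ Jd I L := fun j hj => by
  rw [coeff_X_pow, if_neg hj.ne]; exact I.zero_mem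

theorem Jd_le (h : I ≤ K) (hf : f ∈ Jd I L) : f ∈ Jd K L := fun j hj => h (hf j hj)

/-- `∑ c j X ^ (4 j)` -/
def E4 (c : ℕ → A) (L : ℕ) : A⟦X⟧ := ∑ j ∈ Finset.range L, C (c j) * (X ^ 4) ^ j

theorem E4_coeff (c : ℕ → A) {j : ℕ} (h : j < L) : coeff (4 * j) (E4 c L) = c j := by
  rw [E4, map_sum, Finset.sum_eq_single j]
  · rw [← pow_mul, coeff_C_mul, coeff_X_pow, if_pos rfl, mul_one]
  · intro i _ hi
    rw [← pow_mul, coeff_C_mul, coeff_X_pow, if_neg (by omega), mul_zero]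
  · intro hj
    exact absurd (Finset.mem_range.2 h) hj

theorem E4_six (c : ℕ → A) : coeff 6 (E4 c L) = 0 := by
  rw [E4, map_sum]
  exact Finset.sum_eq_zero fun i _ => by
    rw [← pow_mul, coeff_C_mul, coeff_X_pow, if_neg (by omega), mul_zero]

theorem ex_tail (f : A⟦X⟧) (L : ℕ) :
    ∃ g, f = ∑ j ∈ Finset.range L, C (coeff j f) * X ^ j + X ^ L * g := by
  obtain ⟨g, hg⟩ : (X : A⟦X⟧) ^ L ∣ f - ∑ j ∈ Finset.range L, C (coeff j f) * X ^ j :=
    X_pow_dvd_iff.2 fun m hm => by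
      rw [map_sub, map_sum, Finset.sum_eq_single m]
      · rw [coeff_C_mul, coeff_X_pow, if_pos rfl, mul_one, sub_self]
      · intro i _ hi
        rw [coeff_C_mul, coeff_X_pow, if_neg hi.symm, mul_zero]
      · intro hj
        exact absurd (Finset.mem_range.2 hm) hj
  exact ⟨g, by rw [← hg]; ring⟩

theorem ps_sub (h2 : (2 : A) ∈ I) (ht : t ∈ I) : ps t - X ^ 4 ∈ Jd I L := by
  have e : ps t - X ^ 4 = C t * (ps t * X ^ 2 + C t * X ^ 2 + 2 * X ^ 3) + 2 * (ps t * X ^ 3 + 2 * X) := by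
    have := ps_mul t
    simp only [map_pow, map_mul, map_ofNat] at this
    linear_combination this
  rw [e]
  exact add_mem (Ideal.mul_mem_right _ _ (Jd_C ht)) (Ideal.mul_mem_right _ _ (Jd_two h2))

theorem subst_sub' (h2 : (2 : A) ∈ I) (ht : t ∈ I) (hf : f ∈ Jd K L) :
    f.subst (ps t) - E4 (fun j => coeff j f) L ∈ Jd (I * K) L := by
  obtain ⟨g, hg⟩ := ex_tail f L
  obtain ⟨q, hq⟩ := X_dvd_iff.2 (ps_zero t)
  have e := congrArg (substAlgHom (ps_has t)) hg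
  have c : ∀ a : A, substAlgHom (ps_has t) (C a) = C a := fun a => AlgHom.commutes _ a
  simp only [map_add, map_sum, map_mul, map_pow, c, substAlgHom_X] at e
  rw [← coe_substAlgHom (ps_has t), e, E4, add_sub_right_comm, ← Finset.sum_sub_distrib]
  refine add_mem (Ideal.sum_mem _ fun j hj => ?_) ?_
  · obtain ⟨r, hr⟩ := sub_dvd_pow_sub_pow (ps t) (X ^ 4) j
    rw [← mul_sub, hr, mul_comm (C _), mul_right_comm]
    exact Ideal.mul_mem_right _ _ (Jd_mul (ps_sub h2 ht) (Jd_C (hf j (Finset.mem_range.1 hj))))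
  · generalize substAlgHom (ps_has t) g = y
    rw [hq, mul_pow, mul_assoc]
    exact Ideal.mul_mem_right _ _ Jd_X

theorem core {Q : Type} [CommRing Q] {F D f d s e : Q}
    (e1 : F * (1 - s * f ^ 2 - 2 * f ^ 3) = 4 * f + s ^ 2 * f ^ 2 + 2 * s * f ^ 3 + f ^ 4)
    (e2 : (F + D) * (1 - (s + e) * (f + d) ^ 2 - 2 * (f + d) ^ 3) =
      4 * (f + d) + (s + e) ^ 2 * (f + d) ^ 2 + 2 * (s + e) * (f + d) ^ 3 + (f + d) ^ 4)
    (a1 : 2 * d = 0) (a2 : s * d = 0) (a3 : e * d = 0) (a4 : d * d = 0) (a5 : 2 * e = 0)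
    (a6 : s * e = 0) (a7 : e * e = 0) (a8 : 2 * D = 0) (a9 : s * D = 0) (a10 : e * D = 0) :
    D = e * f ^ 6 := by
  have b1 : (s + e) * (f + d) ^ 2 = (s + e) * f ^ 2 := by
    linear_combination (2 * f + d) * a2 + (2 * f + d) * a3
  have b2 : 2 * (f + d) ^ 3 = 2 * f ^ 3 := by linear_combination (3 * f ^ 2 + 3 * f * d + d ^ 2) * a1
  have b3 : (f + d) ^ 4 = f ^ 4 := by
    linear_combination (2 * f ^ 3) * a1 + (6 * f ^ 2 + 4 * f * d + d ^ 2) * a4
  have b4 : e * F = e * f ^ 4 := by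
    linear_combination e * e1 + (F * f ^ 2 + s * f ^ 2) * a6 + (F * f ^ 3 + 2 * f + s * f ^ 3) * a5
  rw [b1, b2, b3] at e2
  linear_combination e2 - e1 + f ^ 2 * b4 + f ^ 2 * a9 + f ^ 2 * a10 + f ^ 3 * a8 + 2 * a1 +
    (s + e) * b1 + 2 * f ^ 2 * a6 + f ^ 2 * a7 + (s + e) * b2 + f ^ 3 * a5

theorem step (hK : K ≤ I) (h2 : (2 : A) ∈ I) (ht : t ∈ I) (hs : s ∈ I) (c : Cm t s f)
    (c' : Cm t s' f') (hu : IsUnit (coeff 1 f)) (hL : 7 ≤ L) (hd : f' - f ∈ Jd K L)
    (he : s' - s ∈ K) : s' - s ∈ I * K ∧ ∀ j, 4 * j < L → coeff j (f' - f) ∈ I * K := by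
  have h1 := subst_sub' h2 ht hd
  have hE : E4 (fun j => coeff j (f' - f)) L ∈ Jd K L :=
    Ideal.sum_mem _ fun j hj => Ideal.mul_mem_right _ _ (Jd_C (hd j (Finset.mem_range.1 hj)))
  have hD : (f' - f).subst (ps t) ∈ Jd K L := by
    simpa using add_mem (Jd_le Ideal.mul_le_right h1) hE
  have h3 : (f' - f).subst (ps t) - C (s' - s) * f ^ 6 ∈ Jd (I * K) L := by
    have z : ∀ {a b : A⟦X⟧}, a ∈ Jd I L → b ∈ Jd K L →
        Ideal.Quotient.mk (Jd (I * K) L) a * Ideal.Quotient.mk (Jd (I * K) L) b = 0 :=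
      fun ha hb => by rw [← map_mul]; exact Ideal.Quotient.eq_zero_iff_mem.2 (Jd_mul ha hb)
    have e1 := congrArg (Ideal.Quotient.mk (Jd (I * K) L)) c.2
    have e2 := congrArg (Ideal.Quotient.mk (Jd (I * K) L)) c'.2
    have q1 : f'.subst (ps t) = f.subst (ps t) + (f' - f).subst (ps t) := by
      rw [← coe_substAlgHom (ps_has t), ← map_add, add_sub_cancel]
    rw [q1, ← add_sub_cancel s s'] at e2
    rw [← Ideal.Quotient.eq, map_mul, map_pow]
    generalize s' - s = e at *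
    generalize (f' - f).subst (ps t) = D at *
    rw [← add_sub_cancel f f'] at e2
    generalize f' - f = d at *
    simp only [map_add, map_mul, map_sub, map_pow, map_ofNat, map_one] at e1 e2
    have t2 := Jd_two (L := L) h2
    exact core e1 e2 (z t2 hd) (z (Jd_C hs) hd) (z (Jd_C (hK he)) hd) (z (Jd_le hK hd) hd)
      (z t2 (Jd_C he)) (z (Jd_C hs) (Jd_C he)) (z (Jd_C (hK he)) (Jd_C he)) (z t2 hD)
      (z (Jd_C hs) hD) (z (Jd_C (hK he)) hD)
  have h4 : C (s' - s) * f ^ 6 - E4 (fun j => coeff j (f' - f)) L ∈ Jd (I * K) L := by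
    simpa using sub_mem h1 h3
  have h5 : s' - s ∈ I * K := by
    obtain ⟨q, hq⟩ := X_dvd_iff.2 c.1
    have := h4 6 (by omega)
    rw [map_sub, E4_six, sub_zero, coeff_C_mul, hq, mul_pow,
      show (6 : ℕ) = 0 + 6 from rfl, coeff_X_pow_mul, coeff_zero_eq_constantCoeff_apply, map_pow] at this
    rw [hq, show (1 : ℕ) = 0 + 1 from rfl, coeff_succ_X_mul, coeff_zero_eq_constantCoeff_apply] at hu
    exact (Ideal.mul_unit_mem_iff_mem _ (hu.pow _)).1 this
  refine ⟨h5, fun j hj => ?_⟩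
  have h6 := sub_mem (Ideal.mul_mem_right (f ^ 6) _ (Jd_C (L := L) h5)) h4
  rw [sub_sub_cancel] at h6
  have := h6 _ hj
  rwa [E4_coeff _ (by omega)] at this

theorem sum_pow4 {Q ι : Type} [CommRing Q] (h2 : (2 : Q) = 0) (S : Finset ι) (x : ι → Q) :
    (∑ i ∈ S, x i) ^ 4 = ∑ i ∈ S, x i ^ 4 := by
  induction S using Finset.induction_on with
  | empty => simp
  | insert a S ha ih =>
    rw [Finset.sum_insert ha, Finset.sum_insert ha, ← ih]
    generalize ∑ i ∈ S, x i = y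
    linear_combination (2 * x a ^ 3 * y + 3 * x a ^ 2 * y ^ 2 + 2 * x a * y ^ 3) * h2

theorem start (h2 : (2 : A) ∈ I) (ht : t ∈ I) (hs : s ∈ I) (c : Cm t s f) (j : ℕ) :
    coeff j f ^ 4 - coeff j f ∈ I := by
  obtain ⟨L, hL⟩ : ∃ L, 4 * j < L := ⟨_, Nat.lt_succ_self _⟩
  have h1 := subst_sub' (K := ⊤) (L := L) (f := f) h2 ht fun _ _ => trivial
  rw [Ideal.mul_top, ← Ideal.Quotient.eq] at h1
  have z2 : (2 : A⟦X⟧ ⧸ Jd I L) = 0 := Ideal.Quotient.eq_zero_iff_mem.2 (Jd_two h2)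
  have zs : Ideal.Quotient.mk (Jd I L) (C s) = 0 := Ideal.Quotient.eq_zero_iff_mem.2 (Jd_C hs)
  have zX : Ideal.Quotient.mk (Jd I L) X ^ L = 0 := Ideal.Quotient.eq_zero_iff_mem.2 Jd_X
  have e1 := congrArg (Ideal.Quotient.mk (Jd I L)) c.2
  obtain ⟨g, hg⟩ := ex_tail f L
  have e2 := congrArg (Ideal.Quotient.mk (Jd I L)) hg
  simp only [map_add, map_mul, map_sub, map_pow, map_ofNat, map_one, map_sum, zs, zX] at e1 e2
  have e3 : Ideal.Quotient.mk (Jd I L) (E4 (fun j => coeff j f ^ 4) L) =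
      Ideal.Quotient.mk (Jd I L) f ^ 4 := by
    rw [e2, zero_mul, add_zero, sum_pow4 z2, E4]
    simp only [map_mul, map_pow, map_sum]
    exact Finset.sum_congr rfl fun i _ => by ring
  have e4 : E4 (fun j => coeff j f ^ 4) L - E4 (fun j => coeff j f) L ∈ Jd I L := by
    rw [← Ideal.Quotient.eq, e3, ← h1]
    generalize Ideal.Quotient.mk (Jd I L) (f.subst (ps t)) = F at *
    generalize Ideal.Quotient.mk (Jd I L) f = x at *
    linear_combination -e1 - (F * x ^ 3 + 2 * x) * z2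
  have := e4 _ hL
  rwa [map_sub, E4_coeff _ (by omega), E4_coeff _ (by omega)] at this

/-- **rigidity** -/
theorem rig {k : Type} [Field k] (ρ : A →+* k) (hρ : ∀ x, ρ x ≠ 0 → IsUnit x) (h2 : (2 : A) ∈ I)
    (ht : t ∈ I) (hs : s ∈ I) (hs' : s' ∈ I) (c : Cm t s f) (c' : Cm t s' f')
    (hu : IsUnit (coeff 1 f)) (n : ℕ) (h : ∀ j < 7 * 4 ^ n, ρ (coeff j f) = ρ (coeff j f')) :
    s - s' ∈ I ^ (n + 1) ∧ coeff 1 f - coeff 1 f' ∈ I ^ (n + 1) := by
  have key : ∀ i m, f' - f ∈ Jd I (7 * 4 ^ (m + i)) →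
      s' - s ∈ I ^ (i + 1) ∧ f' - f ∈ Jd (I ^ (i + 1)) (7 * 4 ^ m) := by
    intro i
    induction i with
    | zero => exact fun m hm => by simpa using ⟨I.sub_mem hs' hs, hm⟩
    | succ i ih =>
      intro m hm
      obtain ⟨k1, k2⟩ := ih (m + 1) (by rwa [add_right_comm])
      have p : 0 < 4 ^ (m + 1) := by positivity
      obtain ⟨k3, k4⟩ := step (Ideal.pow_le_self (by omega)) h2 ht hs c c' hu (by omega) k2 k1
      rw [pow_succ']
      exact ⟨k3, fun j hj => k4 j (by rw [pow_succ]; omega)⟩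
  obtain ⟨k1, k2⟩ := key n 0 fun j hj => by
    have a := start h2 ht hs c j
    have a' := start h2 ht hs' c' j
    have b := h j (by simpa using hj)
    rw [map_sub]
    generalize coeff j f = x at *
    generalize coeff j f' = y at *
    refine (Ideal.mul_unit_mem_iff_mem _ (hρ ((y - x) ^ 3 - 1) (by simp [b]))).1 ?_
    convert add_mem (sub_mem a' a) (I.mul_mem_right (x ^ 4 - 2 * y ^ 3 * x + 3 * y ^ 2 * x ^ 2 -
      2 * y * x ^ 3) h2) using 1
    ring
  refine ⟨by simpa using neg_mem k1, ?_⟩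
  simpa using neg_mem (k2 1 (by norm_num))

end Vale.Agent.P004M.D
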