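import Vale.Agent.P004M.D.HGen
import Vale.Agent.P004M.D.HRig
import Vale.Agent.P004M.D.HLin

/-!
# P004M, route D, block H: the formula of Velu for quaternions of odd norm, continuity
-/

set_option autoImplicit false
set_option linter.all false

open scoped Classical

noncomputable section

namespace Vale.Agent.P004M.D

open Hu

theorem Hu.fac {l : ℕ} (hl : l.Prime) (h2 : l ≠ 2) {g : Hu} (h : (l : ℤ) ∣ nm g) :
    (∃ α ∈ Rp l, ∃ β, g = β * α) ∧ ∃ α β, nm α = l ∧ g = α * β := by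
  have k : ∀ g : Hu, (l : ℤ) ∣ nm g → ∃ α ∈ Rp l, ∃ β, g = β * α := fun g h => by
    obtain ⟨α, a⟩ := Finset.card_pos.1 (show 0 < ((Rp l).filter fun α => ∃ β, g = β * α).card by
      rw [count hl h2 h]; split_ifs <;> omega)
    exact ⟨α, Finset.mem_filter.1 a⟩
  obtain ⟨α, a, β, e⟩ := k (cj g) (by rwa [nm_cj])
  exact ⟨k g h, cj α, cj β, by rw [nm_cj, Rp_nm a], by rw [← cj_mul_rev, ← e, cj_cj]⟩

variable {k : Type} [Field k] [IsAlgClosed k] {w : k}

theorem le_of_sub {F : Type} [Field F] {B : ValuationSubring F} {a b : F}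
    (h : B.valuation (a - b) < 1) (h' : B.valuation b ≤ 1) : B.valuation a ≤ 1 := by
  simpa only [sub_add_cancel] using B.valuation.map_add_le h.le h'

section
open Polynomial

/-- **the formula of Velu for a quaternion of odd norm** -/
theorem Cw.kum (h : Cw w) (g : Hu) (hg : Odd (nm g)) (C : Finset (Pt (0 : k)))
    (hC : ∀ P, P ∈ C ↔ h.act g P = 0) : ∃ γ d : k, γ ^ 3 = 1 ∧
      ∀ P, P ∉ C → xc (h.act g P) = γ * ∑ a ∈ C, xc (P - a) + d := by
  obtain ⟨F, _, ι, x, y, B, G⟩ := ex_gn h.two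
  have h2 := (h.map ι).two
  have bq := G.bq h
  have x1 := G.big
  have x0 : 0 < B.valuation x := zero_lt_one.trans x1
  obtain ⟨U, hU⟩ : ∃ U : Pt (0 : F) → F, ∀ P, U P = ∑ a ∈ C, xc (P - mp ι a) := ⟨_, fun _ => rfl⟩
  have Un : ∀ P, 1 < B.valuation (xc P) → B.valuation (U P - xc P) ≤ 1 := fun P hP => by
    rw [hU, ← Finset.add_sum_erase C _ ((hC 0).2 (map_zero _)), map_zero, sub_zero, add_sub_cancel_left]
    refine B.valuation.map_sum_le fun a ha => ?_
    have := G.near h hP (neg_ne_zero.2 (Finset.mem_erase.1 ha).1)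
    rw [map_neg, ← sub_eq_add_neg] at this
    exact le_of_sub this (G.hv _)
  have Um : ∀ τ : F →+* F, (∀ a, mp τ (mp ι a) = mp ι a) → ∀ P, τ (U P) = U (mp τ P) :=
    fun τ t P => by
      rw [hU, hU, map_sum]
      exact Finset.sum_congr rfl fun a _ => by rw [← xc_mp τ h2, map_sub, t]
  obtain ⟨σ, s1, s2, s3, s4, s5, s6⟩ := G.even h
  have su : σ (U (p0 x y)) = U (p0 x y) := by
    rw [Um σ s3, s2, hU, hU]
    refine Finset.sum_equiv (Equiv.neg _) (fun a => by simp [hC]) fun a _ => ?_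
    rw [← xc_neg, Equiv.neg_apply, map_neg]
    congr 1
    abel
  have g1 := (h.map ι).val_act _ hg bq
  have u1 := Un _ bq
  rw [G.xq h] at g1 u1
  have xn : x ≠ 0 := fun t => by simp [t] at x0
  obtain ⟨γ, hγ⟩ : ∃ γ, B.valuation (xc ((h.map ι).act g (p0 x y)) - ι γ * x) < B.valuation x := by
    obtain ⟨p, q, -, q0, e⟩ := s6 (xc ((h.map ι).act g (p0 x y)) / x) (by rw [map_div₀, s4, s5])
    obtain ⟨γ, hγ⟩ := G.deg q0 e (by rwa [map_div₀, g1, div_self x0.ne'])
    refine ⟨γ, ?_⟩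
    have := mul_lt_mul_of_pos_right hγ x0
    rwa [← map_mul, sub_mul, div_mul_cancel₀ _ xn, one_mul] at this
  have γ0 : γ ≠ 0 := fun t => by simp [t, g1] at hγ
  obtain ⟨z, hz⟩ : ∃ z, z = xc ((h.map ι).act g (p0 x y)) - ι γ * U (p0 x y) := ⟨_, rfl⟩
  obtain ⟨p, q, cop, q0, e⟩ := s6 z (by rw [hz, map_sub, map_mul, s4, s1, su])
  have z1 : B.valuation z ≤ 1 := by
    obtain ⟨d, hd⟩ := G.deg q0 e (by
      rw [show z = (xc ((h.map ι).act g (p0 x y)) - ι γ * x) - ι γ * (U (p0 x y) - x) by rw [hz]; ring]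
      refine B.valuation.map_sub_lt hγ ?_
      rw [map_mul]
      exact (mul_le_one' (G.hv _) u1).trans_lt x1)
    exact le_of_sub hd (G.hv d)
  have key : ∀ c, ∃ τ : F →+* F, (∀ a, τ (ι a) = ι a) ∧ τ x = xc (p0 x y + mp ι c) ∧
      (c ∈ C → τ z = z) ∧ (c ∉ C →
        B.valuation (τ z - ι (xc (h.act g c) - γ * ∑ a ∈ C, xc (c - a))) < 1) := fun c => by
    obtain ⟨τ, t1, t2, t3, t4, t5⟩ := G.move h bq c
    have e1 : τ z = xc ((h.map ι).act g (p0 x y) + mp ι (h.act g c)) - ι γ * U (p0 x y + mp ι c) := by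
      rw [hz, map_sub, map_mul, t5, t1, Um τ t4, t3, map_add, mp_act ι h (h.map ι) rfl]
    refine ⟨τ, t1, t2, fun hc => ?_, fun hc => ?_⟩
    · rw [e1, (hC c).1 hc, map_zero, add_zero, hz, hU, hU]
      congr 2
      refine Finset.sum_equiv (Equiv.subRight c) (fun a => by simp [hC, (hC c).1 hc]) fun a _ => ?_
      rw [Equiv.subRight_apply, map_sub]
      congr 1
      abel
    · rw [e1, map_sub ι, map_mul ι, sub_sub_sub_comm, ← mul_sub, hU, map_sum ι, ← Finset.sum_sub_distrib]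
      refine B.valuation.map_sub_lt (G.near h (by rwa [g1]) (mt (hC c).2 hc)) ?_
      rw [map_mul]
      refine (mul_le_of_le_one_left zero_le (G.hv _)).trans_lt
        (B.valuation.map_sum_lt one_ne_zero fun a ha => ?_)
      rw [add_sub_assoc, ← map_sub]
      exact G.near h bq (sub_ne_zero.2 fun t => hc (t ▸ ha))
  have nr : ∀ a, ¬ q.IsRoot a := fun a ha => by
    obtain ⟨c, c0, rfl⟩ := ex_pt h.two a
    obtain ⟨τ, t1, t2, t3, t4⟩ := key c
    have n := G.near h bq c0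
    have e1 := congrArg (fun s => B.valuation (τ s)) e
    simp only [map_mul, G.map_ev t1, t2] at e1
    have a1 := val_sub _ G.hv n q
    rw [ha, map_zero, sub_zero] at a1
    have a2 : B.valuation (τ z) ≤ 1 := by
      by_cases hc : c ∈ C
      · rwa [t3 hc]
      · exact le_of_sub (t4 hc) (G.hv _)
    rw [val_unit _ G.hv n (p := p) fun t => by
      obtain ⟨a, b, s⟩ := cop
      simpa [t, ha.eq_zero] using congrArg (eval (xc c)) s] at e1
    exact absurd e1 ((mul_le_of_le_one_left zero_le a2).trans_lt a1).ne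
  obtain ⟨d, hd⟩ : ∃ d, z = ι d := by
    have d1 : q.degree = 0 := by
      by_contra t
      exact (IsAlgClosed.exists_root q t).elim nr
    rw [eq_C_of_degree_eq_zero d1, eval₂_C] at e
    have b0 : q.coeff 0 ≠ 0 := fun t => q0 (by rw [eq_C_of_degree_eq_zero d1, t, map_zero])
    have d2 : p.natDegree = 0 := by
      by_contra t
      have := val_deg _ G.hv x1 (p := p) fun s => t (by simp [s])
      rw [← e, map_mul, val_one _ G.hv b0, mul_one] at this
      exact absurd (this ▸ z1) (not_le.2 (one_lt_pow₀ x1 t))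
    rw [eq_C_of_natDegree_eq_zero d2, eval₂_C] at e
    exact ⟨p.coeff 0 / q.coeff 0, by rw [map_div₀, eq_div_iff ((map_ne_zero ι).2 b0), e]⟩
  refine ⟨γ, d, ?_, fun P hP => ?_⟩
  · have b4 : 1 < B.valuation (xc (p0 x y + p0 x y)) := by
      rw [xc_two h2, map_pow]; exact one_lt_pow₀ bq four_ne_zero
    obtain ⟨τ, t1, -, t3, t4, t5⟩ := G.move h b4 0
    have e1 := congrArg τ hz
    rw [map_zero, add_zero] at t3
    rw [map_sub, map_mul, t5, t1, Um τ t4, t3, map_add, xc_two h2, hd, t1] at e1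
    have u2 := Un _ b4
    rw [xc_two h2, G.xq h] at u2
    rw [hd] at hz
    have : B.valuation (ι (γ ^ 4 - γ) * x ^ 4) ≤ 1 := by
      generalize xc ((h.map ι).act g (p0 x y)) = s at *
      rw [show ι (γ ^ 4 - γ) * x ^ 4 = ι γ * (U (p0 x y + p0 x y) - x ^ 4) + ι d +
        (ι γ * (U (p0 x y) - x) + ι d) ^ 4 by
          rw [map_sub, map_pow]
          generalize U (p0 x y + p0 x y) = a at *
          generalize U (p0 x y) = b at *
          grind]
      refine B.valuation.map_add_le (B.valuation.map_add_le ?_ (G.hv _)) ?_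
      · rw [map_mul]; exact mul_le_one' (G.hv _) u2
      · rw [map_pow]
        refine pow_le_one₀ zero_le (B.valuation.map_add_le ?_ (G.hv _))
        rw [map_mul]; exact mul_le_one' (G.hv _) u1
    by_contra t
    rw [map_mul, val_one _ G.hv (a := γ ^ 4 - γ) fun s => t (mul_left_cancel₀ γ0 (by
      linear_combination s)), one_mul, map_pow] at this
    exact absurd this (not_le.2 (one_lt_pow₀ x1 four_ne_zero))
  · obtain ⟨τ, t1, -, -, t4⟩ := key P
    have := t4 hP
    rw [hd, t1] at this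
    rw [eq_of_val _ G.hv this]
    ring

theorem ex_pol {ι : Type} (S : Finset ι) (a : ι → k) (r : ι → PowerSeries k)
    (hr : ∀ i ∈ S, r i * (1 - PowerSeries.C (a i) * PowerSeries.X) = 1) :
    ∃ P N : k[X], P.eval 0 = 1 ∧
      (N : PowerSeries k) = P * ∑ i ∈ S, PowerSeries.X ^ 2 * r i ^ 2 ∧
      ∀ (F : Type) [Field F] (φ : k →+* F) (x : F), x ≠ 0 → (∀ i ∈ S, x ≠ φ (a i)) →
        N.eval₂ φ x⁻¹ = P.eval₂ φ x⁻¹ * ∑ i ∈ S, 1 / (x - φ (a i)) ^ 2 := by
  induction S using Finset.induction_on with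
  | empty => exact ⟨1, 0, by simp, by simp, by simp⟩
  | insert i S hi ih =>
    obtain ⟨P, N, h1, h2, h3⟩ := ih fun j hj => hr j (Finset.mem_insert_of_mem hj)
    refine ⟨P * (1 - C (a i) * X) ^ 2, N * (1 - C (a i) * X) ^ 2 + P * X ^ 2, by simp [h1], ?_,
      fun F _ φ x x0 hx => ?_⟩
    · have := hr i (Finset.mem_insert_self _ _)
      rw [Finset.sum_insert hi]
      push_cast
      rw [h2]
      linear_combination (-(P : PowerSeries k) * PowerSeries.X ^ 2 *
        (r i * (1 - PowerSeries.C (a i) * PowerSeries.X) + 1)) * this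
    · have := sub_ne_zero.2 (hx i (Finset.mem_insert_self _ _))
      rw [Finset.sum_insert hi]
      simp only [eval₂_add, eval₂_mul, eval₂_pow, eval₂_sub, eval₂_one, eval₂_C, eval₂_X,
        h3 F φ x x0 fun j hj => hx j (Finset.mem_insert_of_mem hj)]
      field_simp
      ring

theorem Ser.gen {h : Cw w} {g : Hu} (hg : Odd (nm g)) {f : PowerSeries k} (s : Ser h g f)
    {F : Type} [Field F] {ι : k →+* F} {x y : F} {B : ValuationSubring F} (G : Gn ι x y B) :
    ∃ p q : k[X], q.eval 0 ≠ 0 ∧ f * q = p ∧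
      (xc ((h.map ι).act g (p0 x y)))⁻¹ * q.eval₂ ι x⁻¹ = p.eval₂ ι x⁻¹ := by
  obtain ⟨κ, S, a, r, γ, D, γ0, h1, h3, h4⟩ := s
  obtain ⟨P, N, p1, p2, p3⟩ := ex_pol S a r h1
  have bq := G.bq h
  have g1 := (h.map ι).val_act _ hg bq
  have xn : ∀ b, x ≠ ι b := fun b t => absurd (G.hv b) (not_le.2 (t ▸ G.big))
  have x0 : x ≠ 0 := by simpa using xn 0
  have key : xc ((h.map ι).act g (p0 x y)) =
      ι γ * (x + ∑ i ∈ S, 1 / (x - ι (a i)) ^ 2 - ι D) := by
    obtain ⟨σ, s1, -, -, s4, s5, s6⟩ := G.even h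
    rw [← sub_eq_zero]
    generalize hz : xc ((h.map ι).act g (p0 x y)) -
      ι γ * (x + ∑ i ∈ S, 1 / (x - ι (a i)) ^ 2 - ι D) = z
    obtain ⟨p, q, -, q0, e⟩ := s6 z (by rw [← hz]; simp [s1, s4, s5])
    by_contra z0
    have p0' : p ≠ 0 := fun t => by
      rw [t, eval₂_zero, mul_eq_zero] at e
      exact e.elim z0 (tr_of xn q q0)
    obtain ⟨b, hb⟩ := (((finite_setOf_isRoot p0').union (S.finite_toSet.image a)).union
      ((h.fin g hg).image xc)).infinite_compl.nonempty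
    obtain ⟨c, c0, rfl⟩ := ex_pt h.two b
    simp only [Set.mem_compl_iff, Set.mem_union, not_or] at hb
    have gc : h.act g c ≠ 0 := fun t => hb.2 ⟨c, t, rfl⟩
    have ca : ∀ i ∈ S, xc c ≠ a i := fun i hi t => hb.1.2 ⟨i, hi, t.symm⟩
    obtain ⟨τ, t1, t2, t3, -, t5⟩ := G.move h bq c
    have n := G.near h bq c0
    have e1 := congrArg (fun s => B.valuation (τ s)) e
    simp only [map_mul, G.map_ev t1, t2] at e1
    rw [val_unit _ G.hv n hb.1.1] at e1
    refine absurd e1 ((mul_le_of_le_one_right zero_le (val_int _ G.hv n q)).trans_lt ?_).ne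
    have n2 := G.near h (P := (h.map ι).act g (p0 x y)) (by rwa [g1]) gc
    rw [mp_act ι h (h.map ι) rfl, ← map_add, ← t3, ← t5, h4 c gc ca] at n2
    rw [← t2] at n
    rw [← hz, show τ (xc ((h.map ι).act g (p0 x y)) -
        ι γ * (x + ∑ i ∈ S, 1 / (x - ι (a i)) ^ 2 - ι D)) = (τ (xc ((h.map ι).act g (p0 x y))) -
        ι (γ * (xc c + ∑ i ∈ S, 1 / (xc c - a i) ^ 2 - D))) - ι γ * ((τ x - ι (xc c)) +
          ∑ i ∈ S, (1 / (τ x - ι (a i)) ^ 2 - ι (1 / (xc c - a i) ^ 2))) by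
      simp only [map_sub, map_mul, map_add, map_sum, map_div₀, map_pow, map_one, t1,
        Finset.sum_sub_distrib]
      ring]
    refine B.valuation.map_sub_lt n2 ?_
    rw [map_mul]
    refine (mul_le_of_le_one_left zero_le (G.hv _)).trans_lt (B.valuation.map_add_lt n
      (B.valuation.map_sum_lt one_ne_zero fun i hi => ?_))
    have b0 : ((X - C (a i)) ^ 2 : k[X]).eval (xc c) ≠ 0 := by simpa using sub_ne_zero.2 (ca i hi)
    have b1 := val_unit _ G.hv n b0
    have b2 := val_sub _ G.hv n ((X - C (a i)) ^ 2)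
    have b3 := val_one _ G.hv b0
    simp only [eval₂_pow, eval₂_sub, eval₂_X, eval₂_C, eval_pow, eval_sub, eval_X, eval_C] at b1 b2 b3
    rw [map_div₀, map_one, div_sub_div _ _ (fun t => by simp [t] at b1) (fun t => by simp [t] at b3),
      map_div₀, map_mul, b1, b3, one_mul, one_mul, div_one, mul_one, Valuation.map_sub_swap]
    exact b2
  have g0 : xc ((h.map ι).act g (p0 x y)) ≠ 0 := fun t => by
    rw [t, map_zero] at g1
    exact absurd (g1 ▸ bq) (by simp)
  refine ⟨X * P, C γ * (P + X * (N - C D * P)), by simpa [p1] using γ0, ?_, ?_⟩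
  · push_cast
    rw [p2]
    linear_combination (P : PowerSeries k) * h3
  · rw [inv_mul_eq_iff_eq_mul₀ g0, key]
    simp only [eval₂_add, eval₂_mul, eval₂_sub, eval₂_C, eval₂_X, p3 F ι x x0 fun i _ => xn _]
    field_simp
    ring

/-- congruent quaternions have congruent expansions -/
theorem Ser.close {h : Cw w} {g g' β : Hu} (hg : Odd (nm g)) (hg' : Odd (nm g'))
    {f f' : PowerSeries k} (s : Ser h g f) (s' : Ser h g' f') {n : ℕ} (e : g - g' = 2 ^ (n + 2) * β)
    {j : ℕ} (hj : j < 7 * 4 ^ n) : f.coeff j = f'.coeff j := by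
  obtain ⟨F, _, ι, x, y, B, G⟩ := ex_gn h.two
  obtain ⟨p, q, q0, e1, e2⟩ := s.gen hg G
  obtain ⟨p', q', q0', e1', e2'⟩ := s'.gen hg' G
  have n1 := (h.map ι).near _ (β := β) hg' (n := n + 2) (by omega) (G.bq h)
  rw [← e, add_sub_cancel, G.xq h] at n1
  have x1 := G.big
  have x0 : 0 < B.valuation x := zero_lt_one.trans x1
  have u : B.valuation (x⁻¹ - ι 0) < 1 := by
    rw [map_zero, sub_zero, map_inv₀]; exact inv_lt_one_of_one_lt₀ x1
  have d : (X : k[X]) ^ (7 * 4 ^ n) ∣ p * q' - p' * q := by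
    by_cases d0 : p * q' - p' * q = 0
    · simp [d0]
    obtain ⟨r, r1, r2⟩ := exists_eq_pow_rootMultiplicity_mul_and_not_dvd _ d0 0
    generalize rootMultiplicity 0 (p * q' - p' * q) = m at r1
    rw [map_zero, sub_zero] at r1
    have a := congrArg (fun s => B.valuation (eval₂ ι x⁻¹ s)) r1
    simp only [eval₂_sub, eval₂_mul, eval₂_pow, eval₂_X, ← e2, ← e2'] at a
    rw [mul_assoc, mul_assoc, mul_comm (eval₂ ι x⁻¹ q'), ← sub_mul, map_mul, map_mul, map_mul,
      val_unit _ G.hv u q0, val_unit _ G.hv u q0', val_unit _ G.hv u (mt dvd_iff_isRoot.2 r2),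
      mul_one, mul_one, mul_one, map_pow, map_inv₀] at a
    rw [a, ← pow_mul, inv_pow, inv_mul_le_iff₀ (pow_pos x0 _), mul_one, pow_le_pow_iff_right₀ x1] at n1
    rw [r1]
    exact (pow_dvd_pow _ (by rw [pow_add] at n1; omega)).mul_right _
  obtain ⟨r, hr⟩ := d
  have a := congrArg (fun s : k[X] => (s : PowerSeries k)) hr
  simp only [Polynomial.coe_sub, Polynomial.coe_mul, Polynomial.coe_pow, Polynomial.coe_X, ← e1,
    ← e1'] at a
  have un : IsUnit ((q : PowerSeries k) * q') := by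
    rw [PowerSeries.isUnit_iff_constantCoeff]
    simpa [coeff_zero_eq_eval_zero] using And.intro q0 q0'
  have : (PowerSeries.X : PowerSeries k) ^ (7 * 4 ^ n) ∣ f - f' :=
    un.dvd_mul_right.1 ⟨r, by linear_combination a⟩
  simpa [sub_eq_zero] using PowerSeries.X_pow_dvd_iff.1 this j hj

end

open PowerSeries

/-- **continuity of the action of the quaternions of odd norm on the supersingular disc** -/
theorem cont {A : Type} [CommRing A] (h : Cw w) (ρ : A →+* k) (hρ : ∀ x, ρ x ≠ 0 → IsUnit x)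
    (I : Ideal A) (h2 : (2 : A) ∈ I) {t s s' : A} (ht : t ∈ I) (hs : s ∈ I) (hs' : s' ∈ I)
    {f f' : A⟦X⟧} (c : Cm t s f) (c' : Cm t s' f') {g g' β : Hu} (hg : Odd (nm g))
    (hg' : Odd (nm g')) (r : Ser h g (f.map ρ)) (r' : Ser h g' (f'.map ρ)) {n : ℕ}
    (e : g - g' = 2 ^ (n + 2) * β) :
    s - s' ∈ I ^ (n + 1) ∧ coeff 1 f - coeff 1 f' ∈ I ^ (n + 1) := by
  refine rig ρ hρ h2 ht hs hs' c c' (hρ _ fun z => ?_) n fun j hj => by
    simpa using r.close hg hg' r' e hj
  obtain ⟨κ, S, a, r, γ, D, -, -, h3, -⟩ := r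
  have := congrArg (coeff 1) h3
  rw [coeff_mul, Finset.Nat.antidiagonal_succ] at this
  simp [z, c.1] at this

end Vale.Agent.P004M.D
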