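import Vale.Agent.P004M.D.X0

/-!
# P004M, route D, block X: the reduction is bijective on odd torsion, the lattices `Up C`
-/

set_option autoImplicit false
set_option linter.all false

open WeierstrassCurve WeierstrassCurve.Affine
open scoped Classical

noncomputable section

namespace Vale.Agent.P004M.D

open Vale.Agent.P027H

variable {Λ M : Submodule ℤ ℂ} {t : ℂ} {A : ValuationSubring ℂ}

theorem kk_closed (A : ValuationSubring ℂ) : IsAlgClosed (kk A) :=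
  IsAlgClosed.of_exists_root _ fun p hm hi => by
    obtain ⟨P, rfl, hd, hP⟩ := Polynomial.lifts_and_degree_eq_and_monic
      (Polynomial.mem_lifts_of_surjective (f := IsLocalRing.residue A)
        IsLocalRing.residue_surjective p) hm
    obtain ⟨z, hz⟩ := IsAlgClosed.exists_aeval_eq_zero ℂ P
      (hd ▸ (Polynomial.degree_pos_of_irreducible hi).ne')
    obtain ⟨a, rfl⟩ := IsIntegrallyClosed.isIntegral_iff.1 (⟨P, hP, hz⟩ : IsIntegral A z)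
    rw [Polynomial.aeval_algebraMap_eq_zero_iff, Polynomial.coe_aeval_eq_eval] at hz
    exact ⟨IsLocalRing.residue A a, by rw [Polynomial.eval_map, Polynomial.eval₂_hom, hz, map_zero]⟩

/-- odd torsion modulo `Λ` -/
def OT (Λ : Submodule ℤ ℂ) (z : ℂ) : Prop := ∃ n : ℕ, Odd n ∧ (n : ℂ) * z ∈ Λ

theorem OT.of_mem {z : ℂ} (h : z ∈ Λ) : OT Λ z := ⟨1, odd_one, mem_of_eq h (by simp)⟩

theorem OT.add {z w : ℂ} (h : OT Λ z) (h' : OT Λ w) : OT Λ (z + w) := by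
  obtain ⟨n, h1, h2⟩ := h
  obtain ⟨m, h3, h4⟩ := h'
  exact ⟨n * m, h1.mul h3, mem_of_eq (add_mem (nat_mul_mem m h2) (nat_mul_mem n h4))
    (by push_cast; ring)⟩

theorem OT.int_mul {z : ℂ} (h : OT Λ z) (k : ℤ) : OT Λ (k * z) := by
  obtain ⟨n, h1, h2⟩ := h
  exact ⟨n, h1, mem_of_eq (int_mul_mem k h2) (by ring)⟩

theorem OT.neg {z : ℂ} (h : OT Λ z) : OT Λ (-z) := by simpa using h.int_mul (-1)

theorem OT.sub {z w : ℂ} (h : OT Λ z) (h' : OT Λ w) : OT Λ (z - w) :=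
  sub_eq_add_neg z w ▸ h.add h'.neg

theorem OT.nat_mul {z : ℂ} (h : OT Λ z) (k : ℕ) : OT Λ (k * z) := by simpa using h.int_mul k

theorem OT.of_mul {z : ℂ} {k : ℕ} (hk : Odd k) (h : OT Λ (k * z)) : OT Λ z := by
  obtain ⟨n, h1, h2⟩ := h
  exact ⟨n * k, h1.mul hk, mem_of_eq h2 (by push_cast; ring)⟩

/-- the formula of Velu for differences -/
theorem velu_sub {ι : Type} [Fintype ι] {r : ι → ℂ} (hr : Reps r Λ M) (hΛ : IsLat Λ)
    (hM : IsLat M) (t z w : ℂ) :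
    wp M z - wp M w = ∑ i, (xx Λ t (z - r i) - xx Λ t (w - r i)) := by
  rw [hr.wp hΛ hM, hr.wp hΛ hM, ← Finset.sum_sub_distrib]
  exact Finset.sum_congr rfl fun i _ => by rw [xx, xx]; ring

theorem lt_comb {a b c d : ℂ} (ha : A.valuation a < 1) (hb : b ∈ A) (hc : A.valuation c < 1)
    (hd : d ∈ A) : A.valuation (a * b + c * d) < 1 := by
  refine A.valuation.map_add_lt ?_ ?_ <;> rw [map_mul]
  · exact mul_lt_one_of_lt_of_le ha ((A.valuation_le_one_iff _).2 hb)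
  · exact mul_lt_one_of_lt_of_le hc ((A.valuation_le_one_iff _).2 hd)

theorem mem_of_lt {a : ℂ} (ha : A.valuation a < 1) : a ∈ A := (A.valuation_le_one_iff _).1 ha.le

theorem inv_lt {x : ℂ} (hx : x ∉ A) : A.valuation x⁻¹ < 1 := by
  rw [map_inv₀]
  exact inv_lt_one_of_one_lt₀ (not_le.1 (mt (A.valuation_le_one_iff _).1 hx))

/-- the point `(0, 0)` -/
def T0 {K : Type} [Field K] (t : K) : Pt t :=
  .some 0 0 (nonsingular_zero.2 ⟨rfl, .inl one_ne_zero⟩)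

theorem T0_ne {K : Type} [Field K] (t : K) : T0 t ≠ 0 := Point.some_ne_zero _

theorem T0_three {K : Type} [Field K] (t : K) : 3 • T0 t = 0 := by
  have ny : (0 : K) ≠ (Et t).toAffine.negY 0 0 := by simp [negY, Et]
  have : T0 t + T0 t = -T0 t := by
    rw [T0, Point.add_of_Y_ne ny, Point.neg_some]
    congr 1 <;> rw [slope_of_Y_ne rfl ny] <;> simp [Et, addX, addY, negY, negAddY]
  rw [succ_nsmul, two_nsmul, this, neg_add_cancel]

theorem xc_ng {K : Type} [Field K] {t : K} (P : Pt t) : xc (-P) = xc P := by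
  cases P <;> rfl

theorem xc_eq {K : Type} [Field K] {t : K} {P Q : Pt t} (hP : P ≠ 0) (hQ : Q ≠ 0)
    (e : xc P = xc Q) : P = Q ∨ P = -Q := by
  rcases P with _ | ⟨x, y, h⟩
  · exact (hP rfl).elim
  rcases Q with _ | ⟨x', y', h'⟩
  · exact (hQ rfl).elim
  exact Point.X_eq_iff.1 e

theorem Nm.surj_x (h : Nm Λ t) (x : ℂ) : ∃ z, z ∉ Λ ∧ xx Λ t z = x := by
  obtain ⟨y, hy⟩ := IsAlgClosed.exists_pow_nat_eq (4 * x ^ 3 + (t * x + 1) ^ 2) two_pos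
  obtain ⟨z, h1, h2, -⟩ := h.surj (x := x) (y := (y - t * x - 1) / 2)
    (by linear_combination (1 / 4) * hy)
  exact ⟨z, h1, h2⟩

namespace Ss

variable (h : Ss A Λ t)
include h

theorem rd_nat (n : ℕ) (z : ℂ) : h.rd (n * z) = n • h.rd z := by rw [← nsmul_eq_mul, map_nsmul]

theorem rd_int (n : ℤ) (z : ℂ) : h.rd (n * z) = n • h.rd z := by rw [← zsmul_eq_mul, map_zsmul]

theorem rd_congr {z w : ℂ} (e : z - w ∈ Λ) : h.rd z = h.rd w :=
  sub_eq_zero.1 ((map_sub _ _ _).symm.trans (h.rd_mem e))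

theorem val_dup {z : ℂ} (hz : 2 * z ∉ Λ) (hx : xx Λ t z ∉ A) :
    A.valuation (xx Λ t z) < A.valuation (xx Λ t (2 * z)) := by
  have e := (h.dup hz).1
  have hu := inv_lt hx
  have x0 : xx Λ t z ≠ 0 := fun e => hx (e ▸ zero_mem A)
  have ht := h.mem
  have hm := mem_of_lt hu
  generalize xx Λ t (2 * z) = y at *
  generalize xx Λ t z = x at *
  have e' : y * (2 * 2 + x⁻¹ * (t ^ 2 + 2 * t * x⁻¹ + x⁻¹ ^ 2)) =
      x * (1 - (t * x⁻¹ ^ 2 + 2 * x⁻¹ ^ 3)) := by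
    field_simp
    linear_combination e
  have k := congrArg A.valuation e'
  rw [map_mul, map_mul, A.valuation.map_one_sub_of_lt
    (lt_comb h.lt (pow_mem hm 2) h.two (pow_mem hm 3)), mul_one] at k
  refine lt_of_not_ge fun k1 => ?_
  exact ((mul_le_mul_left k1 _).trans_lt (mul_lt_of_lt_one_right
    (zero_lt_iff.2 ((map_ne_zero _).2 x0)) (lt_comb h.two (ofNat_mem A 2) hu
      (add_mem (add_mem (pow_mem ht 2) (mul_mem (mul_mem (ofNat_mem A 2) ht) hm)) (pow_mem hm 2))))).ne' k.symm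

/-- **no odd torsion in the kernel of reduction** -/
theorem inj {z : ℂ} (hz : OT Λ z) (e : h.rd z = 0) : z ∈ Λ := by
  by_contra hn
  obtain ⟨n, ho, hm⟩ := hz
  have k1 : ∀ k : ℕ, ((2 ^ k : ℕ) : ℂ) * z ∉ Λ := fun k e => hn (by
    obtain ⟨a, b, hab⟩ : IsCoprime ((2 : ℤ) ^ k) n :=
      (Int.isCoprime_two_left.2 ho.natCast).pow_left
    refine mem_of_eq (add_mem (int_mul_mem a e) (int_mul_mem b hm)) ?_
    have := congrArg (Int.cast : ℤ → ℂ) hab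
    push_cast at this ⊢
    linear_combination -z * this)
  have k3 : StrictMono fun k : ℕ => A.valuation (xx Λ t (((2 ^ k : ℕ) : ℂ) * z)) :=
    strictMono_nat_of_lt_succ fun k => by
      have e2 : ((2 ^ (k + 1) : ℕ) : ℂ) * z = 2 * (((2 ^ k : ℕ) : ℂ) * z) := by push_cast; ring
      rw [e2]
      exact h.val_dup (e2 ▸ k1 _) fun hx => h.rd_ne_zero.2 ⟨k1 k, hx⟩
        (by rw [h.rd_nat, e, smul_zero])
  obtain ⟨c, hc⟩ := (Nat.ModEq.pow_totient (Nat.coprime_two_left.2 ho)).dvd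
  refine (k3 (Nat.totient_pos.2 ho.pos)).ne (congrArg _ (h.xx_congr
    (mem_of_eq (int_mul_mem c hm) ?_)))
  have := congrArg (Int.cast : ℤ → ℂ) hc
  push_cast at this ⊢
  linear_combination z * this

theorem inj' {z w : ℂ} (hz : OT Λ z) (hw : OT Λ w) (e : h.rd z = h.rd w) : z - w ∈ Λ :=
  h.inj (hz.sub hw) (by rw [map_sub, e, sub_self])

theorem surj (P : Pt (0 : kk A)) : ∃ z, h.rd z = P := by
  by_cases hP : P = 0
  · exact ⟨0, by rw [map_zero, hP]⟩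
  obtain ⟨x, hx, e⟩ := rs_surj (xc P)
  obtain ⟨z, hz, rfl⟩ := h.surj_x x
  have h0 := h.rd_ne_zero.2 ⟨hz, hx⟩
  rcases xc_eq h0 hP ((h.xc_rd h0).trans e) with k | k
  · exact ⟨z, k⟩
  · exact ⟨-z, by rw [map_neg, k, neg_neg]⟩

/-- **odd torsion lifts** -/
theorem surj_odd {n : ℕ} (hn : Odd n) {P : Pt (0 : kk A)} (hP : n • P = 0) :
    ∃ z, (n : ℂ) * z ∈ Λ ∧ h.rd z = P := by
  obtain ⟨z, rfl⟩ := h.surj P
  by_cases hz : (n : ℂ) * z ∈ Λ
  · exact ⟨z, hz, rfl⟩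
  have n0 : (n : ℂ) ≠ 0 := Nat.cast_ne_zero.2 hn.pos.ne'
  have hH : Hom n (scl (n : ℂ)⁻¹ Λ) Λ := ⟨n0, fun z => by rw [mem_scl, inv_inv]⟩
  have hM := hH.symm.isLat h.lat
  obtain ⟨ι, _, r, hr⟩ := exists_reps hM (fun z k => (hH.2 z).2 (nat_mul_mem n k)) hn.pos
    fun z => (hH.2 z).1
  have hn' : ∀ i, (n : ℂ) * r i ∈ Λ := fun i => (hH.2 _).1 (hr.mem i)
  by_contra! hc
  obtain ⟨w, hw⟩ := h.surj (T0 0)
  obtain ⟨w, rfl⟩ : ∃ u, w = n * u := ⟨w / n, by field_simp⟩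
  have k := velu_sub hr h.lat hM t z w
  have k0 : xx Λ t (n * z) = xx Λ t (n * w) + (n : ℂ)⁻¹ ^ 2 * (wp (scl (n : ℂ)⁻¹ Λ) z -
      wp (scl (n : ℂ)⁻¹ Λ) w) := by
    rw [xx, xx, hH.wp, hH.wp]
    ring
  refine h.rd_ne_zero.2 ⟨hz, ?_⟩ ((h.rd_nat n z).trans hP)
  rw [k0, k]
  refine add_mem (h.rd_ne_zero.1 (hw ▸ T0_ne _)).2 (mul_mem (pow_mem ?_ 2)
    (sum_mem fun i _ => sub_mem (h.rd_ne_zero.1 fun e => hc _ (hn' i) ?_).2
      (h.rd_ne_zero.1 fun e => T0_ne (0 : kk A) ?_).2))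
  · rw [← A.valuation_le_one_iff, map_inv₀, ← Int.cast_natCast, val_odd h.two hn.natCast, inv_one]
  · rw [map_sub, sub_eq_zero] at e
    exact e.symm
  · rw [← hw, h.rd_congr (w := n * (w - r i)) (mem_of_eq (hn' i) (by ring)), h.rd_nat, e, smul_zero]

/-- the odd torsion lift -/
def lf (P : Pt (0 : kk A)) : ℂ := Classical.epsilon fun z => OT Λ z ∧ h.rd z = P

theorem lf_spec {n : ℕ} (hn : Odd n) {P : Pt (0 : kk A)} (hP : n • P = 0) :
    OT Λ (h.lf P) ∧ h.rd (h.lf P) = P := by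
  obtain ⟨z, h1, h2⟩ := h.surj_odd hn hP
  exact Classical.epsilon_spec (p := fun z => OT Λ z ∧ h.rd z = P) ⟨z, ⟨n, hn, h1⟩, h2⟩

theorem mul_mem_iff {z : ℂ} (hz : OT Λ z) (n : ℕ) : (n : ℂ) * z ∈ Λ ↔ n • h.rd z = 0 :=
  ⟨fun e => (h.rd_nat n z).symm.trans (h.rd_mem e),
    fun e => h.inj (hz.nat_mul n) ((h.rd_nat n z).trans e)⟩

/-- **the lattice of the odd torsion points reducing into `C`** -/
def Up (C : AddSubgroup (Pt (0 : kk A))) : Submodule ℤ ℂ where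
  carrier := {z | OT Λ z ∧ h.rd z ∈ C}
  add_mem' := fun a b => ⟨a.1.add b.1, map_add h.rd _ _ ▸ add_mem a.2 b.2⟩
  zero_mem' := ⟨.of_mem (zero_mem _), map_zero h.rd ▸ zero_mem _⟩
  smul_mem' := fun n z a => ⟨zsmul_eq_mul z n ▸ a.1.int_mul n,
    map_zsmul h.rd n z ▸ zsmul_mem a.2 n⟩

theorem mem_Up {C : AddSubgroup (Pt (0 : kk A))} {z : ℂ} :
    z ∈ h.Up C ↔ OT Λ z ∧ h.rd z ∈ C := Iff.rfl

theorem le_Up (C : AddSubgroup (Pt (0 : kk A))) : Λ ≤ h.Up C :=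
  fun _ hz => ⟨.of_mem hz, h.rd_mem hz ▸ zero_mem C⟩

theorem Up_bot : h.Up ⊥ = Λ := le_antisymm (fun _ hz => h.inj hz.1 hz.2) (h.le_Up _)

theorem Up_mono {C C' : AddSubgroup (Pt (0 : kk A))} (e : C ≤ C') : h.Up C ≤ h.Up C' :=
  fun _ hz => ⟨hz.1, e hz.2⟩

variable {C : AddSubgroup (Pt (0 : kk A))} {n : ℕ} (hn : Odd n) (hC : ∀ a ∈ C, n • a = 0)
include hn hC

theorem Up_mul {z : ℂ} (hz : z ∈ h.Up C) : (n : ℂ) * z ∈ Λ :=
  (h.mul_mem_iff hz.1 n).2 (hC _ hz.2)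

theorem Up_lat : IsLat (h.Up C) :=
  h.lat.of_between (h.le_Up C) hn.pos fun _ => h.Up_mul hn hC

theorem Up_reps : Reps (fun a : C => h.lf a) Λ (h.Up C) where
  le := h.le_Up C
  mem a := ⟨(h.lf_spec hn (hC _ a.2)).1, (h.lf_spec hn (hC _ a.2)).2.symm ▸ a.2⟩
  ex _ hm := ⟨⟨_, hm.2⟩, h.inj' hm.1 (h.lf_spec hn (hC _ hm.2)).1
    (h.lf_spec hn (hC _ hm.2)).2.symm⟩
  inj a b e := Subtype.ext ((h.lf_spec hn (hC _ a.2)).2.symm.trans
    ((h.rd_congr e).trans (h.lf_spec hn (hC _ b.2)).2))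

theorem fin : Finite C := by
  obtain ⟨ι, _, r, hr⟩ := exists_reps (h.Up_lat hn hC) (h.le_Up C) hn.pos
    fun _ => h.Up_mul hn hC
  refine Finite.of_surjective (fun i => (⟨_, (hr.mem i).2⟩ : C)) fun a => ?_
  obtain ⟨i, hi⟩ := hr.ex _ ((h.Up_reps hn hC).mem a)
  exact ⟨i, Subtype.ext ((h.rd_congr hi).symm.trans (h.lf_spec hn (hC _ a.2)).2)⟩

omit hC in
/-- the number of points killed by an odd number -/
theorem card_tors : Nat.card {P : Pt (0 : kk A) // n • P = 0} = n ^ 2 := by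
  obtain ⟨L, hL⟩ := h.lat
  have n0 : (n : ℂ) ≠ 0 := Nat.cast_ne_zero.2 hn.pos.ne'
  have := NeZero.mk hn.pos.ne'
  have k : ∀ a b : ℤ, (n : ℂ) * ((a * L.ω₁ + b * L.ω₂) / n) ∈ Λ := fun a b =>
    hL ▸ PeriodPair.mem_lattice.2 ⟨a, b, by field_simp⟩
  have k2 : ∀ a b a' b' : ℤ, h.rd ((a * L.ω₁ + b * L.ω₂) / n) = h.rd ((a' * L.ω₁ + b' * L.ω₂) / n)
      ↔ (a' : ZMod n) = a ∧ (b' : ZMod n) = b := fun a b a' b' => by
    rw [ZMod.intCast_eq_intCast_iff_dvd_sub, ZMod.intCast_eq_intCast_iff_dvd_sub]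
    refine ⟨fun e => ?_, fun ⟨⟨c, e1⟩, d, e2⟩ => h.rd_congr (hL ▸ PeriodPair.mem_lattice.2
      ⟨c, d, ?_⟩)⟩
    · obtain ⟨c, d, e⟩ := PeriodPair.mem_lattice.1
        (hL.symm ▸ h.inj' ⟨n, hn, k _ _⟩ ⟨n, hn, k _ _⟩ e)
      obtain ⟨e1, e2⟩ := LinearIndependent.pair_iff.1 L.indep (a - a' - n * c) (b - b' - n * d) (by
        simp only [Complex.real_smul]
        push_cast
        field_simp at e
        linear_combination -e)
      exact ⟨⟨c, by exact_mod_cast sub_eq_zero.1 e1⟩, d, by exact_mod_cast sub_eq_zero.1 e2⟩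
    · rw [sub_eq_iff_eq_add.1 e1, sub_eq_iff_eq_add.1 e2]
      push_cast
      field_simp
      ring
  rw [← Nat.card_eq_of_bijective (fun p : ZMod n × ZMod n => (⟨_, (h.mul_mem_iff ⟨n, hn,
    k p.1.cast p.2.cast⟩ n).1 (k _ _)⟩ : {P : Pt (0 : kk A) // n • P = 0})) ⟨fun p q e => ?_,
      fun P => ?_⟩, Nat.card_prod, Nat.card_zmod, sq]
  · have := (k2 _ _ _ _).1 (congrArg Subtype.val e)
    simp only [ZMod.intCast_cast, ZMod.cast_id', id] at this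
    exact Prod.ext this.1.symm this.2.symm
  · obtain ⟨z, h1, h2⟩ := h.surj_odd hn P.2
    obtain ⟨a, b, e⟩ := PeriodPair.mem_lattice.1 (hL.symm ▸ h1)
    refine ⟨(a, b), Subtype.ext (((k2 _ _ a b).2 (by simp)).trans ?_)⟩
    rw [e, mul_div_cancel_left₀ _ n0, h2]

end Ss

end Vale.Agent.P004M.D
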