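import Vale.Agent.P004M.Wrap0
import Vale.Agent.P004M.D.X1
import Vale.Agent.P004M.D.HLin
import Vale.Agent.P004M.D.Rt0
import Vale.Agent.P022D.V.IrrB

/-!
# P004M, route D: the rows
-/

set_option autoImplicit false
set_option linter.all false

open UpperHalfPlane CongruenceSubgroup
open scoped MatrixGroups ModularForm Real Classical

noncomputable section

namespace Vale.Agent.P004M.D

open Vale.Agent.P022 Vale.Agent.P022.H218.L3 Vale.Agent.P022K.UC Vale.Agent.P022K.UC.Hm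
open Hu

/-- a valuation ring of rank one above `2` -/
structure Ok (A : ValuationSubring ℂ) : Prop where
  two : A.valuation 2 < 1
  arch : P022D.Irr.Arch A

/-- `(ω τ, ω)` is a basis of `Λ` -/
structure Bs (Λ : Submodule ℤ ℂ) (ω : ℂ) (τ : ℍ) : Prop where
  ne : ω ≠ 0
  mem : ∀ z, z ∈ Λ ↔ ∃ a b : ℤ, z = ω * (a * (τ : ℂ) + b)

/-- the value of a form of weight `k` at the basis `(ω τ, ω)` -/
def vl (k : ℕ) (f : ℍ → ℂ) (ω : ℂ) (τ : ℍ) : ℂ := (2 * π * Complex.I / ω) ^ k * f τ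

/-- a form on `Γ₀(M)` with expansion `c` in `A` -/
structure Fm (A : ValuationSubring ℂ) (M k : ℕ) (f : ℍ → ℂ) (c : ℕ → ℂ) : Prop where
  mf : IsMF (Gamma0 M) (k : ℤ) f
  sm : Sm c f
  int : ∀ n, c n ∈ A

/-- **D0**: an eigenform modulo `2 ^ j` of odd level and of one weight -/
def D0 : Prop := ∀ A, Ok A → ∀ (N : ℕ) [NeZero N] (a : ℕ → ℤ), Odd N → A6 N a → ∀ j : ℕ,
  ∃ (m : ℕ) (H : ℍ → ℂ) (c : ℕ → ℂ), Fm A (N ^ 3) (2 * m + 2) H c ∧ A.valuation (c 1) = 1 ∧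
    ∀ l : ℕ, l.Prime → ¬ l ∣ 2 * N → ∀ n : ℕ,
      A.valuation (c (l * n) + (if l ∣ n then (l : ℂ) ^ (2 * m + 1) * c (n / l) else 0) -
        (l : ℂ) ^ m * a l * c n) ≤ A.valuation 2 ^ j

/-- **DU**: duality between words and expansions -/
def DU : Prop := ∀ A, Ok A → ∀ (N : ℕ) [NeZero N] (a : ℕ → ℤ), Odd N → A6 N a → ∀ j : ℕ,
  ∃ (x : ℕ → ℤ) (B : ℕ) (f : ℕ → ℍ → ℂ) (c : ℕ → ℕ → ℂ), Ew N x ∧ (∀ l : PA N, x l.1 = a l.1) ∧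
    (∀ m, IsMF (Gamma0 (N ^ 3 * 2 ^ 5)) ((2 * m + 2 : ℕ) : ℤ) (f m) ∧ Sm (c m) (f m)) ∧
    ∀ n : ℕ, A.valuation ((n : ℂ) ^ B * x n -
      ∑ m ∈ Finset.range (B + 1), (n : ℂ) ^ (B - m) * c m n) ≤ A.valuation 2 ^ j

/-- **SE**: derivatives of forms of level `M 2 ^ s` are limits of forms of level `M` -/
def SE : Prop := ∀ A, Ok A → ∀ (M s B : ℕ) (f : ℕ → ℍ → ℂ) (c : ℕ → ℕ → ℂ), Odd M →
  (∀ m, IsMF (Gamma0 (M * 2 ^ s)) ((2 * m + 2 : ℕ) : ℤ) (f m) ∧ Sm (c m) (f m)) → ∀ j : ℕ,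
  ∃ (w : ℕ) (H : ℍ → ℂ) (d : ℕ → ℂ),
    IsMF (Gamma0 M) ((2 * (B + 2 ^ j * w) + 2 : ℕ) : ℤ) H ∧ Sm d H ∧
    ∀ n : ℕ, A.valuation (d n - ∑ m ∈ Finset.range (B + 1), (n : ℂ) ^ (B - m) * c m n) ≤
      A.valuation 2 ^ j

/-- **INT**: integral forms have integral values -/
def INT : Prop := ∀ A, Ok A → ∀ (M k : ℕ) (f : ℍ → ℂ) (c : ℕ → ℂ), Odd M → Fm A M k f c →
  ∀ (Λ : Submodule ℤ ℂ) (t ω : ℂ) (τ : ℍ), Ss A Λ t → Bs Λ ω τ → vl k f ω τ ∈ A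

/-- **NZ**: a point near the boundary of the supersingular disc where the value is large -/
def NZ : Prop := ∀ A, Ok A → ∀ (M k : ℕ) (f : ℍ → ℂ) (c : ℕ → ℂ), Odd M → Fm A M k f c →
  A.valuation (c 1) = 1 → ∀ Z : Finset A.ValueGroup,
  ∃ (Λ : Submodule ℤ ℂ) (t ω : ℂ) (τ : ℍ), Ss A Λ t ∧ Bs Λ ω τ ∧ A.valuation 2 < A.valuation t ∧
    A.valuation t ∉ Z ∧ A.valuation 2 < A.valuation (vl k f ω τ)

/-- **LIP**: uniform continuity on the circles -/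
def LIP : Prop := ∀ A, Ok A → ∀ M : ℕ, Odd M → ∃ Z : Finset A.ValueGroup,
  ∀ (k : ℕ) (f : ℍ → ℂ) (c : ℕ → ℂ), Even k → Fm A M k f c → ∀ r ∉ Z, ∀ j : ℕ, ∃ i : ℕ,
    ∀ (Λ Λ' : Submodule ℤ ℂ) (t t' ω ω' : ℂ) (τ τ' : ℍ) (h : Ss A Λ t) (h' : Ss A Λ' t') (u : ℤ),
      Bs Λ ω τ → Bs Λ' ω' τ' → A.valuation t = r → A.valuation t' = r →
      A.valuation (t - t') ≤ A.valuation 2 ^ i → IsCoprime u (M : ℤ) →
      xc (h'.rd (ω' / M)) = xc (h.rd (u * (ω / M))) →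
      A.valuation (vl k f ω τ - vl k f ω' τ') ≤ A.valuation 2 ^ j

/-- the lift of the isogeny `g`: `c⁻¹ L` is the lattice of the lifts of the kernel of `g` -/
structure Iso {A : ValuationSubring ℂ} {Λ : Submodule ℤ ℂ} {t : ℂ} (h : Ss A Λ t)
    (ρ : Hu →+* AddMonoid.End (Pt (0 : kk A))) (g : Hu) (c s : ℂ) (L : Submodule ℤ ℂ) : Prop where
  ss : Ss A L s
  vs : A.valuation s = A.valuation t
  vc : A.valuation c = 1
  mem : ∀ z, c * z ∈ L ↔ OT Λ z ∧ ρ g (h.rd z) = 0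
  xc : ∀ z, OT Λ z → xc (ss.rd (c * z)) = xc (ρ g (h.rd z))

/-- **GEO**: the lifts exist and depend continuously on `g` -/
def GEO : Prop := ∀ A : ValuationSubring ℂ, A.valuation 2 < 1 →
  ∃ ρ : Hu →+* AddMonoid.End (Pt (0 : kk A)),
    ∀ (Λ : Submodule ℤ ℂ) (t : ℂ) (h : Ss A Λ t), A.valuation 2 < A.valuation t →
      ∃ (c s : Hu → ℂ) (L : Hu → Submodule ℤ ℂ),
        (∀ g, Odd (nm g) → Iso h ρ g (c g) (s g) (L g)) ∧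
        ∀ (n : ℕ) (g g' β : Hu), Odd (nm g) → Odd (nm g') → g - g' = 2 ^ (n + 2) * β →
          A.valuation (s g - s g') ≤ A.valuation t ^ (n + 1) ∧
          A.valuation (c g ^ 2 - c g' ^ 2) ≤ A.valuation t ^ (n + 1)

/-- smooth eigenfunctions for any family of good primes -/
def EG (M : ℕ) (a : ℕ → ℤ) : Prop := ∀ (ι : Type) (p : ι → ℕ),
  (∀ i, (p i).Prime ∧ ¬ p i ∣ 2 * M) → EIGr M (fun i => Rp (p i)) fun i => a (p i)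

/-- **HK**: the eigenfunctions -/
def HK : Prop := ∀ (N : ℕ) [NeZero N] (a : ℕ → ℤ), Odd N → A6 N a → EG (N ^ 3) a

/-- **RK**: rate and kill -/
def RK : Prop := ∀ (M : ℕ) [NeZero M] (a : ℕ → ℤ), Odd M → EG M a →
  ∃ (N' : ℕ) (_ : NeZero N'), (∀ l : ℕ, l.Prime → (l ∣ N' ↔ l ∣ 2 * M)) ∧
    UCN N' fun l => ((a l : ℤ) : ℚ_[2])

theorem ucd_of (h : HK) (h' : RK) : UCD := fun M _ a hM _ ha => by
  obtain ⟨N', i, h1, h2⟩ := h' (M ^ 3) a hM.pow (h M a hM ha)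
  refine ⟨N', i, fun l hl => (h1 l hl).trans ?_, h2⟩
  rw [hl.dvd_mul, hl.dvd_mul]
  exact or_congr Iff.rfl ⟨hl.dvd_of_dvd_pow, fun k => dvd_pow k three_ne_zero⟩

end Vale.Agent.P004M.D
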