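import Vale.Agent.P004M.D.X3
import Vale.Agent.P004M.D.HKum
import Vale.Agent.P004M.D.St

/-!
# P004M, route D: the row GEO
-/

set_option autoImplicit false
set_option linter.all false

open IsLocalRing
open scoped Classical PowerSeries

noncomputable section

namespace Vale.Agent.P004M.D

open Hu

theorem span_iff {A : ValuationSubring ℂ} (a t : A) :
    a ∈ Ideal.span {t} ↔ A.valuation a ≤ A.valuation t := by
  rw [Ideal.mem_span_singleton', A.valuation_le_iff]
  exact exists_congr fun _ => Subtype.ext_iff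

/-- **GEO** -/
theorem geo : GEO := fun A h2 => by
  have := kk_closed A
  obtain ⟨w, hw⟩ : ∃ w : kk A, Cw w := by
    obtain ⟨b, hb⟩ := IsAlgClosed.exists_root (Polynomial.X ^ 2 + Polynomial.X + 1 :
      Polynomial (kk A)) (by rw [show Polynomial.degree _ = 2 by compute_degree!]; norm_num)
    exact ⟨b, res_zero (a := 2) h2, by simpa using hb⟩
  refine ⟨hw.act, fun Λ t h ht => ?_⟩
  obtain ⟨t, rfl⟩ : ∃ T : A, (T : ℂ) = t := ⟨⟨t, h.mem⟩, rfl⟩
  choose c s L f H using show ∀ g, ∃ (c s : A) (L : Submodule ℤ ℂ) (f : A⟦X⟧), Odd (nm g) →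
      Iso h hw.act g c s L ∧ PowerSeries.coeff 1 f = c ^ 2 ∧ Cm t s f ∧
        Ser hw g (f.map (residue A)) from fun g => by
    by_cases hg : Odd (nm g)
    · obtain ⟨c, s, L, h', f, k1, k2, k3, k4, k⟩ := h.iso ht hw g hg (hw.kum g hg)
      exact ⟨c, s, L, f, fun _ => ⟨⟨h', k1, k2, k3, k4⟩, k⟩⟩
    · exact ⟨0, 0, ⊥, 0, fun k => (hg k).elim⟩
  refine ⟨fun g => c g, fun g => s g, L, fun g hg => (H g hg).1, fun n g g' β hg hg' e => ?_⟩
  have k := cont hw (residue A) (fun x => (residue_ne_zero_iff_isUnit x).1) (Ideal.span {t})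
    ((span_iff 2 t).2 ht.le) (Ideal.mem_span_singleton_self t)
    ((span_iff _ t).2 (H g hg).1.vs.le) ((span_iff _ t).2 (H g' hg').1.vs.le) (H g hg).2.2.1
    (H g' hg').2.2.1 hg hg' (H g hg).2.2.2 (H g' hg').2.2.2 e
  rw [Ideal.span_singleton_pow, span_iff, span_iff, (H g hg).2.1, (H g' hg').2.1, A.coe_pow,
    map_pow] at k
  exact k

end Vale.Agent.P004M.D
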