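import Vale.Agent.P004M.D.Hk3
import Vale.Agent.P004M.D.Dz
import Vale.Agent.P004M.D.Du
import Vale.Agent.P004M.D.Iv
import Vale.Agent.P004M.D.X4
import Vale.Agent.P004M.D.Rk0
import Vale.Agent.P004M.D.Rt

/-!
# P004M, route D: the assembly
-/

namespace Vale.Agent.P004M.D

/-- **route D** -/
theorem ucd : UCD := ucd_of (hk (d0 du se) int nz lip geo) (rk_rt fun _ _ _ _ => rt)

end Vale.Agent.P004M.D
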