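import Vale.Agent.P004M.D.HE0

/-!
# P004M, route D, block H: expansions on the Kummer line (definitions)
-/

set_option autoImplicit false
set_option linter.all false

open PowerSeries
open scoped Classical

noncomputable section

namespace Vale.Agent.P004M.D

variable {A : Type} [CommRing A]

/-- the duplication map of `Et t` in the coordinate `1 / x` -/
def ps (t : A) : A⟦X⟧ :=
  (4 * X + C (t ^ 2) * X ^ 2 + C (2 * t) * X ^ 3 + X ^ 4) * invOfUnit (1 - C t * X ^ 2 - 2 * X ^ 3) 1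

theorem ps_mul (t : A) : ps t * (1 - C t * X ^ 2 - 2 * X ^ 3) =
    4 * X + C (t ^ 2) * X ^ 2 + C (2 * t) * X ^ 3 + X ^ 4 := by
  rw [ps, mul_assoc, mul_comm (invOfUnit _ _), mul_invOfUnit _ _ (by simp), mul_one]

theorem ps_zero (t : A) : constantCoeff (ps t) = 0 := by simp [ps]

theorem ps_has (t : A) : HasSubst (ps t) := HasSubst.of_constantCoeff_zero' (ps_zero t)

/-- `f` commutes with duplication -/
def Cm (t s : A) (f : A⟦X⟧) : Prop := constantCoeff f = 0 ∧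
  f.subst (ps t) * (1 - C s * f ^ 2 - 2 * f ^ 3) = 4 * f + C (s ^ 2) * f ^ 2 + C (2 * s) * f ^ 3 + f ^ 4

/-- `f` is the expansion of `g` in the coordinate `1 / x` -/
def Ser {k : Type} [Field k] {w : k} (h : Cw w) (g : Hu) (f : k⟦X⟧) : Prop :=
  ∃ (ι : Type) (S : Finset ι) (a : ι → k) (r : ι → k⟦X⟧) (γ D : k), γ ≠ 0 ∧
    (∀ i ∈ S, r i * (1 - C (a i) * X) = 1) ∧
    f * (C γ * (1 + X * (∑ i ∈ S, X ^ 2 * r i ^ 2 - C D))) = X ∧
    ∀ P, h.act g P ≠ 0 → (∀ i ∈ S, xc P ≠ a i) →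
      xc (h.act g P) = γ * (xc P + ∑ i ∈ S, 1 / (xc P - a i) ^ 2 - D)

end Vale.Agent.P004M.D
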