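import Mathlib

/-!
# P004M, route D: the Hurwitz order
-/

set_option linter.all false

open scoped Quaternion

namespace Vale.Agent.P004M.D

/-- the Hurwitz quaternion `a + b i + c ω + d i ω`, `ω = (-1 + i + j + k) / 2` -/
@[ext] structure Hu where
  a : ℤ
  b : ℤ
  c : ℤ
  d : ℤ
  deriving DecidableEq

namespace Hu

instance : Zero Hu := ⟨⟨0, 0, 0, 0⟩⟩
instance : One Hu := ⟨⟨1, 0, 0, 0⟩⟩
instance : Add Hu := ⟨fun x y => ⟨x.a + y.a, x.b + y.b, x.c + y.c, x.d + y.d⟩⟩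
instance : Neg Hu := ⟨fun x => ⟨-x.a, -x.b, -x.c, -x.d⟩⟩
instance : Mul Hu := ⟨fun x y =>
  ⟨x.a * y.a - x.b * y.b - x.c * y.b - x.c * y.c + x.d * y.b - x.d * y.d,
   x.a * y.b + x.b * y.a - x.c * y.b + x.c * y.d - x.d * y.b - x.d * y.c,
   x.a * y.c + x.c * y.a - x.b * y.d - x.c * y.c - x.c * y.d + x.d * y.b,
   x.a * y.d + x.d * y.a + x.b * y.c - x.c * y.b - x.d * y.c - x.d * y.d⟩⟩

@[simp] theorem zero_a : (0 : Hu).a = 0 := rfl
@[simp] theorem zero_b : (0 : Hu).b = 0 := rfl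
@[simp] theorem zero_c : (0 : Hu).c = 0 := rfl
@[simp] theorem zero_d : (0 : Hu).d = 0 := rfl
@[simp] theorem one_a : (1 : Hu).a = 1 := rfl
@[simp] theorem one_b : (1 : Hu).b = 0 := rfl
@[simp] theorem one_c : (1 : Hu).c = 0 := rfl
@[simp] theorem one_d : (1 : Hu).d = 0 := rfl
@[simp] theorem add_a (x y : Hu) : (x + y).a = x.a + y.a := rfl
@[simp] theorem add_b (x y : Hu) : (x + y).b = x.b + y.b := rfl
@[simp] theorem add_c (x y : Hu) : (x + y).c = x.c + y.c := rfl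
@[simp] theorem add_d (x y : Hu) : (x + y).d = x.d + y.d := rfl
@[simp] theorem neg_a (x : Hu) : (-x).a = -x.a := rfl
@[simp] theorem neg_b (x : Hu) : (-x).b = -x.b := rfl
@[simp] theorem neg_c (x : Hu) : (-x).c = -x.c := rfl
@[simp] theorem neg_d (x : Hu) : (-x).d = -x.d := rfl
@[simp] theorem mul_a (x y : Hu) : (x * y).a =
    x.a * y.a - x.b * y.b - x.c * y.b - x.c * y.c + x.d * y.b - x.d * y.d := rfl
@[simp] theorem mul_b (x y : Hu) : (x * y).b =
    x.a * y.b + x.b * y.a - x.c * y.b + x.c * y.d - x.d * y.b - x.d * y.c := rfl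
@[simp] theorem mul_c (x y : Hu) : (x * y).c =
    x.a * y.c + x.c * y.a - x.b * y.d - x.c * y.c - x.c * y.d + x.d * y.b := rfl
@[simp] theorem mul_d (x y : Hu) : (x * y).d =
    x.a * y.d + x.d * y.a + x.b * y.c - x.c * y.b - x.d * y.c - x.d * y.d := rfl

instance : AddCommGroup Hu where
  add_assoc x y z := by ext <;> simp [add_assoc]
  zero_add x := by ext <;> simp
  add_zero x := by ext <;> simp
  neg_add_cancel x := by ext <;> simp
  add_comm x y := by ext <;> simp [add_comm]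
  nsmul := nsmulRec
  zsmul := zsmulRec

instance : Ring Hu where
  mul_assoc x y z := by ext <;> simp <;> ring
  one_mul x := by ext <;> simp
  mul_one x := by ext <;> simp
  left_distrib x y z := by ext <;> simp <;> ring
  right_distrib x y z := by ext <;> simp <;> ring
  zero_mul x := by ext <;> simp
  mul_zero x := by ext <;> simp
  intCast n := ⟨n, 0, 0, 0⟩
  natCast n := ⟨n, 0, 0, 0⟩
  natCast_zero := rfl
  natCast_succ n := Hu.ext (by simp) (by simp) (by simp) (by simp)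
  intCast_ofNat n := rfl
  intCast_negSucc n := rfl

@[simp] theorem sub_a (x y : Hu) : (x - y).a = x.a - y.a := by simp [sub_eq_add_neg]
@[simp] theorem sub_b (x y : Hu) : (x - y).b = x.b - y.b := by simp [sub_eq_add_neg]
@[simp] theorem sub_c (x y : Hu) : (x - y).c = x.c - y.c := by simp [sub_eq_add_neg]
@[simp] theorem sub_d (x y : Hu) : (x - y).d = x.d - y.d := by simp [sub_eq_add_neg]
@[simp] theorem int_a (n : ℤ) : (n : Hu).a = n := rfl
@[simp] theorem int_b (n : ℤ) : (n : Hu).b = 0 := rfl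
@[simp] theorem int_c (n : ℤ) : (n : Hu).c = 0 := rfl
@[simp] theorem int_d (n : ℤ) : (n : Hu).d = 0 := rfl
@[simp] theorem nat_a (n : ℕ) : (n : Hu).a = n := rfl
@[simp] theorem nat_b (n : ℕ) : (n : Hu).b = 0 := rfl
@[simp] theorem nat_c (n : ℕ) : (n : Hu).c = 0 := rfl
@[simp] theorem nat_d (n : ℕ) : (n : Hu).d = 0 := rfl

/-- `i` -/
def ii : Hu := ⟨0, 1, 0, 0⟩
/-- `ω` -/
def om : Hu := ⟨0, 0, 1, 0⟩

theorem dec (x : Hu) : x = (x.a : Hu) + (x.b : Hu) * ii + (x.c : Hu) * om + (x.d : Hu) * (ii * om) := by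
  ext <;> simp [ii, om]

/-- the reduced norm -/
def nm : Hu →* ℤ where
  toFun x := x.a ^ 2 + x.b ^ 2 + x.c ^ 2 + x.d ^ 2 - x.a * x.c - x.a * x.d + x.b * x.c - x.b * x.d
  map_one' := by simp
  map_mul' x y := by simp; ring

theorem nm_def (x : Hu) : nm x =
  x.a ^ 2 + x.b ^ 2 + x.c ^ 2 + x.d ^ 2 - x.a * x.c - x.a * x.d + x.b * x.c - x.b * x.d := rfl

/-- twice the four usual coordinates -/
def co (x : Hu) : Fin 4 → ℤ := ![2 * x.a - x.c - x.d, 2 * x.b + x.c - x.d, x.c - x.d, x.c + x.d]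

theorem nm_four (x : Hu) : 4 * nm x =
    (2 * x.a - x.c - x.d) ^ 2 + (2 * x.b + x.c - x.d) ^ 2 + (x.c - x.d) ^ 2 + (x.c + x.d) ^ 2 := by
  rw [nm_def]; ring

theorem nm_co (x : Hu) : 4 * nm x = ∑ i, co x i ^ 2 := by
  rw [nm_four, Fin.sum_univ_four]; rfl

theorem nm_nonneg (x : Hu) : 0 ≤ nm x := by
  have := nm_four x
  nlinarith [sq_nonneg (2 * x.a - x.c - x.d), sq_nonneg (2 * x.b + x.c - x.d), sq_nonneg (x.c - x.d),
    sq_nonneg (x.c + x.d)]

theorem nm_eq_zero {x : Hu} : nm x = 0 ↔ x = 0 := by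
  refine ⟨fun h => ?_, fun h => by rw [h, nm_def]; simp⟩
  have e := nm_four x
  rw [h] at e
  have h1 : (2 * x.a - x.c - x.d) ^ 2 = 0 := by
    nlinarith [sq_nonneg (2 * x.a - x.c - x.d), sq_nonneg (2 * x.b + x.c - x.d),
      sq_nonneg (x.c - x.d), sq_nonneg (x.c + x.d)]
  have h2 : (2 * x.b + x.c - x.d) ^ 2 = 0 := by
    nlinarith [sq_nonneg (2 * x.a - x.c - x.d), sq_nonneg (2 * x.b + x.c - x.d),
      sq_nonneg (x.c - x.d), sq_nonneg (x.c + x.d)]
  have h3 : (x.c - x.d) ^ 2 = 0 := by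
    nlinarith [sq_nonneg (2 * x.a - x.c - x.d), sq_nonneg (2 * x.b + x.c - x.d),
      sq_nonneg (x.c - x.d), sq_nonneg (x.c + x.d)]
  have h4 : (x.c + x.d) ^ 2 = 0 := by
    nlinarith [sq_nonneg (2 * x.a - x.c - x.d), sq_nonneg (2 * x.b + x.c - x.d),
      sq_nonneg (x.c - x.d), sq_nonneg (x.c + x.d)]
  rw [sq_eq_zero_iff] at h1 h2 h3 h4
  ext <;> simp <;> omega

theorem nm_pos {x : Hu} (h : x ≠ 0) : 0 < nm x :=
  (nm_nonneg x).lt_of_ne' (mt nm_eq_zero.1 h)

theorem nm_int (n : ℤ) : nm (n : Hu) = n ^ 2 := by simp [nm_def]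
theorem nm_nat (n : ℕ) : nm (n : Hu) = n ^ 2 := by simp [nm_def]

/-- the conjugate -/
def cj (x : Hu) : Hu := ⟨x.a - x.c - x.d, -x.b, -x.c, -x.d⟩

theorem mul_cj (x : Hu) : x * cj x = (nm x : Hu) := by
  ext <;> simp [cj] <;> (try rw [nm_def]) <;> ring
theorem cj_mul (x : Hu) : cj x * x = (nm x : Hu) := by
  ext <;> simp [cj] <;> (try rw [nm_def]) <;> ring
theorem nm_cj (x : Hu) : nm (cj x) = nm x := by simp [cj, nm_def]; ring
theorem cj_cj (x : Hu) : cj (cj x) = x := by ext <;> simp [cj] <;> ring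
theorem cj_mul_rev (x y : Hu) : cj (x * y) = cj y * cj x := by ext <;> simp [cj] <;> ring
theorem cj_add (x y : Hu) : cj (x + y) = cj x + cj y := by ext <;> simp [cj] <;> ring
theorem cj_sub (x y : Hu) : cj (x - y) = cj x - cj y := by ext <;> simp [cj] <;> ring
theorem cj_int (n : ℤ) : cj (n : Hu) = n := by ext <;> simp [cj]
theorem cj_nat (n : ℕ) : cj (n : Hu) = n := by ext <;> simp [cj]

instance : NoZeroDivisors Hu where
  eq_zero_or_eq_zero_of_mul_eq_zero {x y} h := by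
    have := nm_eq_zero.2 h
    rw [map_mul, mul_eq_zero, nm_eq_zero, nm_eq_zero] at this
    exact this

instance : Nontrivial Hu := ⟨0, 1, fun h => by simpa using congrArg Hu.a h⟩

instance : IsDomain Hu := NoZeroDivisors.to_isDomain _

theorem unit_iff {x : Hu} : IsUnit x ↔ nm x = 1 := by
  refine ⟨fun h => ?_, fun h => ⟨⟨x, cj x, by rw [mul_cj, h]; rfl, by rw [cj_mul, h]; rfl⟩, rfl⟩⟩
  rcases Int.isUnit_iff.1 (h.map nm) with e | e
  · exact e
  · have := nm_nonneg x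
    omega

/-- the quaternion with the usual coordinates -/
noncomputable def tq (R : Type*) [Field R] (x : Hu) : ℍ[R] :=
  ⟨(2 * x.a - x.c - x.d) / 2, (2 * x.b + x.c - x.d) / 2, (x.c - x.d) / 2, (x.c + x.d) / 2⟩

theorem tq_re (R : Type*) [Field R] (x : Hu) : (tq R x).re = (2 * x.a - x.c - x.d) / 2 := rfl
theorem tq_I (R : Type*) [Field R] (x : Hu) : (tq R x).imI = (2 * x.b + x.c - x.d) / 2 := rfl
theorem tq_J (R : Type*) [Field R] (x : Hu) : (tq R x).imJ = (x.c - x.d) / 2 := rfl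
theorem tq_K (R : Type*) [Field R] (x : Hu) : (tq R x).imK = (x.c + x.d) / 2 := rfl

/-- the embedding in the quaternions over a field of characteristic zero -/
noncomputable def toQ (R : Type*) [Field R] [CharZero R] : Hu →+* ℍ[R] where
  toFun := tq R
  map_one' := by ext <;> simp [tq_re, tq_I, tq_J, tq_K]
  map_mul' x y := by ext <;> simp [tq_re, tq_I, tq_J, tq_K] <;> ring
  map_zero' := by ext <;> simp [tq_re, tq_I, tq_J, tq_K]
  map_add' x y := by ext <;> simp [tq_re, tq_I, tq_J, tq_K] <;> ring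

theorem co_add (x y : Hu) : co (x + y) = co x + co y := by
  ext i; fin_cases i <;> simp [co] <;> ring

theorem co_inj : Function.Injective co := fun x y h => by
  have h0 := congrFun h 0
  have h1 := congrFun h 1
  have h2 := congrFun h 2
  have h3 := congrFun h 3
  simp [co] at h0 h1 h2 h3
  ext <;> omega

/-- the quaternion `v₀ + v₁ i + v₂ j + v₃ k` -/
def lip (v : Fin 4 → ℤ) : Hu := ⟨v 0 + v 3, v 1 - v 2, v 3 + v 2, v 3 - v 2⟩

theorem co_lip (v : Fin 4 → ℤ) : co (lip v) = fun i => 2 * v i := by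
  ext i; fin_cases i <;> simp [co, lip] <;> ring

theorem nm_lip (v : Fin 4 → ℤ) : nm (lip v) = ∑ i, v i ^ 2 := by
  rw [nm_def, Fin.sum_univ_four]; simp [lip]; ring

theorem co_mul (x y : Hu) : (fun i => 2 * co (x * y) i) =
    ![co x 0 * co y 0 - co x 1 * co y 1 - co x 2 * co y 2 - co x 3 * co y 3,
      co x 0 * co y 1 + co x 1 * co y 0 + co x 2 * co y 3 - co x 3 * co y 2,
      co x 0 * co y 2 - co x 1 * co y 3 + co x 2 * co y 0 + co x 3 * co y 1,
      co x 0 * co y 3 + co x 1 * co y 2 - co x 2 * co y 1 + co x 3 * co y 0] := by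
  ext i; fin_cases i <;> simp [co] <;> ring

/-- the elements of a given norm form a finite set -/
theorem fin_nm (n : ℤ) : {x : Hu | nm x = n}.Finite := by
  have hI : (Set.Icc (-(4 * n)) (4 * n)).Finite := Set.finite_Icc _ _
  refine Set.Finite.of_finite_image (f := fun x : Hu => (x.a, x.b, x.c, x.d))
    ((hI.prod (hI.prod (hI.prod hI))).subset ?_) ?_
  · rintro _ ⟨x, hx, rfl⟩
    have e := nm_four x
    rw [show nm x = n from hx] at e
    have k : ∀ z : ℤ, -z ^ 2 ≤ z ∧ z ≤ z ^ 2 := fun z => ⟨by nlinarith [sq_nonneg (2 * z + 1)],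
      by nlinarith [sq_nonneg (2 * z - 1)]⟩
    have h1 := k (2 * x.a - x.c - x.d)
    have h2 := k (2 * x.b + x.c - x.d)
    have h3 := k (x.c - x.d)
    have h4 := k (x.c + x.d)
    have s1 := sq_nonneg (2 * x.a - x.c - x.d)
    have s2 := sq_nonneg (2 * x.b + x.c - x.d)
    have s3 := sq_nonneg (x.c - x.d)
    have s4 := sq_nonneg (x.c + x.d)
    simp only [Set.mem_prod, Set.mem_Icc]
    omega
  · intro x _ y _ h
    simp only [Prod.mk.injEq] at h
    exact Hu.ext h.1 h.2.1 h.2.2.1 h.2.2.2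

/-- the finite set of the elements of norm `n` -/
noncomputable def On (n : ℤ) : Finset Hu := (fin_nm n).toFinset

theorem mem_On {n : ℤ} {x : Hu} : x ∈ On n ↔ nm x = n := by simp [On]

theorem near (z n : ℤ) (hn : 0 < n) : ∃ m : ℤ, -n ≤ 2 * (z - n * m) ∧ 2 * (z - n * m) ≤ n := by
  refine ⟨(2 * z + n) / (2 * n), ?_⟩
  have h1 := Int.emod_add_mul_ediv (2 * z + n) (2 * n)
  have h2 := Int.emod_nonneg (2 * z + n) (show 2 * n ≠ 0 by omega)
  have h3 := Int.emod_lt_of_pos (2 * z + n) (show 0 < 2 * n by omega)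
  constructor <;> nlinarith

/-- division with remainder -/
theorem euclid (x : Hu) {y : Hu} (hy : y ≠ 0) : ∃ q : Hu, nm (x - q * y) < nm y := by
  have hn := nm_pos hy
  obtain ⟨z, hz⟩ : ∃ z, z = x * cj y := ⟨_, rfl⟩
  obtain ⟨n, e⟩ : ∃ n, n = nm y := ⟨_, rfl⟩
  rw [← e] at hn
  obtain ⟨m, m1, m2⟩ := near (z.c + z.d) n hn
  obtain ⟨c, c1, c2⟩ := near (z.c - z.d + n * m) (2 * n) (by omega)
  obtain ⟨a, a1, a2⟩ := near (2 * z.a - z.c - z.d + n * m) (2 * n) (by omega)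
  obtain ⟨b, b1, b2⟩ := near (2 * z.b + z.c - z.d - n * (2 * c - m)) (2 * n) (by omega)
  refine ⟨⟨a, b, c, m - c⟩, ?_⟩
  have h1 : (x - ⟨a, b, c, m - c⟩ * y) * cj y = z - ⟨a, b, c, m - c⟩ * (n : Hu) := by
    rw [sub_mul, mul_assoc, mul_cj, hz, e]
  have h2 := congrArg nm h1
  rw [map_mul, nm_cj, ← e] at h2
  have h3 := nm_four (z - ⟨a, b, c, m - c⟩ * (n : Hu))
  rw [← h2] at h3
  simp only [sub_a, sub_b, sub_c, sub_d, mul_a, mul_b, mul_c, mul_d, int_a, int_b, int_c, int_d] at h3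
  rw [← e]
  have k : ∀ u v : ℤ, -v ≤ u → u ≤ v → u ^ 2 ≤ v ^ 2 := fun u v h h' => sq_le_sq' h h'
  have k1 := k _ _ m1 m2
  have k2 := k _ _ c1 c2
  have k3 := k _ _ a1 a2
  have k4 := k _ _ b1 b2
  by_contra hc
  have k5 : n * n ≤ nm (x - ⟨a, b, c, m - c⟩ * y) * n := by nlinarith
  have k6 : 0 < n * n := by positivity
  nlinarith

/-- every left ideal is principal -/
theorem princ (I : Ideal Hu) : ∃ α ∈ I, ∀ x ∈ I, ∃ β, x = β * α := by
  classical
  by_cases h : ∃ n : ℕ, ∃ x ∈ I, x ≠ 0 ∧ nm x = n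
  · obtain ⟨α, h1, h2, h3⟩ := Nat.find_spec h
    refine ⟨α, h1, fun x hx => ?_⟩
    obtain ⟨q, hq⟩ := euclid x h2
    refine ⟨q, sub_eq_zero.1 ?_⟩
    by_contra h0
    have h4 := nm_nonneg (x - q * α)
    refine Nat.find_min h (m := (nm (x - q * α)).toNat) (by omega)
      ⟨_, I.sub_mem hx (I.mul_mem_left _ h1), h0, by omega⟩
  · refine ⟨0, I.zero_mem, fun x hx => ⟨0, ?_⟩⟩
    by_contra h0
    have := nm_nonneg x
    exact h ⟨(nm x).toNat, x, hx, fun e => h0 (by simp [e]), by omega⟩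

end Hu

end Vale.Agent.P004M.D
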