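import Vale.Agent.P004M.D.X0
import Vale.Agent.P004M.D.Hur

/-!
# P004M, route D, block H: the Hurwitz order acts on `y ^ 2 + y = x ^ 3` in characteristic two
-/

set_option autoImplicit false
set_option linter.all false

open WeierstrassCurve WeierstrassCurve.Affine
open scoped Classical

noncomputable section

namespace Vale.Agent.P004M.D

open P179W

/-- a homomorphism from the Hurwitz order -/
def Hu.lift {E : Type*} [Ring E] (I W : E) (h1 : I * I = -1) (h2 : W * W = -1 - W)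
    (h3 : I * W * (I * W) = -1 - I * W) : Hu →+* E where
  toFun x := x.a • (1 : E) + x.b • I + x.c • W + x.d • (I * W)
  map_one' := by simp
  map_zero' := by simp
  map_add' x y := by simp only [Hu.add_a, Hu.add_b, Hu.add_c, Hu.add_d]; module
  map_mul' x y := by
    obtain ⟨R, hR⟩ : ∃ R, R = I * W := ⟨_, rfl⟩
    have e1 : I * R = -W := by rw [hR, ← mul_assoc, h1]; simp
    have e2 : R * W = -I - R := by rw [hR, mul_assoc, h2]; noncomm_ring
    have e3 : W * R = I - W := by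
      have : I * (R * R) = I * (-1 - R) := by rw [hR, h3]
      rw [← mul_assoc, e1, mul_sub, e1] at this
      rw [← neg_inj]
      simpa [sub_eq_add_neg, add_comm] using this
    have w3 : W * (W * W) = 1 := by rw [h2, mul_sub, h2]; noncomm_ring
    have e4 : W * I = -1 - I - R := by
      have : W * R * (W * W) = (I - W) * (W * W) := by rw [e3]
      rw [hR, mul_assoc, mul_assoc, w3, mul_one, sub_mul, w3, h2] at this
      rw [this, hR]; noncomm_ring
    have e5 : R * I = 1 - I + W := by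
      rw [hR, mul_assoc, e4, mul_sub, mul_sub, h1, e1]; noncomm_ring
    rw [← hR] at h3 ⊢
    simp only [Hu.mul_a, Hu.mul_b, Hu.mul_c, Hu.mul_d, add_mul, mul_add, smul_mul_assoc,
      mul_smul_comm, one_mul, mul_one, h1, h2, h3, e1, e2, e3, e4, e5, ← hR]
    module

variable {L : Type} [Field L]

/-- the point `(x, y)` -/
def p0 (x y : L) : Pt (0 : L) := pt (Et 0) x y

theorem ns0 (h2 : (2 : L) = 0) {x y : L} (e : y ^ 2 + y = x ^ 3) :
    (Et (0 : L)).toAffine.Nonsingular x y :=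
  nonsing_of_Δ (by
    rw [Et_Δ]
    intro h
    exact one_ne_zero (α := L) (by linear_combination h + 14 * h2))
    ((Et_eqn _ _ _).2 (by linear_combination e))

theorem eq0 {x y : L} (h : (Et (0 : L)).toAffine.Nonsingular x y) : y ^ 2 + y = x ^ 3 := by
  linear_combination (Et_eqn _ _ _).1 h.1

theorem p0_of {x y : L} (h : (Et (0 : L)).toAffine.Nonsingular x y) : p0 x y = .some x y h := pt_of h

theorem p0_cases (P : Pt (0 : L)) : P = 0 ∨ ∃ x y, y ^ 2 + y = x ^ 3 ∧ P = p0 x y := by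
  rcases P with _ | ⟨x, y, h⟩
  · exact .inl rfl
  · exact .inr ⟨x, y, eq0 h, (p0_of h).symm⟩

theorem xc_zero : xc (0 : Pt (0 : L)) = 0 := rfl

theorem xc_neg (P : Pt (0 : L)) : xc (-P) = xc P := by
  rcases P with _ | ⟨x, y, h⟩ <;> rfl

section two
variable (h2 : (2 : L) = 0) {x y x' y' : L}
include h2

theorem p0_ne (e : y ^ 2 + y = x ^ 3) : p0 x y ≠ 0 := by
  rw [p0_of (ns0 h2 e)]; exact Point.some_ne_zero _

theorem xc_p0 (e : y ^ 2 + y = x ^ 3) : xc (p0 x y) = x := by rw [p0_of (ns0 h2 e)]; rfl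

theorem yc_p0 (e : y ^ 2 + y = x ^ 3) : yc (p0 x y) = y := by rw [p0_of (ns0 h2 e)]; rfl

theorem eq_neg0 (e : y ^ 2 + y = x ^ 3) : (y + 1) ^ 2 + (y + 1) = x ^ 3 := by
  linear_combination e + (y + 1) * h2

theorem p0_neg (e : y ^ 2 + y = x ^ 3) : -p0 x y = p0 x (y + 1) := by
  rw [p0_of (ns0 h2 e), p0_of (ns0 h2 (eq_neg0 h2 e)), Point.neg_some]
  congr 1
  simp only [negY, Et]
  linear_combination (-y - 1) * h2

theorem p0_add (e : y ^ 2 + y = x ^ 3) (e' : y' ^ 2 + y' = x' ^ 3) (hn : ¬ (x = x' ∧ y = y' + 1))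
    {l : L} (l1 : x = x' → l = x ^ 2) (l2 : y + y' = l * (x + x')) :
    (l * (l ^ 2 + x') + y + 1) ^ 2 + (l * (l ^ 2 + x') + y + 1) = (l ^ 2 + x + x') ^ 3 ∧
    p0 x y + p0 x' y' = p0 (l ^ 2 + x + x') (l * (l ^ 2 + x') + y + 1) := by
  have hn' : ¬ (x = x' ∧ y = (Et (0 : L)).toAffine.negY x' y') := fun h => hn ⟨h.1, by
    rw [h.2]
    simp only [negY, Et]
    linear_combination (-y' - 1) * h2⟩
  have hl : (Et (0 : L)).toAffine.slope x x' y y' = l := by
    by_cases hx : x = x'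
    · rw [slope_of_Y_ne hx (fun h => hn' ⟨hx, h⟩), l1 hx]
      simp only [negY, Et]
      rw [show y - (-y - 0 * x - 1) = 1 by linear_combination y * h2, div_one]
      linear_combination x ^ 2 * h2
    · rw [slope_of_X_ne hx, div_eq_iff (sub_ne_zero.2 hx)]
      linear_combination l2 + (l * x' - y') * h2
  have n3 := nonsingular_add (ns0 h2 e) (ns0 h2 e') hn'
  have a1 : (Et (0 : L)).toAffine.addX x x' l = l ^ 2 + x + x' := by
    simp only [addX, Et]
    linear_combination (-x - x') * h2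
  have a2 : (Et (0 : L)).toAffine.addY x x' y l = l * (l ^ 2 + x') + y + 1 := by
    simp only [addY, negAddY, negY, addX, Et]
    linear_combination (-l ^ 3 + l * x - y - 1) * h2
  rw [hl, a1, a2] at n3
  refine ⟨eq0 n3, ?_⟩
  rw [p0_of (ns0 h2 e), p0_of (ns0 h2 e'), Point.add_some hn', p0_of n3]
  congr 1
  · rw [hl, a1]
  · rw [hl, a2]

theorem ex_slope (e : y ^ 2 + y = x ^ 3) (e' : y' ^ 2 + y' = x' ^ 3) (hn : ¬ (x = x' ∧ y = y' + 1)) :
    ∃ l, (x = x' → l = x ^ 2) ∧ y + y' = l * (x + x') := by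
  by_cases hx : x = x'
  · subst hx
    refine ⟨x ^ 2, fun _ => rfl, ?_⟩
    have : (y + y') * (y - (y' + 1)) = 0 := by linear_combination e - e' - y * h2
    rw [(mul_eq_zero.1 this).resolve_right fun h => hn ⟨rfl, sub_eq_zero.1 h⟩]
    linear_combination (-x ^ 3) * h2
  · have : x + x' ≠ 0 := fun h => hx (by linear_combination h - x' * h2)
    exact ⟨(y + y') / (x + x'), fun h => absurd h hx, by field_simp⟩

theorem p0_opp (e : y' ^ 2 + y' = x' ^ 3) (h : x = x' ∧ y = y' + 1) : p0 x y + p0 x' y' = 0 := by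
  rw [h.1, h.2, ← p0_neg h2 e, neg_add_cancel]

theorem p0_two (e : y ^ 2 + y = x ^ 3) :
    (y ^ 4 + 1) ^ 2 + (y ^ 4 + 1) = (x ^ 4) ^ 3 ∧ p0 x y + p0 x y = p0 (x ^ 4) (y ^ 4 + 1) := by
  have := p0_add h2 e e (fun h => one_ne_zero (α := L) (by linear_combination -h.2)) (l := x ^ 2)
    (fun _ => rfl) (by linear_combination (y - x ^ 3) * h2)
  rwa [show (x ^ 2) ^ 2 + x + x = x ^ 4 by linear_combination x * h2,
    show x ^ 2 * ((x ^ 2) ^ 2 + x) + y + 1 = y ^ 4 + 1 by
      linear_combination (-(x ^ 3 + y ^ 2 + y + 1)) * e + (y ^ 3 + y ^ 2 + y) * h2] at this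

theorem xc_two (P : Pt (0 : L)) : xc (P + P) = xc P ^ 4 := by
  rcases p0_cases P with rfl | ⟨x, y, e, rfl⟩
  · simp [xc_zero]
  · rw [(p0_two h2 e).2, xc_p0 h2 (p0_two h2 e).1, xc_p0 h2 e]

theorem two_ne {P : Pt (0 : L)} (h : P ≠ 0) : P + P ≠ 0 := by
  rcases p0_cases P with rfl | ⟨x, y, e, rfl⟩
  · exact absurd rfl h
  · rw [(p0_two h2 e).2]
    exact p0_ne h2 (p0_two h2 e).1

end two

/-- the map `(x, y) ↦ (u x + r, y + s x + c)` -/
def au (u r s c : L) : Pt (0 : L) → Pt (0 : L)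
  | .zero => 0
  | .some x y _ => p0 (u * x + r) (y + s * x + c)

/-- the conditions for an automorphism -/
structure Au (u r s c : L) : Prop where
  two : (2 : L) = 0
  e1 : u ^ 3 = 1
  e2 : s = u * r ^ 2
  e3 : r ^ 4 = r
  e4 : c ^ 2 + c = r ^ 3

namespace Au

variable {u r s c x y : L} (h : Au u r s c)
include h

theorem eqn (e : y ^ 2 + y = x ^ 3) :
    (y + s * x + c) ^ 2 + (y + s * x + c) = (u * x + r) ^ 3 := by
  rw [h.e2]
  linear_combination e + h.e4 - x ^ 3 * h.e1 + u ^ 2 * x ^ 2 * h.e3 +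
    (y * u * r ^ 2 * x + y * c + u * r ^ 2 * x * c - u ^ 2 * x ^ 2 * r - u * x * r ^ 2) * h.two

theorem app (e : y ^ 2 + y = x ^ 3) : au u r s c (p0 x y) = p0 (u * x + r) (y + s * x + c) := by
  rw [p0_of (ns0 h.two e)]; rfl

theorem add (P Q : Pt (0 : L)) : au u r s c (P + Q) = au u r s c P + au u r s c Q := by
  have z : au u r s c 0 = 0 := rfl
  have h2 := h.two
  have u0 : u ≠ 0 := fun e => by simpa [e] using h.e1
  rcases p0_cases P with rfl | ⟨x, y, e, rfl⟩
  · rw [zero_add, z, zero_add]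
  rcases p0_cases Q with rfl | ⟨x', y', e', rfl⟩
  · rw [add_zero, z, add_zero]
  rw [h.app e, h.app e']
  by_cases hn : x = x' ∧ y = y' + 1
  · rw [p0_opp h2 e' hn, z, p0_opp h2 (h.eqn e') ⟨by rw [hn.1], by rw [hn.1, hn.2]; ring⟩]
  obtain ⟨l, l1, l2⟩ := ex_slope h2 e e' hn
  obtain ⟨e3, a3⟩ := p0_add h2 e e' hn l1 l2
  have k : u * x + r = u * x' + r → x = x' := fun e => mul_left_cancel₀ u0 (add_right_cancel e)
  rw [a3, h.app e3, (p0_add h2 (h.eqn e) (h.eqn e') (l := u ^ 2 * (l + s)) (fun t => hn ⟨k t.1, by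
    have := t.2
    rw [k t.1] at this
    linear_combination this⟩) (fun t => by
      rw [l1 (k t), h.e2]
      linear_combination r ^ 2 * h.e1 - u * x * r * h2) (by
      linear_combination l2 - (l + s) * (x + x') * h.e1 + (c - u ^ 2 * (l + s) * r) * h2)).2]
  have q : (u ^ 2 * (l + s)) ^ 2 = u * l ^ 2 + r := by
    rw [h.e2]
    linear_combination (u * (l + u * r ^ 2) ^ 2 + r ^ 4) * h.e1 + h.e3 + u ^ 2 * l * r ^ 2 * h2
  rw [q]
  congr 1
  · linear_combination (-r) * h2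
  · linear_combination (-(l + s) * (l ^ 2 + x')) * h.e1 - u ^ 2 * (l + s) * r * h2

/-- the automorphism -/
def hom : AddMonoid.End (Pt (0 : L)) := AddMonoidHom.mk' (au u r s c) h.add

theorem hom_p0 (e : y ^ 2 + y = x ^ 3) : h.hom (p0 x y) = p0 (u * x + r) (y + s * x + c) := h.app e

end Au

/-- characteristic two and a primitive cube root of unity -/
structure Cw (w : L) : Prop where
  two : (2 : L) = 0
  cub : w ^ 2 + w + 1 = 0

theorem end_ext {f g : AddMonoid.End (Pt (0 : L))}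
    (h : ∀ x y, y ^ 2 + y = x ^ 3 → f (p0 x y) = g (p0 x y)) : f = g := by
  ext P
  rcases p0_cases P with rfl | ⟨x, y, e, rfl⟩
  · rw [map_zero, map_zero]
  · exact h x y e

namespace Cw

variable {w : L} (h : Cw w)
include h

theorem w3 : w ^ 3 = 1 := by linear_combination (w - 1) * h.cub

theorem aW : Au w 0 0 0 := ⟨h.two, h.w3, by ring, by ring, by ring⟩

theorem aI : Au 1 1 1 (w ^ 2) :=
  ⟨h.two, by ring, by ring, by ring, by linear_combination w * h.w3 + h.cub - h.two⟩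

theorem II : h.aI.hom * h.aI.hom = -1 := end_ext fun x y e => by
  show h.aI.hom (h.aI.hom _) = -p0 x y
  rw [h.aI.hom_p0 e, h.aI.hom_p0 (h.aI.eqn e), p0_neg h.two e]
  congr 1
  · linear_combination h.two
  · linear_combination (x + w ^ 2) * h.two

theorem WW : h.aW.hom * h.aW.hom = -1 - h.aW.hom := end_ext fun x y e => by
  show h.aW.hom (h.aW.hom _) = -p0 x y - h.aW.hom _
  have e1 := h.aW.eqn e
  rw [h.aW.hom_p0 e, h.aW.hom_p0 e1, ← neg_add', (p0_add h.two e e1 (l := 0)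
    (fun t => one_ne_zero (α := L) (by linear_combination -t.2)) (fun t => by
      linear_combination (-(x ^ 2)) * h.cub + (-(w + 2) * x) * t + x ^ 2 * h.two)
    (by linear_combination y * h.two)).2, eq_neg_iff_add_eq_zero, add_comm]
  refine p0_opp h.two (h.aW.eqn e1) ⟨?_, by ring⟩
  linear_combination x * h.cub - w ^ 2 * x * h.two

theorem RR : h.aI.hom * h.aW.hom * (h.aI.hom * h.aW.hom) = -1 - h.aI.hom * h.aW.hom :=
  end_ext fun x y e => by
  show h.aI.hom (h.aW.hom (h.aI.hom (h.aW.hom _))) = -p0 x y - h.aI.hom (h.aW.hom _)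
  have e1 := h.aW.eqn e
  have e2 := h.aI.eqn e1
  have e3 := h.aW.eqn e2
  have h2 := h.two
  have h3 := h.cub
  have k : x = 1 * (w * x + 0) + 1 → x = w := fun t => by grind
  rw [h.aW.hom_p0 e, h.aI.hom_p0 e1, h.aW.hom_p0 e2, h.aI.hom_p0 e3, ← neg_add',
    (p0_add h2 e e2 (l := w ^ 2) (fun t => one_ne_zero (α := L) (by
      have t1 := k t.1
      have t2 := t.2
      grind)) (fun t => by rw [k t]) (by grind)).2, eq_neg_iff_add_eq_zero, add_comm]
  exact p0_opp h2 (h.aI.eqn e3) ⟨by grind, by grind⟩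

/-- **the action of the Hurwitz order** -/
def act : Hu →+* AddMonoid.End (Pt (0 : L)) := Hu.lift _ _ h.II h.WW h.RR

theorem act_apply (g : Hu) (P : Pt (0 : L)) : h.act g P =
    g.a • P + g.b • h.aI.hom P + g.c • h.aW.hom P + g.d • h.aI.hom (h.aW.hom P) := rfl

theorem act_mul (g g' : Hu) (P : Pt (0 : L)) : h.act (g * g') P = h.act g (h.act g' P) := by
  rw [map_mul]; rfl

theorem act_add (g g' : Hu) (P : Pt (0 : L)) : h.act (g + g') P = h.act g P + h.act g' P := by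
  rw [map_add]; rfl

theorem act_int (n : ℤ) (P : Pt (0 : L)) : h.act n P = n • P := by
  simp [act_apply]

theorem act_nat (n : ℕ) (P : Pt (0 : L)) : h.act n P = n • P := by
  simp [act_apply]

theorem cj_act (g : Hu) (P : Pt (0 : L)) : h.act (Hu.cj g) (h.act g P) = Hu.nm g • P := by
  rw [← act_mul, Hu.cj_mul, act_int]

theorem act_cj (g : Hu) (P : Pt (0 : L)) : h.act g (h.act (Hu.cj g) P) = Hu.nm g • P := by
  rw [← act_mul, Hu.mul_cj, act_int]

theorem map {L' : Type} [Field L'] (σ : L →+* L') : Cw (σ w) :=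
  ⟨by rw [← map_ofNat σ 2, h.two, map_zero], by simpa using congrArg σ h.cub⟩

end Cw

section mp
variable {L' : Type} [Field L'] (σ : L →+* L')

theorem Et_map : (Et (0 : L)).map σ = Et 0 := by
  ext <;> simp [Et]

/-- change of field -/
def mp : Pt (0 : L) →+ Pt (0 : L') :=
  AddMonoidHom.mk' (ptFun σ (Et 0)) (ptMap_holds L L' σ _ _ (Et_map σ)).1

theorem mp_p0 (x y : L) : mp σ (p0 x y) = p0 (σ x) (σ y) :=
  (ptMap_holds L L' σ _ _ (Et_map σ)).2.1 x y

theorem mp_inj : Function.Injective (mp σ) := (ptMap_holds L L' σ _ _ (Et_map σ)).2.2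

theorem mp_ne {P : Pt (0 : L)} (h : P ≠ 0) : mp σ P ≠ 0 := fun e =>
  h (mp_inj σ (e.trans (map_zero _).symm))

theorem eq_map {x y : L} (e : y ^ 2 + y = x ^ 3) : σ y ^ 2 + σ y = σ x ^ 3 := by
  simpa using congrArg σ e

theorem xc_mp (h2 : (2 : L) = 0) (P : Pt (0 : L)) : xc (mp σ P) = σ (xc P) := by
  rcases p0_cases P with rfl | ⟨x, y, e, rfl⟩
  · rw [map_zero, xc_zero, xc_zero, map_zero]
  · rw [mp_p0, xc_p0 h2 e, xc_p0 (by rw [← map_ofNat σ 2, h2, map_zero]) (eq_map σ e)]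

theorem mp_hom {u r s c : L} (h : Au u r s c) {u' r' s' c' : L'} (h' : Au u' r' s' c')
    (e1 : σ u = u') (e2 : σ r = r') (e3 : σ s = s') (e4 : σ c = c') (P : Pt (0 : L)) :
    mp σ (h.hom P) = h'.hom (mp σ P) := by
  rcases p0_cases P with rfl | ⟨x, y, e, rfl⟩
  · simp
  · rw [h.hom_p0 e, mp_p0, mp_p0, h'.hom_p0 (eq_map σ e)]
    simp [e1, e2, e3, e4]

theorem mp_act {w : L} (h : Cw w) {w' : L'} (h' : Cw w') (e : σ w = w') (g : Hu) (P : Pt (0 : L)) :
    mp σ (h.act g P) = h'.act g (mp σ P) := by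
  have a := mp_hom σ h.aI h'.aI (map_one _) (map_one _) (map_one _) (by rw [map_pow, e])
  have b := mp_hom σ h.aW h'.aW e (map_zero _) (map_zero _) (map_zero _)
  simp only [Cw.act_apply, map_add, map_zsmul, a, b]

end mp

theorem xc_pow (h2 : (2 : L) = 0) (n : ℕ) (P : Pt (0 : L)) : xc (2 ^ n • P) = xc P ^ 4 ^ n := by
  induction n with
  | zero => simp
  | succ n ih => rw [pow_succ', mul_smul, two_smul, xc_two h2, ih, ← pow_mul, pow_succ]

theorem pow_ne (h2 : (2 : L) = 0) (n : ℕ) {P : Pt (0 : L)} (h : P ≠ 0) : 2 ^ n • P ≠ 0 := by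
  induction n with
  | zero => simpa using h
  | succ n ih => rw [pow_succ', mul_smul, two_smul]; exact two_ne h2 ih

theorem eq_of_xc {P Q : Pt (0 : L)} (hP : P ≠ 0) (hQ : Q ≠ 0) (e : xc P = xc Q) : P = Q ∨ P = -Q := by
  rcases P with _ | ⟨x, y, h⟩
  · exact absurd rfl hP
  rcases Q with _ | ⟨x', y', h'⟩
  · exact absurd rfl hQ
  exact Point.X_eq_iff.1 e

theorem odd_per {n : ℤ} (hn : Odd n) {G : Type*} [AddCommGroup G] :
    ∃ m : ℕ, 0 < m ∧ ∀ P : G, n • P = 0 → 2 ^ m • P = P := by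
  have h0 : n.natAbs ≠ 0 := by rintro h; rw [Int.natAbs_eq_zero.1 h] at hn; simp at hn
  refine ⟨n.natAbs.totient, Nat.totient_pos.2 (Nat.pos_of_ne_zero h0), fun P hP => ?_⟩
  obtain ⟨c, hc⟩ := (Nat.modEq_iff_dvd.1 (Nat.ModEq.pow_totient
    (Nat.coprime_two_left.2 (Int.natAbs_odd.2 hn))).symm)
  have h1 : (n.natAbs : ℤ) • P = 0 := by
    rcases Int.natAbs_eq n with e | e
    · rw [← e, hP]
    · rw [← neg_eq_iff_eq_neg.2 e, neg_smul, hP, neg_zero]
  rw [← sub_eq_zero, ← natCast_zsmul, ← one_smul ℤ P, smul_smul, ← sub_smul, mul_one]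
  rw [Nat.cast_one] at hc
  rw [hc, mul_comm, mul_smul, h1, smul_zero]

theorem fin_tor (h2 : (2 : L) = 0) {n : ℤ} (hn : Odd n) : {P : Pt (0 : L) | n • P = 0}.Finite := by
  obtain ⟨m, hm, h⟩ := odd_per hn (G := Pt (0 : L))
  have h1 : {x : L | x ^ 4 ^ m = x}.Finite := by
    refine (Polynomial.finite_setOf_isRoot (p := Polynomial.X ^ 4 ^ m - Polynomial.X)
      (FiniteField.X_pow_card_sub_X_ne_zero L (Nat.one_lt_pow hm.ne' (by norm_num)))).subset ?_
    intro x hx
    simpa [sub_eq_zero] using hx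
  refine Set.Finite.of_finite_fibers xc (h1.subset ?_) fun x _ => ?_
  · rintro _ ⟨P, hP, rfl⟩
    have := xc_pow h2 m P
    rw [h P hP] at this
    exact this.symm
  · by_cases hx : ∃ Q : Pt (0 : L), Q ≠ 0 ∧ xc Q = x
    · obtain ⟨Q, h1, h3⟩ := hx
      refine (Set.toFinite {0, Q, -Q}).subset fun P hP => ?_
      by_cases h0 : P = 0
      · exact .inl h0
      · exact .inr (eq_of_xc h0 h1 (hP.2.trans h3.symm))
    · refine (Set.toFinite {0}).subset fun P hP => ?_
      by_contra h0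
      exact hx ⟨P, h0, hP.2⟩

theorem Cw.fin {w : L} (h : Cw w) (g : Hu) (hg : Odd (Hu.nm g)) : {P | h.act g P = 0}.Finite :=
  (fin_tor h.two hg).subset fun P hP => by
    rw [Set.mem_setOf_eq, ← h.cj_act, show h.act g P = 0 from hP, map_zero]

end Vale.Agent.P004M.D
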