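import Vale.Agent.P004M.D.HVal

/-!
# P004M, route D, block H: the generic point of `y ^ 2 + y = x ^ 3`
-/

set_option autoImplicit false
set_option linter.all false

open Polynomial
open scoped Classical

noncomputable section

namespace Vale.Agent.P004M.D

variable {k : Type} [Field k]

instance quadFact (k : Type) [Field k] :
    Fact (∀ r : RatFunc k, r ^ 2 ≠ RatFunc.X ^ 3 + (-1) * r) := ⟨fun r e => by
  have h := vy_eq (RatFunc.inftyValuation k) (x := RatFunc.X) (y := r) (by linear_combination e)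
    (by rw [RatFunc.inftyValuation.X, ← WithZero.exp_zero, WithZero.exp_lt_exp]; norm_num)
  rw [RatFunc.inftyValuation.X, RatFunc.inftyValuation_apply] at h
  by_cases h0 : r = 0
  · rw [h0, RatFunc.InftyValuation.map_zero', zero_pow two_ne_zero] at h
    exact pow_ne_zero 3 WithZero.exp_ne_zero h.symm
  · rw [RatFunc.inftyValuation_of_nonzero k h0, ← WithZero.exp_nsmul, ← WithZero.exp_nsmul,
      WithZero.exp_inj] at h
    simp only [nsmul_eq_mul] at h
    omega⟩

/-- `ξ` is transcendental -/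
def Tr {F : Type} [Field F] (ι : k →+* F) (ξ : F) : Prop := ∀ p : k[X], p ≠ 0 → p.eval₂ ι ξ ≠ 0

/-- a model of the function field with the place at infinity -/
structure Gn {F : Type} [Field F] (ι : k →+* F) (x y : F) (B : ValuationSubring F) : Prop where
  eqn : y ^ 2 + y = x ^ 3
  hv : ∀ a, B.valuation (ι a) ≤ 1
  big : 1 < B.valuation x
  fix : ∃ σ : F →+* F, (∀ a, σ (ι a) = ι a) ∧ σ x = x ∧ σ y = y + 1 ∧ ∀ z, σ z = z →
    ∃ p q : k[X], IsCoprime p q ∧ q ≠ 0 ∧ z * q.eval₂ ι x = p.eval₂ ι x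
  lift : ∀ ξ η : F, η ^ 2 + η = ξ ^ 3 → Tr ι ξ →
    ∃ τ : F →+* F, (∀ a, τ (ι a) = ι a) ∧ τ x = ξ ∧ τ y = η

theorem ex_gn (h2 : (2 : k) = 0) : ∃ (F : Type) (_ : Field F) (ι : k →+* F) (x y : F)
    (B : ValuationSubring F), Gn ι x y B := by
  let F := QuadraticAlgebra (RatFunc k) (RatFunc.X ^ 3) (-1)
  let j : RatFunc k →+* F := algebraMap _ _
  obtain ⟨B, b1, b2⟩ := IsLocalRing.exists_factor_valuationRing
    (j.comp (RatFunc.inftyValuation k).valuationSubring.subtype)
  have ev : ∀ p : k[X], p.eval₂ (j.comp RatFunc.C) (j RatFunc.X) = j (algebraMap _ _ p) := fun p => by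
    rw [← hom_eval₂]
    congr 1
    rw [← RatFunc.algebraMap_X, ← RatFunc.algebraMap_comp_C, ← hom_eval₂, eval₂_C_X]
  have o1 : (1 : F).re = 1 := rfl
  have o2 : (1 : F).im = 0 := rfl
  have t2 : (2 : RatFunc k) = 0 := by rw [← map_ofNat RatFunc.C 2, h2, map_zero]
  refine ⟨F, inferInstance, j.comp RatFunc.C, j RatFunc.X, QuadraticAlgebra.omega, B, ?_,
    fun a => ?_, ?_, ⟨starRingEnd F, fun a => ?_, ?_, ?_, fun z hz => ?_⟩, fun ξ η e ht => ?_⟩
  · rw [← map_pow, pow_two]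
    ext <;> simp [j, F, -map_pow]
  · refine (B.valuation_le_one_iff _).2 (b1 ⟨RatFunc.C a, ?_⟩)
    by_cases h : a = 0
    · simp [h]
    · exact (RatFunc.inftyValuation.C k h).le
  · have h1 : RatFunc.inftyValuation k (1 / RatFunc.X) < 1 := by
      rw [RatFunc.inftyValuation.X_inv, ← WithZero.exp_zero, WithZero.exp_lt_exp]; norm_num
    have h3 : ¬ IsUnit (⟨1 / RatFunc.X, h1.le⟩ : (RatFunc.inftyValuation k).valuationSubring) :=
      (Valuation.mem_maximalIdeal_iff ..).2 h1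
    have h4 := (B.valuation_lt_one_iff _).1 (mt (b2.1 _) h3)
    change B.valuation (j (1 / RatFunc.X)) < 1 at h4
    rw [one_div, map_inv₀, map_inv₀] at h4
    exact (inv_lt_one₀ (by simpa [pos_iff_ne_zero] using RatFunc.X_ne_zero)).1 h4
  · ext <;> simp [j, F, starRingEnd_apply]
  · ext <;> simp [j, F, starRingEnd_apply]
  · ext <;> simp [j, F, starRingEnd_apply, o1, o2]
    · linear_combination -t2
    · linear_combination -t2
  · have h1 : z.im = 0 := by
      have : z.re + (-1) * z.im = z.re := congrArg QuadraticAlgebra.re hz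
      linear_combination -this
    have h3 : z = j z.re := by ext <;> simp [j, F, h1]
    refine ⟨z.re.num, z.re.denom, RatFunc.isCoprime_num_denom _, RatFunc.denom_ne_zero _, ?_⟩
    rw [ev, ev, h3, ← map_mul]
    congr 1
    rw [show (j z.re).re = z.re from h3 ▸ rfl]
    exact ((div_eq_iff (by simpa using RatFunc.denom_ne_zero z.re)).1 (RatFunc.num_div_denom z.re)).symm
  · let ψ := RatFunc.liftRingHom (eval₂RingHom (j.comp RatFunc.C) ξ) fun p hp =>
      mem_nonZeroDivisors_of_ne_zero (ht p (nonZeroDivisors.ne_zero hp))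
    have s : ∀ p : k[X], ψ (algebraMap _ _ p) = p.eval₂ (j.comp RatFunc.C) ξ := fun p =>
      RatFunc.liftRingHom_algebraMap _ _ p
    have sX : ψ RatFunc.X = ξ := by simpa using s X
    let τ : F →+* F :=
      { toFun z := ψ z.re + ψ z.im * η
        map_one' := by simp [o1, o2]
        map_zero' := by simp [F]
        map_add' z w := by simp [F]; ring
        map_mul' z w := by
          simp [F, sX]
          linear_combination (-(ψ z.im * ψ w.im)) * e }
    refine ⟨τ, fun a => ?_, ?_, ?_⟩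
    · simpa [τ, j, F] using s (C a)
    · simpa [τ, j, F] using sX
    · simp [τ, F]

variable [IsAlgClosed k]

theorem ex_pt (h2 : (2 : k) = 0) (a : k) : ∃ P : Pt (0 : k), P ≠ 0 ∧ xc P = a := by
  obtain ⟨b, hb⟩ := IsAlgClosed.exists_root (X ^ 2 + X - C (a ^ 3) : k[X]) (by
    rw [show (X ^ 2 + X - C (a ^ 3) : k[X]).degree = 2 by compute_degree!]
    norm_num)
  have e : b ^ 2 + b = a ^ 3 := by simpa [sub_eq_zero] using hb
  exact ⟨p0 a b, p0_ne h2 e, xc_p0 h2 e⟩

theorem tr_of {F : Type} [Field F] {ι : k →+* F} {ξ : F} (h : ∀ a, ξ ≠ ι a) : Tr ι ξ := by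
  intro p hp e
  rw [← eval_map] at e
  obtain ⟨a, ha⟩ := (IsAlgClosed.splits p).mem_range_of_isRoot hp e
  exact h a ha.symm

namespace Gn

variable {F : Type} [Field F] {ι : k →+* F} {x y : F} {B : ValuationSubring F} (G : Gn ι x y B)
  {w : k} (h : Cw w)
include G h

theorem xq : xc (p0 x y) = x := xc_p0 (h.map ι).two G.eqn

theorem bq : 1 < B.valuation (xc (p0 x y)) := by rw [G.xq h]; exact G.big

/-- endomorphisms of the function field which move the generic point -/
theorem move {P : Pt (0 : F)} (hP : 1 < B.valuation (xc P)) (c : Pt (0 : k)) :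
    ∃ τ : F →+* F, (∀ a, τ (ι a) = ι a) ∧ τ x = xc (P + mp ι c) ∧ mp τ (p0 x y) = P + mp ι c ∧
      (∀ a, mp τ (mp ι a) = mp ι a) ∧
      ∀ g Q, τ (xc ((h.map ι).act g Q)) = xc ((h.map ι).act g (mp τ Q)) := by
  have h2 := (h.map ι).two
  have n : ∀ a, P + mp ι c ≠ mp ι a := fun a e => by
    rw [eq_sub_of_add_eq e, ← map_sub, xc_mp ι h.two] at hP
    exact absurd (G.hv _) (not_le.2 hP)
  have n0 : P + mp ι c ≠ 0 := by simpa using n 0
  have t : Tr ι (xc (P + mp ι c)) := tr_of fun a e => by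
    obtain ⟨R, r0, rfl⟩ := ex_pt h.two a
    rw [← xc_mp ι h.two] at e
    rcases eq_of_xc n0 (mp_ne ι r0) e with s | s
    · exact n _ s
    · exact n (-R) (by rw [s, map_neg])
  rcases p0_cases (P + mp ι c) with s | ⟨ξ, η, e, s⟩
  · exact absurd s n0
  rw [s, xc_p0 h2 e] at t ⊢
  obtain ⟨τ, t1, t2, t3⟩ := G.lift ξ η e t
  refine ⟨τ, t1, t2, by rw [mp_p0, t2, t3], fun a => ?_, fun g Q => ?_⟩
  · rcases p0_cases a with rfl | ⟨a, b, -, rfl⟩
    · simp
    · rw [mp_p0, mp_p0, t1, t1]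
  · rw [← xc_mp τ h2, mp_act τ (h.map ι) (h.map ι) (t1 w)]

/-- even functions are rational functions of `x` -/
theorem even : ∃ σ : F →+* F, (∀ a, σ (ι a) = ι a) ∧ mp σ (p0 x y) = -p0 x y ∧
      (∀ a, mp σ (mp ι a) = mp ι a) ∧
      (∀ g, σ (xc ((h.map ι).act g (p0 x y))) = xc ((h.map ι).act g (p0 x y))) ∧ σ x = x ∧
      ∀ z, σ z = z → ∃ p q : k[X], IsCoprime p q ∧ q ≠ 0 ∧ z * q.eval₂ ι x = p.eval₂ ι x := by
  obtain ⟨σ, s1, s2, s3, s4⟩ := G.fix
  have h2 := (h.map ι).two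
  have e : mp σ (p0 x y) = -p0 x y := by rw [mp_p0, s2, s3, p0_neg h2 G.eqn]
  refine ⟨σ, s1, e, fun a => ?_, fun g => ?_, s2, s4⟩
  · rcases p0_cases a with rfl | ⟨a, b, -, rfl⟩
    · simp
    · rw [mp_p0, mp_p0, s1, s1]
  · rw [← xc_mp σ h2, mp_act σ (h.map ι) (h.map ι) (s1 w), e, map_neg, xc_neg]

theorem near {P : Pt (0 : F)} (hP : 1 < B.valuation (xc P)) {c : Pt (0 : k)} (hc : c ≠ 0) :
    B.valuation (xc (P + mp ι c) - ι (xc c)) < 1 := by
  rw [← xc_mp ι h.two]
  exact add_fin _ (h.map ι).two (mp_ne ι hc) (by rw [xc_mp ι h.two]; exact G.hv _) hP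

omit h [IsAlgClosed k]

theorem map_ev {τ : F →+* F} (t : ∀ a, τ (ι a) = ι a) (p : k[X]) (z : F) :
    τ (p.eval₂ ι z) = p.eval₂ ι (τ z) := by
  rw [hom_eval₂, show τ.comp ι = ι from RingHom.ext t]

theorem deg {z : F} {p q : k[X]} (hq : q ≠ 0) (e : z * q.eval₂ ι x = p.eval₂ ι x)
    (hz : B.valuation z < B.valuation x) :
    ∃ c, B.valuation (z - ι c) < 1 := by
  have p1 : 0 < B.valuation x ^ q.natDegree := pow_pos (zero_lt_one.trans G.big) _
  have d : p.natDegree ≤ q.natDegree := by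
    by_cases hp : p = 0
    · simp [hp]
    have := congrArg B.valuation e
    rw [map_mul, val_deg _ G.hv G.big hp, val_deg _ G.hv G.big hq] at this
    have t := mul_lt_mul_of_pos_right hz p1
    rw [this, ← pow_succ'] at t
    exact Nat.lt_succ_iff.1 ((pow_lt_pow_iff_right₀ G.big).1 t)
  refine ⟨p.coeff q.natDegree / q.leadingCoeff, ?_⟩
  refine lt_of_mul_lt_mul_right (a := B.valuation x ^ q.natDegree) ?_ zero_le
  rw [one_mul]
  nth_rewrite 1 [← val_deg _ G.hv G.big hq]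
  rw [← map_mul, sub_mul, e, ← eval₂_C ι x, ← eval₂_mul, ← eval₂_sub]
  generalize hr : p - C (p.coeff q.natDegree / q.leadingCoeff) * q = r
  by_cases r0 : r = 0
  · simpa [r0] using p1
  rw [val_deg _ G.hv G.big r0, pow_lt_pow_iff_right₀ G.big]
  have l : r.natDegree ≤ q.natDegree := by
    rw [← hr]
    exact (natDegree_sub_le _ _).trans (max_le d (natDegree_C_mul_le _ _))
  refine l.lt_of_ne fun t => leadingCoeff_ne_zero.2 r0 ?_
  rw [leadingCoeff, t, ← hr, coeff_sub, coeff_C_mul, coeff_natDegree,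
    div_mul_cancel₀ _ (leadingCoeff_ne_zero.2 hq), sub_self]

end Gn

end Vale.Agent.P004M.D
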