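import Vale.Agent.P004M.D.HE0

/-!
# P004M, route D, block H: points of `y ^ 2 + y = x ^ 3` over a valued field
-/

set_option autoImplicit false
set_option linter.all false

open Polynomial
open scoped Classical

noncomputable section

namespace Vale.Agent.P004M.D

open P179W WeierstrassCurve WeierstrassCurve.Affine

variable {L : Type} [Field L] {Γ : Type} [LinearOrderedCommGroupWithZero Γ] (v : Valuation L Γ)

theorem vy_le {x y : L} (e : y ^ 2 + y = x ^ 3) (h : v x ≤ 1) : v y ≤ 1 := by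
  by_contra hc
  have h1 : v y < v (y ^ 2) := by
    rw [map_pow]; exact lt_self_pow₀ (not_le.1 hc) one_lt_two
  have := v.map_add_eq_of_lt_left h1
  rw [e, map_pow] at this
  exact hc ((h1.le.trans this.ge).trans (pow_le_one₀ zero_le h))

theorem vy_eq {x y : L} (e : y ^ 2 + y = x ^ 3) (h : 1 < v x) : v y ^ 2 = v x ^ 3 := by
  have h0 : 1 < v y := by
    by_contra hc
    have hc := not_lt.1 hc
    have := v.map_add_le (x := y ^ 2) (y := y) (by rw [map_pow]; exact pow_le_one₀ zero_le hc) hc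
    rw [e, map_pow] at this
    exact absurd (one_lt_pow₀ h three_ne_zero) (not_lt.2 this)
  have h1 : v y < v (y ^ 2) := by rw [map_pow]; exact lt_self_pow₀ h0 one_lt_two
  rw [← map_pow, ← v.map_add_eq_of_lt_left h1, e, map_pow]

theorem ne_of_val {P : Pt (0 : L)} (h : 1 < v (xc P)) : P ≠ 0 := by
  rintro rfl
  simp [xc_zero] at h

variable (h2 : (2 : L) = 0)
include h2

theorem add_min {P Q : Pt (0 : L)} (hP : 1 < v (xc P)) (hQ : 1 < v (xc Q)) (h : P + Q ≠ 0) :
    min (v (xc P)) (v (xc Q)) ≤ v (xc (P + Q)) := by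
  rcases p0_cases P with rfl | ⟨x, y, e, rfl⟩
  · exact absurd rfl (ne_of_val v hP)
  rcases p0_cases Q with rfl | ⟨x', y', e', rfl⟩
  · exact absurd rfl (ne_of_val v hQ)
  have hn : ¬ (x = x' ∧ y = y' + 1) := fun t => h (p0_opp h2 e' t)
  obtain ⟨l, l1, l2⟩ := ex_slope h2 e e' hn
  obtain ⟨e3, a3⟩ := p0_add h2 e e' hn l1 l2
  rw [a3, xc_p0 h2 e3]
  rw [xc_p0 h2 e] at hP ⊢
  rw [xc_p0 h2 e'] at hQ ⊢
  have r : x * x' + (l ^ 2 + x + x') * (x + x') = l := by
    by_cases hx : x = x'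
    · rw [l1 hx, ← hx]
      linear_combination ((x ^ 2) ^ 2 + x + x) * x * h2
    · refine mul_left_cancel₀ (show x + x' ≠ 0 from fun t => hx (by linear_combination t - x' * h2)) ?_
      grind
  by_contra hc
  rw [not_le, lt_min_iff] at hc
  generalize hz : l ^ 2 + x + x' = z at *
  have p : 0 < v x := zero_lt_one.trans hP
  have p' : 0 < v x' := zero_lt_one.trans hQ
  have k1 : v (z * (x + x')) < v (x * x') := by
    rw [mul_add]
    refine v.map_add_lt ?_ ?_ <;> rw [map_mul, map_mul]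
    · rw [mul_comm]; exact mul_lt_mul_of_pos_left hc.2 p
    · exact mul_lt_mul_of_pos_right hc.1 p'
  have k2 := v.map_add_eq_of_lt_left k1
  rw [r, map_mul] at k2
  have k3 : v x < v l := by rw [k2]; exact lt_mul_of_one_lt_right p hQ
  have k4 : v x' < v l := by rw [k2]; exact lt_mul_of_one_lt_left p' hP
  have k5 : v (l ^ 2) < v l := by
    rw [show l ^ 2 = z + x + x' by linear_combination hz - (x + x') * h2]
    exact v.map_add_lt (v.map_add_lt (hc.1.trans k3) k3) k4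
  rw [map_pow] at k5
  exact absurd (lt_self_pow₀ (hP.trans k3) one_lt_two) (not_lt.2 k5.le)

/-- the points near infinity -/
def Fv (U : Set Γ) (h1 : ∀ a ∈ U, 1 < a) (hU : ∀ a ∈ U, ∀ b, a ≤ b → b ∈ U) :
    AddSubgroup (Pt (0 : L)) where
  carrier := {P | P = 0 ∨ v (xc P) ∈ U}
  zero_mem' := .inl rfl
  neg_mem' {P} h := h.imp (fun e => by rw [e, neg_zero]) fun e => by rwa [xc_neg]
  add_mem' {P Q} hP hQ := by
    rcases hP with rfl | hP
    · rwa [zero_add]
    rcases hQ with rfl | hQ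
    · rw [add_zero]; exact .inr hP
    by_cases h : P + Q = 0
    · exact .inl h
    refine .inr (hU _ ?_ _ (add_min v h2 (h1 _ hP) (h1 _ hQ) h))
    rcases min_choice (v (xc P)) (v (xc Q)) with e | e <;> rwa [e]

theorem deep_eq {x y x' y' : L} (e : y ^ 2 + y = x ^ 3) (e' : y' ^ 2 + y' = x' ^ 3)
    (h : v x < v x') : p0 x y + p0 x' y' ≠ 0 ∧
      (xc (p0 x y + p0 x' y') - x) * (x + x') ^ 2 = y + y' + x ^ 2 * x' + x ^ 3 := by
  have hn : ¬ (x = x' ∧ y = y' + 1) := fun t => h.ne (by rw [t.1])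
  obtain ⟨l, -, l2⟩ := ex_slope h2 e e' hn
  obtain ⟨e3, a3⟩ := p0_add h2 e e' hn (fun t => absurd (by rw [t]) h.ne) l2
  rw [a3, xc_p0 h2 e3]
  exact ⟨p0_ne h2 e3, by grind⟩

theorem add_fin {P Q : Pt (0 : L)} (h0 : P ≠ 0) (hP : v (xc P) ≤ 1) (hQ : 1 < v (xc Q)) :
    v (xc (Q + P) - xc P) < 1 := by
  rcases p0_cases P with rfl | ⟨x, y, e, rfl⟩
  · exact absurd rfl h0
  rcases p0_cases Q with rfl | ⟨x', y', e', rfl⟩
  · exact absurd rfl (ne_of_val v hQ)
  rw [xc_p0 h2 e] at hP ⊢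
  rw [xc_p0 h2 e'] at hQ
  have k := congrArg v (deep_eq v h2 e e' (hP.trans_lt hQ)).2
  have p' : 0 < v x' := zero_lt_one.trans hQ
  have q : v x' < v x' ^ 2 := lt_self_pow₀ hQ one_lt_two
  rw [map_mul, map_pow, v.map_add_eq_of_lt_right (hP.trans_lt hQ), add_comm] at k
  refine lt_of_mul_lt_mul_right (a := v x' ^ 2) ?_ zero_le
  rw [k, one_mul]
  refine v.map_add_lt (v.map_add_lt (v.map_add_lt (((vy_le v e hP).trans_lt hQ).trans q) ?_) ?_) ?_
  · refine lt_of_pow_lt_pow_left₀ 2 zero_le ?_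
    rw [vy_eq v e' hQ, ← pow_mul]
    exact pow_lt_pow_right₀ hQ (by norm_num)
  · rw [map_mul, map_pow]
    exact (mul_le_of_le_one_left zero_le (pow_le_one₀ zero_le hP)).trans_lt q
  · rw [map_pow]
    exact ((pow_le_one₀ zero_le hP).trans_lt hQ).trans q

theorem add_inf {P Q : Pt (0 : L)} (hP : 1 < v (xc P)) (hQ : v (xc P) < v (xc Q)) :
    v ((xc (P + Q))⁻¹ - (xc P)⁻¹) ^ 2 * v (xc Q) ≤ 1 := by
  have hQ1 := hP.trans hQ
  have n0 : P + Q ≠ 0 := fun t => hQ.ne (by rw [eq_neg_of_add_eq_zero_left t, xc_neg])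
  have m : v (xc P) ≤ v (xc (P + Q)) := (min_eq_left hQ.le).ge.trans (add_min v h2 hP hQ1 n0)
  rcases p0_cases P with rfl | ⟨x, y, e, rfl⟩
  · exact absurd rfl (ne_of_val v hP)
  rcases p0_cases Q with rfl | ⟨x', y', e', rfl⟩
  · exact absurd rfl (ne_of_val v hQ1)
  rw [xc_p0 h2 e] at hP hQ m ⊢
  rw [xc_p0 h2 e'] at hQ hQ1 ⊢
  have k := congrArg v (deep_eq v h2 e e' hQ).2
  rw [map_mul, map_pow, v.map_add_eq_of_lt_right hQ] at k
  generalize xc (p0 x y + p0 x' y') = z at *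
  have p : 0 < v x := zero_lt_one.trans hP
  have p' : 0 < v x' := zero_lt_one.trans hQ1
  have x0 : x ≠ 0 := fun t => by simp [t] at p
  have z0 : z ≠ 0 := fun t => by simp [t, x0] at m
  have b : v (y + y' + x ^ 2 * x' + x ^ 3) ^ 2 ≤ v x ^ 4 * v x' ^ 3 := by
    have s : ∀ {a b : L} {c : Γ}, v a ^ 2 ≤ c → v b ^ 2 ≤ c → v (a + b) ^ 2 ≤ c := fun {a b c} ha hb => by
      rcases v.map_add' a b with t | t
      · exact (pow_le_pow_left₀ zero_le t 2).trans ha
      · exact (pow_le_pow_left₀ zero_le t 2).trans hb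
    have o : 1 ≤ v x ^ 4 := one_le_pow₀ hP.le
    refine s (s (s ?_ ?_) ?_) ?_
    · rw [vy_eq v e hP]
      exact (pow_le_pow_left₀ zero_le hQ.le 3).trans (le_mul_of_one_le_left zero_le o)
    · rw [vy_eq v e' hQ1]
      exact le_mul_of_one_le_left zero_le o
    · rw [map_mul, map_pow, mul_pow, ← pow_mul]
      exact mul_le_mul_right (pow_le_pow_right₀ hQ1.le (by norm_num)) _
    · rw [map_pow, ← pow_mul, show 3 * 2 = 4 + 2 from rfl, pow_add]
      exact mul_le_mul_right ((pow_le_pow_left₀ zero_le hQ.le 2).trans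
        (pow_le_pow_right₀ hQ1.le (by norm_num))) _
  rw [← k] at b
  have b2 : v (z - x) ^ 2 * v x' ≤ v x ^ 4 := by
    refine le_of_mul_le_mul_right (a := v x' ^ 3) ?_ (pow_pos p' 3)
    convert b using 1
    rw [mul_pow, ← pow_mul, mul_assoc, ← pow_succ']
  rw [show z⁻¹ - x⁻¹ = -(z - x) / (z * x) by field_simp; ring, map_div₀, v.map_neg, map_mul, div_pow,
    div_mul_eq_mul_div, div_le_one₀ (pow_pos (mul_pos (p.trans_le m) p) 2)]
  refine b2.trans ?_
  rw [show 4 = 2 * 2 from rfl, pow_mul', pow_two (v x)]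
  exact pow_le_pow_left₀ zero_le (mul_le_mul_left m _) 2

omit h2

theorem Au.val {u r s c : L} (h : Au u r s c) (hr : v r ≤ 1) {P : Pt (0 : L)} (hP : 1 < v (xc P)) :
    v (xc (h.hom P)) = v (xc P) := by
  rcases p0_cases P with rfl | ⟨x, y, e, rfl⟩
  · exact absurd rfl (ne_of_val v hP)
  have u1 : v u = 1 := by
    have := congrArg v h.e1
    rw [map_pow, map_one] at this
    exact (pow_eq_one_iff_of_nonneg zero_le three_ne_zero).1 this
  rw [xc_p0 h.two e] at hP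
  rw [h.hom_p0 e, xc_p0 h.two (h.eqn e), xc_p0 h.two e, v.map_add_eq_of_lt_left, map_mul, u1, one_mul]
  rw [map_mul, u1, one_mul]
  exact hr.trans_lt hP

theorem Cw.mem_Fv {w : L} (h : Cw w) (g : Hu) {U : Set Γ} (h1 : ∀ a ∈ U, 1 < a)
    (hU : ∀ a ∈ U, ∀ b, a ≤ b → b ∈ U) {P : Pt (0 : L)} (hP : P ∈ Fv v h.two U h1 hU) :
    h.act g P ∈ Fv v h.two U h1 hU := by
  have k : ∀ {u r s c : L} (a : Au u r s c), v r ≤ 1 → ∀ P ∈ Fv v h.two U h1 hU,
      a.hom P ∈ Fv v h.two U h1 hU := fun a hr P hP =>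
    hP.imp (fun e => by rw [e, map_zero]) fun e => by rwa [a.val v hr (h1 _ e)]
  have kI := k h.aI (by simp)
  have kW := k h.aW (by simp)
  rw [h.act_apply]
  exact add_mem (add_mem (add_mem (zsmul_mem hP _) (zsmul_mem (kI _ hP) _)) (zsmul_mem (kW _ hP) _))
    (zsmul_mem (kI _ (kW _ hP)) _)

theorem Cw.val_ge {w : L} (h : Cw w) (g : Hu) {P : Pt (0 : L)} (hP : 1 < v (xc P)) :
    h.act g P = 0 ∨ v (xc P) ≤ v (xc (h.act g P)) :=
  h.mem_Fv v g (U := {a | v (xc P) ≤ a}) (fun _ t => hP.trans_le t) (fun _ t _ s => t.trans s)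
    (.inr le_rfl)

theorem Cw.val_act {w : L} (h : Cw w) {g : Hu} (hg : Odd (Hu.nm g)) {P : Pt (0 : L)}
    (hP : 1 < v (xc P)) : v (xc (h.act g P)) = v (xc P) := by
  have h1 : ∀ a ∈ {a | v (xc P) < a}, 1 < a := fun _ t => hP.trans t
  have hU : ∀ a ∈ {a | v (xc P) < a}, ∀ b, a ≤ b → b ∈ {a | v (xc P) < a} :=
    fun _ t _ s => lt_of_lt_of_le t s
  have k : h.act g P ∉ Fv v h.two _ h1 hU := fun t => by
    have t1 := h.mem_Fv v (Hu.cj g) h1 hU t
    obtain ⟨m, hm⟩ := hg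
    have t2 : P + P ∈ Fv v h.two _ h1 hU := .inr (by
      rw [xc_two h.two, map_pow]; exact lt_self_pow₀ hP (by norm_num))
    have t3 := sub_mem t1 (zsmul_mem t2 m)
    rw [h.cj_act, hm, show (2 * m + 1) • P - m • (P + P) = P by module] at t3
    exact t3.elim (ne_of_val v hP) (lt_irrefl _)
  exact le_antisymm (not_lt.1 fun t => k (.inr t)) ((h.val_ge v g hP).resolve_left fun t => k (.inl t))

/-- congruent quaternions act in the same way to a high order -/
theorem Cw.near {w : L} (h : Cw w) {g β : Hu} (hg : Odd (Hu.nm g)) {n : ℕ} (hn : n ≠ 0)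
    {P : Pt (0 : L)} (hP : 1 < v (xc P)) :
    v ((xc (h.act (g + 2 ^ n * β) P))⁻¹ - (xc (h.act g P))⁻¹) ^ 2 * v (xc P) ^ 4 ^ n ≤ 1 := by
  have e : h.act (2 ^ n * β) P = 2 ^ n • h.act β P := by
    rw [h.act_mul, ← h.act_nat]; simp
  rw [h.act_add, e]
  rcases h.val_ge v β hP with t | t
  · simp [t]
  have k : v (xc P) ^ 4 ^ n ≤ v (xc (2 ^ n • h.act β P)) := by
    rw [xc_pow h.two, map_pow]; exact pow_le_pow_left₀ zero_le t _
  have a := h.val_act v hg hP
  exact (mul_le_mul_right k _).trans (add_inf v h.two (a ▸ hP)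
    (a ▸ (lt_self_pow₀ hP (Nat.one_lt_pow hn (by norm_num))).trans_le k))

section pol
variable {k : Type} [Field k] {ι : k →+* L} (hv : ∀ a, v (ι a) ≤ 1)
include hv

theorem val_one {a : k} (h : a ≠ 0) : v (ι a) = 1 := by
  refine le_antisymm (hv a) ?_
  have := hv a⁻¹
  rwa [map_inv₀, map_inv₀, inv_le_one₀ (by simpa [pos_iff_ne_zero] using h)] at this

theorem eq_of_val {a b : k} (h : v (ι a - ι b) < 1) : a = b := by
  by_contra hc
  rw [← map_sub, val_one v hv (sub_ne_zero.2 hc)] at h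
  exact lt_irrefl _ h

theorem val_sub {ξ : L} {a : k} (h : v (ξ - ι a) < 1) (p : k[X]) :
    v (p.eval₂ ι ξ - ι (p.eval a)) < 1 := by
  have h1 : v ξ ≤ 1 := by simpa using v.map_add_le h.le (hv a)
  induction p using Polynomial.induction_on with
  | C c => simp
  | add p q hp hq =>
    rw [eval₂_add, eval_add, map_add, add_sub_add_comm]
    exact v.map_add_lt hp hq
  | monomial n c ih =>
    rw [pow_succ, ← mul_assoc, eval₂_mul, eval_mul, map_mul, eval₂_X, eval_X]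
    generalize eval₂ ι ξ (C c * X ^ n) = s at *
    generalize eval a (C c * X ^ n) = t at *
    rw [show s * ξ - ι t * ι a = (s - ι t) * ξ + ι t * (ξ - ι a) by ring]
    refine v.map_add_lt ?_ ?_ <;> rw [map_mul]
    · exact (mul_le_of_le_one_right zero_le h1).trans_lt ih
    · exact (mul_le_of_le_one_left zero_le (hv t)).trans_lt h

theorem val_unit {ξ : L} {a : k} (h : v (ξ - ι a) < 1) {p : k[X]} (hp : p.eval a ≠ 0) :
    v (p.eval₂ ι ξ) = 1 := by
  rw [← val_one v hv hp]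
  exact v.map_eq_of_sub_lt (by rw [val_one v hv hp]; exact val_sub v hv h p)

theorem val_int {ξ : L} {a : k} (h : v (ξ - ι a) < 1) (p : k[X]) : v (p.eval₂ ι ξ) ≤ 1 := by
  simpa using v.map_add_le (val_sub v hv h p).le (hv (p.eval a))

theorem val_deg {ξ : L} (h : 1 < v ξ) {p : k[X]} (hp : p ≠ 0) :
    v (p.eval₂ ι ξ) = v ξ ^ p.natDegree := by
  have x0 : ξ ≠ 0 := fun t => by simp [t] at h
  letI := invertibleOfNonzero x0
  rw [← eval₂_reverse_mul_pow, map_mul, map_pow, val_unit v hv (a := 0), one_mul]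
  · rw [map_zero, sub_zero, invOf_eq_inv, map_inv₀]
    exact inv_lt_one_of_one_lt₀ h
  · rwa [← coeff_zero_eq_eval_zero, coeff_zero_reverse, leadingCoeff_ne_zero]

end pol

end Vale.Agent.P004M.D
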