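import Vale.Agent.P004M.D.St

/-!
# P004M, route D, row HK: bases of the lattices attached to quaternions
-/

set_option autoImplicit false
set_option linter.all false

open UpperHalfPlane
open scoped Classical

noncomputable section

namespace Vale.Agent.P004M.D.Hk

open Vale.Agent.P027H Hu

theorem coef_eq {τ : ℍ} {a b a' b' : ℤ} (e : (a : ℂ) * τ + b = a' * τ + b') : a = a' ∧ b = b' := by
  have h1 := congrArg Complex.im e
  simp only [Complex.add_im, Complex.mul_im, Complex.intCast_re, Complex.intCast_im, zero_mul,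
    add_zero, coe_im] at h1
  obtain rfl : a = a' := by exact_mod_cast mul_right_cancel₀ τ.im_ne_zero h1
  exact ⟨rfl, by exact_mod_cast add_left_cancel e⟩

/-- the `l + 1` neighbours of `τ` -/
def tn (l : ℕ) (hl : 0 < l) (τ : ℍ) : Option (Fin l) → ℍ
  | none => ⟨l * τ, by simpa using mul_pos (Nat.cast_pos.2 hl) τ.im_pos⟩
  | some j => ⟨(τ + (j : ℕ)) / l, by
      simpa [Complex.div_natCast_im] using div_pos τ.im_pos (Nat.cast_pos.2 hl)⟩

/-- the second basis vectors -/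
def wo (l : ℕ) (ω : ℂ) : Option (Fin l) → ℂ
  | none => ω / l
  | some _ => ω

/-- the numerators of the new points -/
def po (l : ℕ) : Option (Fin l) → ℤ × ℤ
  | none => (0, 1)
  | some j => (1, (j : ℕ))

/-- the new points -/
def zo (l : ℕ) (ω : ℂ) (τ : ℍ) (o : Option (Fin l)) : ℂ :=
  ω * ((po l o).1 * (τ : ℂ) + (po l o).2) / l

theorem po_ne {l : ℕ} (hl : l.Prime) (o : Option (Fin l)) :
    ¬ ((l : ℤ) ∣ (po l o).1 ∧ (l : ℤ) ∣ (po l o).2) := by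
  have : ¬ (l : ℤ) ∣ 1 := fun e => hl.one_lt.ne' (by exact_mod_cast Int.eq_one_of_dvd_one (by simp) e)
  cases o
  · exact fun e => this e.2
  · exact fun e => this e.1

theorem po_inj {l : ℕ} (hl : l.Prime) {o o' : Option (Fin l)} {r : ℤ}
    (h1 : (l : ℤ) ∣ (po l o').1 - r * (po l o).1) (h2 : (l : ℤ) ∣ (po l o').2 - r * (po l o).2) :
    o' = o := by
  have k : ¬ (l : ℤ) ∣ 1 := fun e => hl.one_lt.ne' (by exact_mod_cast Int.eq_one_of_dvd_one (by simp) e)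
  rcases o with _ | j <;> rcases o' with _ | j' <;> simp only [po] at h1 h2
  · rfl
  · exact (k (by simpa using h1)).elim
  · exact (k ((dvd_sub h2 (h1.mul_right (j : ℕ))).trans (dvd_of_eq (by ring)))).elim
  · have h3 : (l : ℤ) ∣ ((j' : ℕ) : ℤ) - (j : ℕ) :=
      (dvd_sub h2 (h1.mul_right (j : ℕ))).trans (dvd_of_eq (by ring))
    have := Int.eq_zero_of_abs_lt_dvd h3 (by
      have := j.2; have := j'.2
      rw [abs_lt]; constructor <;> omega)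
    exact congrArg some (Fin.ext (by omega))

theorem po_surj {l : ℕ} (hl : l.Prime) {a b : ℤ} (h : ¬ ((l : ℤ) ∣ a ∧ (l : ℤ) ∣ b)) :
    ∃ (o : Option (Fin l)) (r : ℤ), (l : ℤ) ∣ (po l o).1 - r * a ∧ (l : ℤ) ∣ (po l o).2 - r * b := by
  have hp := Nat.prime_iff_prime_int.1 hl
  have l0 : (0 : ℤ) < l := by exact_mod_cast hl.pos
  by_cases ha : (l : ℤ) ∣ a
  · obtain ⟨x, y, e⟩ := hp.coprime_iff_not_dvd.2 fun e => h ⟨ha, e⟩
    exact ⟨none, y, by simpa [po] using ha.mul_left y, x, by simp only [po]; linear_combination -e⟩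
  · obtain ⟨x, y, e⟩ := hp.coprime_iff_not_dvd.2 ha
    have h1 := Int.emod_nonneg (y * b) l0.ne'
    have h2 := Int.emod_lt_of_pos (y * b) l0
    refine ⟨some ⟨(y * b % l).toNat, by omega⟩, y, ⟨x, by simp only [po]; linear_combination -e⟩,
      -(y * b / l), ?_⟩
    simp only [po, Int.toNat_of_nonneg h1]
    linear_combination Int.emod_add_mul_ediv (y * b) l

variable {A : ValuationSubring ℂ} {Λ : Submodule ℤ ℂ} {t : ℂ} (h : Ss A Λ t)
  (ρ : Hu →+* AddMonoid.End (Pt (0 : kk A)))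

/-- the lattice attached to `g` -/
def Kr (g : Hu) : Submodule ℤ ℂ := h.Up (ρ g : Pt (0 : kk A) →+ Pt (0 : kk A)).ker

variable {h ρ}

theorem mem_Kr {g : Hu} {z : ℂ} : z ∈ Kr h ρ g ↔ OT Λ z ∧ ρ g (h.rd z) = 0 := Iff.rfl

theorem Kr_le (α g : Hu) : Kr h ρ g ≤ Kr h ρ (α * g) := fun z hz =>
  mem_Kr.2 ⟨hz.1, by rw [rho_mul, (mem_Kr.1 hz).2, map_zero]⟩

theorem Kr_unit {u : Hu} (hu : nm u = 1) (g : Hu) : Kr h ρ (u * g) = Kr h ρ g :=
  le_antisymm (by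
    have := Kr_le (h := h) (ρ := ρ) (cj u) (u * g)
    rwa [← mul_assoc, cj_mul, hu, Int.cast_one, one_mul] at this) (Kr_le u g)

theorem Kr_one : Kr h ρ 1 = Λ :=
  le_antisymm (fun z hz => h.inj hz.1 (by simpa using (mem_Kr.1 hz).2)) (h.le_Up _)

theorem Kr_int {d : ℤ} (hd : Odd d) {g : Hu} {z : ℂ} :
    z ∈ Kr h ρ (d * g) ↔ (d : ℂ) * z ∈ Kr h ρ g := by
  rw [mem_Kr, mem_Kr, rho_mul, rho_int, h.rd_int, map_zsmul]
  refine and_congr ⟨fun e => e.int_mul d, fun e => OT.of_mul (k := d.natAbs) hd.natAbs ?_⟩ Iff.rfl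
  have := e.int_mul d.sign
  rwa [← mul_assoc, ← Int.cast_mul, Int.sign_mul_self_eq_natAbs, Int.cast_natCast] at this

section step

variable {g : Hu} {ω : ℂ} {τ : ℍ} (hb : Bs (Kr h ρ g) ω τ) {l : ℕ} (hl : l.Prime) (h2 : l ≠ 2)
include hb hl h2

theorem ot_div (a b : ℤ) : OT Λ (ω * (a * (τ : ℂ) + b) / l) :=
  OT.of_mul (hl.odd_of_ne_two h2) (by
    rw [mul_div_cancel₀ _ (Nat.cast_ne_zero.2 hl.ne_zero)]
    exact ((hb.mem _).2 ⟨a, b, rfl⟩).1)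

theorem div_zero_iff (a b : ℤ) :
    ρ g (h.rd (ω * (a * (τ : ℂ) + b) / l)) = 0 ↔ (l : ℤ) ∣ a ∧ (l : ℤ) ∣ b := by
  have l0 : (l : ℂ) ≠ 0 := Nat.cast_ne_zero.2 hl.ne_zero
  constructor
  · intro e
    obtain ⟨x, y, k⟩ := (hb.mem _).1 (mem_Kr.2 ⟨ot_div hb hl h2 a b, e⟩)
    have := coef_eq (τ := τ) (a := a) (b := b) (a' := l * x) (b' := l * y)
      (mul_left_cancel₀ hb.ne (by push_cast; field_simp at k ⊢; linear_combination k))
    exact ⟨⟨x, this.1⟩, y, this.2⟩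
  · rintro ⟨⟨x, rfl⟩, y, rfl⟩
    exact (mem_Kr.1 ((hb.mem _).2 ⟨x, y, by push_cast; field_simp⟩)).2

theorem zo_sub (o : Option (Fin l)) (r a b : ℤ) :
    ρ g (h.rd (zo l ω τ o)) = r • ρ g (h.rd (ω * (a * (τ : ℂ) + b) / l)) ↔
      (l : ℤ) ∣ (po l o).1 - r * a ∧ (l : ℤ) ∣ (po l o).2 - r * b := by
  rw [← div_zero_iff hb hl h2, ← sub_eq_zero, ← map_zsmul, ← h.rd_int, ← map_sub, ← map_sub]
  congr! 3
  rw [zo]
  push_cast
  ring

theorem zo_ne (o : Option (Fin l)) : ρ g (h.rd (zo l ω τ o)) ≠ 0 :=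
  mt (div_zero_iff hb hl h2 _ _).1 (po_ne hl o)

theorem zo_tor (o : Option (Fin l)) : l • ρ g (h.rd (zo l ω τ o)) = 0 := by
  rw [← map_nsmul, ← h.rd_nat, zo, mul_div_cancel₀ _ (Nat.cast_ne_zero.2 hl.ne_zero)]
  exact (mem_Kr.1 ((hb.mem _).2 ⟨_, _, rfl⟩)).2

theorem zo_card (o : Option (Fin l)) :
    Nat.card (AddSubgroup.zmultiples (ρ g (h.rd (zo l ω τ o)))) = l :=
  card_zm hl (zo_ne hb hl h2 o) (zo_tor hb hl h2 o)

theorem zo_zm {U : AddSubgroup (Pt (0 : kk A))} (hU : Nat.card U = l) {o : Option (Fin l)}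
    (ho : ρ g (h.rd (zo l ω τ o)) ∈ U) : AddSubgroup.zmultiples (ρ g (h.rd (zo l ω τ o))) = U :=
  eq_zm hl hU (zo_ne hb hl h2 o) ho

theorem ex_o (hg : Odd (nm g)) {U : AddSubgroup (Pt (0 : kk A))} (hU : Nat.card U = l) :
    ∃! o, ρ g (h.rd (zo l ω τ o)) ∈ U := by
  haveI : Finite U := Nat.finite_of_card_ne_zero (hU ▸ hl.ne_zero)
  have lo := hl.odd_of_ne_two h2
  have l0 : (l : ℂ) ≠ 0 := Nat.cast_ne_zero.2 hl.ne_zero
  obtain ⟨P, PU, P0⟩ := ex_ne (U := U) (hU ▸ hl.one_lt.ne')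
  have P1 : l • P = 0 := by
    rw [← hU, ← eq_zm hl hU P0 PU, Nat.card_zmultiples, addOrderOf_nsmul_eq_zero]
  obtain ⟨n, hn⟩ := Int.eq_ofNat_of_zero_le (nm_nonneg g)
  have no : Odd n := by rwa [hn, Int.odd_coe_nat] at hg
  have n0 : (n : ℂ) ≠ 0 := Nat.cast_ne_zero.2 no.pos.ne'
  obtain ⟨z₁, k1, k2⟩ := h.surj_odd lo P1
  obtain ⟨z, k3, k4⟩ := h.surj_odd (lo.mul no) (P := ρ (cj g) (h.rd (z₁ / n))) (by
    rw [← map_nsmul, ← h.rd_nat, h.rd_mem (mem_of_eq k1 (by push_cast; field_simp)), map_zero])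
  have k5 : ρ g (h.rd z) = P := by
    rw [k4, ← rho_mul, mul_cj, rho_int, ← h.rd_int, hn, Int.cast_natCast, mul_div_cancel₀ _ n0, k2]
  obtain ⟨a, b, e⟩ := (hb.mem (l * z)).1 (mem_Kr.2 ⟨OT.nat_mul ⟨_, lo.mul no, k3⟩ l, by
    rw [h.rd_nat, map_nsmul, k5, P1]⟩)
  have e' : ω * (a * (τ : ℂ) + b) / l = z := by rw [← e, mul_div_cancel_left₀ _ l0]
  obtain ⟨o, r, k6⟩ := po_surj hl (mt (div_zero_iff hb hl h2 a b).2 (by
    rw [e', k5]; exact P0))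
  have k7 : ρ g (h.rd (zo l ω τ o)) ∈ U := by
    rw [(zo_sub hb hl h2 o r a b).2 k6, e', k5]
    exact zsmul_mem PU r
  refine ⟨o, k7, fun o' k8 => ?_⟩
  rw [← zo_zm hb hl h2 hU k7] at k8
  obtain ⟨r', k9⟩ := AddSubgroup.mem_zmultiples_iff.1 k8
  obtain ⟨m1, m2⟩ := (zo_sub hb hl h2 o' r' _ _).1 k9.symm
  exact po_inj hl m1 m2

theorem bs_step {α : Hu} (hα : Nat.card (ρ α : Pt (0 : kk A) →+ Pt (0 : kk A)).ker = l)
    {o : Option (Fin l)} (ho : ρ α (ρ g (h.rd (zo l ω τ o))) = 0) :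
    Bs (Kr h ρ (α * g)) (wo l ω o) (tn l hl.pos τ o) := by
  have l0 : (l : ℂ) ≠ 0 := Nat.cast_ne_zero.2 hl.ne_zero
  have k1 : zo l ω τ o ∈ Kr h ρ (α * g) :=
    mem_Kr.2 ⟨ot_div hb hl h2 _ _, (rho_mul ρ _ _ _).trans ho⟩
  have k2 : ∀ a b : ℤ, ω * (a * (τ : ℂ) + b) ∈ Kr h ρ (α * g) := fun a b =>
    Kr_le α g ((hb.mem _).2 ⟨a, b, rfl⟩)
  refine ⟨by cases o; exacts [div_ne_zero hb.ne l0, hb.ne], fun z => ⟨fun hz => ?_, ?_⟩⟩
  · have k3 : ρ g (h.rd z) ∈ (ρ α : Pt (0 : kk A) →+ Pt (0 : kk A)).ker :=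
      (rho_mul ρ _ _ _).symm.trans (mem_Kr.1 hz).2
    rw [← zo_zm hb hl h2 hα ho] at k3
    obtain ⟨r, k4⟩ := AddSubgroup.mem_zmultiples_iff.1 k3
    obtain ⟨a, b, e⟩ := (hb.mem (z - r * zo l ω τ o)).1 (mem_Kr.2 ⟨hz.1.sub (k1.1.int_mul r), by
      rw [map_sub, map_sub, h.rd_int, map_zsmul, k4, sub_self]⟩)
    rw [sub_eq_iff_eq_add] at e
    rcases o with _ | j
    · refine ⟨a, l * b + r, ?_⟩
      simp only [e, zo, po, wo, tn, coe_mk_subtype]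
      push_cast
      field_simp
      ring
    · refine ⟨r + l * a, b - a * (j : ℕ), ?_⟩
      simp only [e, zo, po, wo, tn, coe_mk_subtype]
      push_cast
      field_simp
      ring
  · rintro ⟨a, b, rfl⟩
    rcases o with _ | j
    · refine mem_of_eq (add_mem (k2 a 0) (int_mul_mem b k1)) ?_
      simp only [zo, po, wo, tn, coe_mk_subtype]
      push_cast
      field_simp
      ring
    · refine mem_of_eq (add_mem (k2 0 b) (int_mul_mem a k1)) ?_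
      simp only [zo, po, wo, tn, coe_mk_subtype]
      push_cast
      field_simp
      ring

theorem sum_step (hg : Odd (nm g)) {T : Type*} [AddCommMonoid T] (F : Hu → T)
    (G : Option (Fin l) → T) (e : ∀ α ∈ Rp l, ∀ o,
      Bs (Kr h ρ (α * g)) (wo l ω o) (tn l hl.pos τ o) → zo l ω τ o ∈ Kr h ρ (α * g) →
        F α = G o) : ∑ α ∈ Rp l, F α = ∑ o, G o := by
  have L := lines ρ hl h2 (h.card_tors (hl.odd_of_ne_two h2))
  have c : ∀ α ∈ Rp l, Nat.card (ρ α : Pt (0 : kk A) →+ Pt (0 : kk A)).ker = l :=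
    fun α hα => L.1 hα
  choose o o1 o2 using fun α hα => ex_o hb hl h2 hg (c α hα)
  refine Finset.sum_bij o (fun _ _ => Finset.mem_univ _) (fun α hα β hβ k => L.2.1 hα hβ ?_)
    (fun x _ => ?_) fun α hα => e α hα _ (bs_step hb hl h2 (c α hα) (o1 α hα))
      (mem_Kr.2 ⟨ot_div hb hl h2 _ _, (rho_mul ρ _ _ _).trans (o1 α hα)⟩)
  · exact (zo_zm hb hl h2 (c α hα) (o1 α hα)).symm.trans
      (zo_zm hb hl h2 (c β hβ) (k ▸ o1 β hβ))
  · obtain ⟨α, hα, k⟩ := L.2.2 (zo_card hb hl h2 x)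
    exact ⟨α, hα, (o2 α hα x (by
      have k' : (ρ α : Pt (0 : kk A) →+ Pt (0 : kk A)).ker = _ := k
      rw [k']
      exact AddSubgroup.mem_zmultiples _)).symm⟩

end step

end Vale.Agent.P004M.D.Hk
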