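import Vale.Agent.P004M.D.Hk1

/-!
# P004M, route D, row HK: the Hecke operator on values, congruences
-/

set_option autoImplicit false
set_option linter.all false

open UpperHalfPlane CongruenceSubgroup
open scoped MatrixGroups ModularForm Real Classical

noncomputable section

namespace Vale.Agent.P004M.D.Hk

open Vale.Agent.P022 Vale.Agent.P022.H218.L3 Vale.Agent.P022K.UC Vale.Agent.P027H Hu

variable {A : ValuationSubring ℂ}

theorem ex_ok : ∃ A, Ok A := by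
  obtain ⟨i⟩ := P022D.V.emb ℚ_[2] (PadicInt.subring 2) fun x => Iff.rfl
  exact ⟨i.A, inv_inv (2 : ℂ) ▸ inv_lt i.two, i.arch⟩

/-- congruences of integral elements -/
structure Cn (A : ValuationSubring ℂ) (i : ℕ) (x y : ℂ) : Prop where
  l : x ∈ A
  r : y ∈ A
  le : A.valuation (x - y) ≤ A.valuation 2 ^ i

theorem Cn.rfl {i : ℕ} {x : ℂ} (h : x ∈ A) : Cn A i x x := ⟨h, h, by simp⟩

theorem val_mul_le {x y : ℂ} {e : A.ValueGroup} (hx : x ∈ A) (hy : A.valuation y ≤ e) :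
    A.valuation (x * y) ≤ e := by
  rw [map_mul]
  exact (mul_le_of_le_one_left' ((A.valuation_le_one_iff _).2 hx)).trans hy

theorem Cn.mul {i : ℕ} {x y x' y' : ℂ} (h : Cn A i x y) (h' : Cn A i x' y') :
    Cn A i (x * x') (y * y') := ⟨mul_mem h.l h'.l, mul_mem h.r h'.r, by
  rw [show x * x' - y * y' = x * (x' - y') + y' * (x - y) by ring]
  exact A.valuation.map_add_le (val_mul_le h.l h'.le) (val_mul_le h'.r h.le)⟩

theorem Cn.pow {i : ℕ} {x y : ℂ} (h : Cn A i x y) (n : ℕ) : Cn A i (x ^ n) (y ^ n) := by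
  induction n with
  | zero => simpa using Cn.rfl (one_mem A)
  | succ n ih => simpa only [pow_succ] using ih.mul h

theorem inv_odd (h2 : A.valuation 2 < 1) {n : ℤ} (hn : Odd n) : (n : ℂ)⁻¹ ∈ A :=
  (A.valuation_le_one_iff _).1 (by rw [map_inv₀, val_odd h2 hn, inv_one])

theorem Cn.inv (h2 : A.valuation 2 < 1) {i : ℕ} {n n' : ℤ} (hn : Odd n) (hn' : Odd n')
    (e : 2 ^ i ∣ n' - n) : Cn A i (n : ℂ)⁻¹ (n' : ℂ)⁻¹ := ⟨inv_odd h2 hn, inv_odd h2 hn', by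
  obtain ⟨k, hk⟩ := e
  have n0 : (n : ℂ) ≠ 0 := Int.cast_ne_zero.2 (by rintro rfl; simp at hn)
  have n1 : (n' : ℂ) ≠ 0 := Int.cast_ne_zero.2 (by rintro rfl; simp at hn')
  have : (n' : ℂ) - n = 2 ^ i * k := by exact_mod_cast hk
  rw [show (n : ℂ)⁻¹ - (n' : ℂ)⁻¹ = ((n : ℂ)⁻¹ * (n' : ℂ)⁻¹ * k) * 2 ^ i by
    field_simp; linear_combination this]
  exact val_mul_le (mul_mem (mul_mem (inv_odd h2 hn) (inv_odd h2 hn')) (intCast_mem A k))
    (map_pow _ _ _).le⟩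

theorem ok_pow (h : Ok A) {t : ℂ} (h1 : A.valuation t < 1) (i : ℕ) :
    ∃ n, A.valuation t ^ n ≤ A.valuation 2 ^ i := by
  by_cases t0 : t = 0
  · exact ⟨1, by simp [t0]⟩
  have v0 : 0 < A.valuation t := zero_lt_iff.2 ((map_ne_zero _).2 t0)
  obtain ⟨m, hm⟩ := h.arch t⁻¹ (2 ^ i) (by
    rw [← A.valuation_le_one_iff, map_inv₀, not_le]
    exact (one_lt_inv₀ v0).2 h1) (pow_ne_zero _ two_ne_zero)
  rw [← A.valuation_le_one_iff, not_le, map_mul, map_pow, map_pow, map_inv₀, inv_pow,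
    ← div_eq_mul_inv, one_lt_div₀ (pow_pos v0 m)] at hm
  exact ⟨m, hm.le⟩

theorem vl_mul (k : ℕ) (f : ℍ → ℂ) {c : ℂ} (hc : c ≠ 0) (ω : ℂ) (τ : ℍ) :
    vl k f ω τ = c ^ k * vl k f (c * ω) τ := by
  rw [vl, vl, ← mul_assoc, ← mul_pow]
  congr 2
  rw [div_eq_mul_inv, div_eq_mul_inv, mul_inv]
  field_simp

theorem tFun_apply {M k : ℕ} (l : PA M) {H : ℍ → ℂ} (hH : IsMF (Gamma0 M) (k : ℤ) H) (ω : ℂ)
    (τ : ℍ) : ∑ o, vl k H (wo l.1 ω o) (tn l.1 l.2.1.pos τ o) =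
      l.1 * vl k (tFun M k l H) ω τ := by
  have l0 : (l.1 : ℂ) ≠ 0 := Nat.cast_ne_zero.2 l.2.1.ne_zero
  have l1 : (0 : ℚ) < l.1 := Nat.cast_pos.2 l.2.1.pos
  have e1 : ∀ j : Fin l.1, (H ∣[(k : ℤ)] up l.1 l.2.1.ne_zero j) τ =
      (l.1 : ℂ)⁻¹ * H (tn l.1 l.2.1.pos τ (some j)) := fun j => by
    obtain ⟨τ', a, b⟩ := H783.slash_tri (f := H) (a := 1) (b := (j : ℕ)) (d := l.1)
      (by simpa using l.2.1.ne_zero) one_pos l1 k τ
    rw [up, b, show τ' = tn l.1 l.2.1.pos τ (some j) from UpperHalfPlane.ext (by simpa [tn] using a)]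
    congr 1
    simp only [Rat.cast_one, one_mul, Rat.cast_natCast]
    rw [← zpow_add₀ l0, ← zpow_neg_one]
    congr 1
    ring
  have e2 : (H ∣[(k : ℤ)] dn l.1 l.2.1.ne_zero) τ =
      (l.1 : ℂ)⁻¹ * (l.1 : ℂ) ^ k * H (tn l.1 l.2.1.pos τ none) := by
    obtain ⟨τ', a, b⟩ := H783.slash_tri (f := H) (a := l.1) (b := 0) (d := 1)
      (by simpa using l.2.1.ne_zero) l1 one_pos k τ
    rw [dn, b, show τ' = tn l.1 l.2.1.pos τ none from UpperHalfPlane.ext (by simpa [tn] using a)]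
    congr 1
    simp only [Rat.cast_one, mul_one, Rat.cast_natCast, one_zpow]
    rw [zpow_sub_one₀ l0, zpow_natCast, mul_comm]
  simp only [Fintype.sum_option, vl, tFun, dFun, hH.slash _ (H783.gd_mem l.coprime), Pi.add_apply,
    Finset.sum_apply, e1, e2, wo, ← Finset.mul_sum]
  rw [div_div_eq_mul_div, mul_div_right_comm, mul_pow]
  field_simp
  ring

/-- the Hecke operator on integral forms of level `Γ₀(M)` -/
theorem fm_tl {M k : ℕ} [NeZero M] (l : PA M) {H : ℍ → ℂ} {c : ℕ → ℂ}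
    (h : IsMF (Gamma0 M) (k + 1 : ℕ) H) (hs : Sm c H) :
    IsMF (Gamma0 M) (k + 1 : ℕ) (tFun M (k + 1) l H) ∧
      Sm (fun n => c (l.1 * n) + if l.1 ∣ n then (l.1 : ℂ) ^ k * c (n / l.1) else 0)
        (tFun M (k + 1) l H) := by
  let f : MF M (k + 1) := Ab.toMF (h.mono (Gamma1_in_Gamma0 M))
  have e : ∀ s (hs : s ∈ Gamma0 M), H783.slG0 hs (k + 1) f = f := fun s hs =>
    DFunLike.coe_injective ((H783.slG0_coe hs _ f).trans (h.slash s hs))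
  rw [show tFun M (k + 1) l H = H783.Tl (k + 1) l f from (H783.Tl_coe _ l f).symm]
  refine ⟨⟨(H783.Tl (k + 1) l f).holo', fun s hs => ?_,
    fun γ => ModularFormClass.bdd_at_infty_slash _ γ⟩, fun τ => ?_⟩
  · rw [← H783.slG0_coe hs, ← H783.Tl_slG0, e]
  · have := H783.hasSum_Tl (k + 1) l (f := f) (c := c) (c' := c) hs (by
      rw [H783.dia, e]; exact hs) τ
    rwa [show ((k + 1 : ℕ) : ℤ) - 1 = k by simp, zpow_natCast] at this

theorem fm_eig {M m i : ℕ} [NeZero M] (l : PA M) {H : ℍ → ℂ} {c : ℕ → ℂ} {b : ℂ}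
    (h : Fm A M (2 * m + 2) H c) (e : ∀ n, A.valuation (c (l.1 * n) +
      (if l.1 ∣ n then (l.1 : ℂ) ^ (2 * m + 1) * c (n / l.1) else 0) - b * c n) ≤
        A.valuation 2 ^ i) :
    ∃ G d, Fm A M (2 * m + 2) G d ∧ ∀ τ, tFun M (2 * m + 2) l H τ = b * H τ + 2 ^ i * G τ := by
  obtain ⟨h1, h2⟩ := fm_tl (k := 2 * m + 1) l h.mf h.sm
  have t0 : (2 : ℂ) ^ i ≠ 0 := pow_ne_zero _ two_ne_zero
  refine ⟨((2 : ℂ) ^ i)⁻¹ • (tFun M (2 * m + 2) l H - b • H), fun n => ((2 : ℂ) ^ i)⁻¹ * (c (l.1 * n) +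
      (if l.1 ∣ n then (l.1 : ℂ) ^ (2 * m + 1) * c (n / l.1) else 0) - b * c n),
    ⟨(h1.sub (h.mf.smul b)).smul _, fun τ => ?_, fun n => ?_⟩, fun τ => ?_⟩
  · have := ((h2 τ).sub ((h.sm τ).mul_left b)).mul_left ((2 : ℂ) ^ i)⁻¹
    refine this.congr_fun fun n => ?_
    simp only [smul_eq_mul]
    ring
  · rw [← A.valuation_le_one_iff, map_mul, map_inv₀, map_pow, inv_mul_le_iff₀
      (pow_pos (zero_lt_iff.2 ((map_ne_zero _).2 two_ne_zero)) _), mul_one]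
    exact e n
  · simp only [Pi.smul_apply, Pi.sub_apply, smul_eq_mul]
    field_simp
    ring

theorem fac {l : ℕ} (hl : l.Prime) (h2 : l ≠ 2) {g : Hu} (h : (l : ℤ) ∣ nm g) :
    ∃ α β, nm α = l ∧ g = α * β := by
  obtain ⟨α, hα⟩ := Finset.card_pos.1 (by
    rw [count hl h2 (δ := cj g) (by rwa [nm_cj])]
    split_ifs <;> omega)
  obtain ⟨a1, β, a2⟩ := Finset.mem_filter.1 hα
  exact ⟨cj α, cj β, by rw [nm_cj, Rp_nm a1], by rw [← cj_mul_rev, ← a2, cj_cj]⟩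

theorem nm_sub (x y : Hu) (d : ℤ) : d ∣ nm (x + d * y) - nm x :=
  ⟨nm (x + y) - nm x - nm y + d * nm y, by simp [nm_def]; ring⟩

theorem cp_odd {M : ℕ} {x : Hu} (h : Cp M x) : Odd (nm x) :=
  Int.isCoprime_two_right.1 h.of_mul_right_left

end Vale.Agent.P004M.D.Hk
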