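import Vale.Agent.P004M.D.Hk2

/-!
# P004M, route D, row HK: the eigenfunctions
-/

set_option autoImplicit false
set_option linter.all false

open UpperHalfPlane CongruenceSubgroup
open scoped MatrixGroups ModularForm Real Classical

noncomputable section

namespace Vale.Agent.P004M.D

open Vale.Agent.P022 Vale.Agent.P022.H218.L3 Vale.Agent.P022K.UC Vale.Agent.P027H Hu

namespace Hk

variable {A : ValuationSubring ℂ} {Λ : Submodule ℤ ℂ} {t : ℂ} (h : Ss A Λ t)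
  (ρ : Hu →+* AddMonoid.End (Pt (0 : kk A))) (M : ℕ) (ω₀ : ℂ)

/-- bases adapted to the level structure -/
def Bz (g : Hu) (ω : ℂ) (τ : ℍ) : Prop := Bs (Kr h ρ g) ω τ ∧
  ∃ u : ℤ, IsCoprime u M ∧ ρ g (h.rd (ω / M)) = u • ρ g (h.rd (ω₀ / M))

/-- the normalised value -/
def nv (m : ℕ) (H : ℍ → ℂ) (g : Hu) (ω : ℂ) (τ : ℍ) : ℂ :=
  ((nm g : ℤ) : ℂ)⁻¹ ^ (m + 1) * vl (2 * m + 2) H ω τ

variable {h ρ M ω₀}

theorem bs_mem {L : Submodule ℤ ℂ} {ω : ℂ} {τ : ℍ} (b : Bs L ω τ) : ω ∈ L :=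
  (b.mem _).2 ⟨0, 1, by simp⟩

theorem Bz.up (hM : M ≠ 0) {g α : Hu} {ω ω' : ℂ} {τ τ' : ℍ} (b : Bz h ρ M ω₀ g ω τ)
    (b' : Bs (Kr h ρ (α * g)) ω' τ') {e : ℤ} (he : IsCoprime e M) (k : ω = e * ω') :
    Bz h ρ M ω₀ (α * g) ω' τ' := by
  obtain ⟨u, u1, u2⟩ := b.2
  obtain ⟨x, y, k1⟩ := he
  have M0 : (M : ℂ) ≠ 0 := Nat.cast_ne_zero.2 hM
  have k2 : (x : ℂ) * e + y * M = 1 := by exact_mod_cast k1
  refine ⟨b', x * u, IsCoprime.mul_left ⟨e, y, by linear_combination k1⟩ u1, ?_⟩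
  rw [show ω' / M = x * (ω / M) + y * ω' by rw [k]; field_simp; linear_combination -ω' * k2, map_add,
    map_add, h.rd_int, h.rd_int, map_zsmul, map_zsmul, (mem_Kr.1 (bs_mem b')).2, smul_zero, add_zero,
    rho_mul, u2, map_zsmul, ← rho_mul, mul_smul]

theorem cp_prime {l : ℕ} (hl : l.Prime) (k : ¬ l ∣ 2 * M) : l ≠ 2 ∧ IsCoprime (l : ℤ) (2 * M) :=
  ⟨fun e => k (e ▸ dvd_mul_right _ _), by
    exact_mod_cast Nat.isCoprime_iff_coprime.2 (hl.coprime_iff_not_dvd.2 k)⟩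

theorem Bz.step (hM : M ≠ 0) {g α : Hu} {ω : ℂ} {τ : ℍ} (b : Bz h ρ M ω₀ g ω τ) {l : ℕ}
    (hl : l.Prime) (k : ¬ l ∣ 2 * M) {o : Option (Fin l)}
    (b' : Bs (Kr h ρ (α * g)) (wo l ω o) (tn l hl.pos τ o)) :
    Bz h ρ M ω₀ (α * g) (wo l ω o) (tn l hl.pos τ o) := by
  cases o
  · exact b.up hM b' (cp_prime hl k).2.of_mul_right_right
      (mul_div_cancel₀ _ (Nat.cast_ne_zero.2 hl.ne_zero)).symm
  · exact b.up hM b' isCoprime_one_left (by simp [wo])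

theorem bz_one {τ₀ : ℍ} (b : Bs Λ ω₀ τ₀) : Bz h ρ M ω₀ 1 ω₀ τ₀ :=
  ⟨Kr_one.symm ▸ b, 1, isCoprime_one_left, (one_smul _ _).symm⟩

theorem ex_bz (hM : M ≠ 0) {τ₀ : ℍ} (b : Bs Λ ω₀ τ₀) (g : Hu) (hg : Cp M g) :
    ∃ ω τ, Bz h ρ M ω₀ g ω τ := by
  have b1 : Bz h ρ M ω₀ 1 ω₀ τ₀ := bz_one b
  obtain ⟨n, hn⟩ := Int.eq_ofNat_of_zero_le (nm_nonneg g)
  induction n using Nat.strong_induction_on generalizing g with
  | _ n ih =>
    by_cases h1 : n = 1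
    · subst h1
      exact ⟨ω₀, τ₀, mul_one g ▸ b1.up hM ((Kr_unit hn 1).symm ▸ b1.1) isCoprime_one_left (by simp)⟩
    obtain ⟨l, hl, k⟩ := Nat.exists_prime_and_dvd h1
    have k1 : (l : ℤ) ∣ nm g := hn ▸ Int.natCast_dvd_natCast.2 k
    have k2 : ¬ l ∣ 2 * M := hl.coprime_iff_not_dvd.1 (Nat.isCoprime_iff_coprime.1 (by
      exact_mod_cast hg.of_isCoprime_of_dvd_left k1))
    have l2 := (cp_prime hl k2).1
    obtain ⟨α, β, a1, rfl⟩ := fac hl l2 k1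
    have hβ : Cp M β := by
      rw [Cp, map_mul] at hg
      exact hg.of_mul_left_right
    obtain ⟨n', hn'⟩ := Int.eq_ofNat_of_zero_le (nm_nonneg β)
    have n0 : n' ≠ 0 := by
      rintro rfl
      simpa [hn'] using cp_odd hβ
    obtain ⟨ω, τ, b2⟩ := ih n' (by
      rw [map_mul, a1, hn'] at hn
      have : n = l * n' := by exact_mod_cast hn.symm
      exact this ▸ lt_mul_left (Nat.pos_of_ne_zero n0) hl.one_lt) β hβ hn'
    have c := card_ker ρ hl l2 (h.card_tors (hl.odd_of_ne_two l2)) a1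
    obtain ⟨o, ho, -⟩ := ex_o b2.1 hl l2 (cp_odd hβ) c
    exact ⟨_, _, b2.step hM hl k2 (bs_step b2.1 hl l2 c ho)⟩

section iso

variable {g : Hu} {c s : ℂ} {L : Submodule ℤ ℂ} (I : Iso h ρ g c s L) {ω : ℂ} {τ : ℍ}
include I

theorem iso_ne : c ≠ 0 := fun e => by simpa [e] using I.vc

theorem iso_bs (b : Bs (Kr h ρ g) ω τ) : Bs L (c * ω) τ :=
  ⟨mul_ne_zero (iso_ne I) b.ne, fun z => by
    have := (I.mem (z / c)).trans (mem_Kr.symm.trans (b.mem _))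
    rw [mul_div_cancel₀ _ (iso_ne I)] at this
    simp only [this, div_eq_iff (iso_ne I), mul_assoc, mul_comm _ c]⟩

theorem iso_int (hI : INT) (hA : Ok A) (hM : Odd M) {k : ℕ} {f : ℍ → ℂ} {d : ℕ → ℂ}
    (hf : Fm A M k f d) (b : Bs (Kr h ρ g) ω τ) : vl k f ω τ ∈ A := by
  rw [vl_mul k f (iso_ne I)]
  exact mul_mem (pow_mem ((A.valuation_le_one_iff _).1 I.vc.le) _)
    (hI A hA M k f d hM hf _ _ _ _ I.ss (iso_bs I b))

theorem iso_nv (m : ℕ) (H : ℍ → ℂ) : nv m H g ω τ =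
    (((nm g : ℤ) : ℂ)⁻¹ * c ^ 2) ^ (m + 1) * vl (2 * m + 2) H (c * ω) τ := by
  rw [nv, vl_mul _ H (iso_ne I)]
  ring

theorem iso_xc (hM : Odd M) (b : Bs (Kr h ρ g) ω τ) (u : ℤ) :
    xc (I.ss.rd (u * (c * ω / M))) = xc (u • ρ g (h.rd (ω / M))) := by
  rw [show u * (c * ω / M) = c * (u * (ω / M)) by ring, I.xc, h.rd_int, map_zsmul]
  exact OT.int_mul (OT.of_mul hM (by
    rw [mul_div_cancel₀ _ (Nat.cast_ne_zero.2 hM.pos.ne')]
    exact (bs_mem b).1)) u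

end iso

/-- the data of the construction -/
structure Dat (h : Ss A Λ t) (ρ : Hu →+* AddMonoid.End (Pt (0 : kk A))) (M : ℕ) (ω₀ : ℂ)
    (m j : ℕ) (H : ℍ → ℂ) : Prop where
  odd : Odd M
  ex : ∀ g, Cp M g → ∃ ω τ, Bz h ρ M ω₀ g ω τ
  int : ∀ (f : ℍ → ℂ) d g ω τ, Fm A M (2 * m + 2) f d → Cp M g → Bs (Kr h ρ g) ω τ →
    nv m f g ω τ ∈ A
  cont : ∃ n, ∀ g y ω ω' τ τ', Cp M g → Bz h ρ M ω₀ g ω τ →
    Bz h ρ M ω₀ (g + (2 ^ (n + 1) * M : ℕ) • y) ω' τ' →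
    Cn A j (nv m H g ω τ) (nv m H (g + (2 ^ (n + 1) * M : ℕ) • y) ω' τ')

theorem cp_add {g : Hu} (hg : Cp M g) (n : ℕ) (y : Hu) : Cp M (g + (2 ^ (n + 1) * M : ℕ) • y) := by
  obtain ⟨k, hk⟩ := nm_sub g y (2 ^ (n + 1) * M : ℕ)
  rw [Cp, nsmul_eq_mul, ← Int.cast_natCast, sub_eq_iff_eq_add'.1 hk,
    show ((2 ^ (n + 1) * M : ℕ) : ℤ) * k = (2 * M) * (2 ^ n * k) by push_cast; ring]
  exact hg.add_mul_left_left _

theorem dat (hI : INT) (hA : Ok A) (hM : Odd M) {τ₀ : ℍ} (b : Bs Λ ω₀ τ₀) {m j i : ℕ}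
    {H : ℍ → ℂ} {d : ℕ → ℂ} (hH : Fm A M (2 * m + 2) H d) {c s : Hu → ℂ} {L : Hu → Submodule ℤ ℂ}
    (I : ∀ g, Odd (nm g) → Iso h ρ g (c g) (s g) (L g))
    (I' : ∀ (n : ℕ) (g g' β : Hu), Odd (nm g) → Odd (nm g') → g - g' = 2 ^ (n + 2) * β →
      A.valuation (s g - s g') ≤ A.valuation t ^ (n + 1) ∧
      A.valuation (c g ^ 2 - c g' ^ 2) ≤ A.valuation t ^ (n + 1))
    (lip : ∀ (Λ Λ' : Submodule ℤ ℂ) (s s' ω ω' : ℂ) (τ τ' : ℍ) (h : Ss A Λ s) (h' : Ss A Λ' s')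
      (u : ℤ), Bs Λ ω τ → Bs Λ' ω' τ' → A.valuation s = A.valuation t →
      A.valuation s' = A.valuation t → A.valuation (s - s') ≤ A.valuation 2 ^ i →
      IsCoprime u (M : ℤ) → xc (h'.rd (ω' / M)) = xc (h.rd (u * (ω / M))) →
      A.valuation (vl (2 * m + 2) H ω τ - vl (2 * m + 2) H ω' τ') ≤ A.valuation 2 ^ j) :
    Dat h ρ M ω₀ m j H := by
  refine ⟨hM, ex_bz hM.pos.ne' b, fun f d g ω τ hf hg b => mul_mem (pow_mem (inv_odd hA.two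
    (cp_odd hg)) _) (iso_int (I g (cp_odd hg)) hI hA hM hf b), ?_⟩
  obtain ⟨n, hn⟩ := ok_pow hA h.lt (i + j)
  have p : ∀ {x : ℂ} {a : ℕ}, a ≤ i + j → A.valuation x ≤ A.valuation t ^ (n + j + 1) →
      A.valuation x ≤ A.valuation 2 ^ a := fun ha e =>
    e.trans ((pow_le_pow_right_of_le_one' h.lt.le (by omega)).trans
      (hn.trans (pow_le_pow_right_of_le_one' hA.two.le ha)))
  refine ⟨n + j + 1, fun g y ω ω' τ τ' hg b1 b2 => ?_⟩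
  have o1 := cp_odd hg
  have o2 := cp_odd (cp_add hg (n + j + 1) y)
  have e1 := nm_sub g y (2 ^ (n + j + 1 + 1) * M : ℕ)
  rw [Int.cast_natCast, ← nsmul_eq_mul] at e1
  have P0 : M • h.rd (ω₀ / M) = 0 := by
    rw [← h.rd_nat, mul_div_cancel₀ _ (Nat.cast_ne_zero.2 hM.pos.ne'), h.rd_mem (bs_mem b)]
  have e2 : ρ (g + (2 ^ (n + j + 1 + 1) * M : ℕ) • y) (h.rd (ω₀ / M)) = ρ g (h.rd (ω₀ / M)) := by
    rw [map_add, map_nsmul]
    show _ + (2 ^ (n + j + 1 + 1) * M : ℕ) • ρ y _ = _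
    rw [mul_smul, ← map_nsmul, P0, map_zero, smul_zero, add_zero]
    rfl
  obtain ⟨k1, k2⟩ := I' (n + j) g _ (-(M * y)) o1 o2 (by rw [nsmul_eq_mul]; push_cast; noncomm_ring)
  generalize g + (2 ^ (n + j + 1 + 1) * M : ℕ) • y = g' at *
  have I1 := I g o1
  have I2 := I g' o2
  obtain ⟨b1, u, ⟨x, z, u1⟩, u2⟩ := b1
  obtain ⟨b2, u', u3, u4⟩ := b2
  have cA : ∀ {g c s L}, Iso h ρ g c s L → c ^ 2 ∈ A := fun I =>
    pow_mem ((A.valuation_le_one_iff _).1 I.vc.le) _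
  rw [iso_nv I1, iso_nv I2]
  refine (((Cn.inv hA.two o1 o2 (Dvd.dvd.trans ⟨2 ^ (n + 2) * M, by push_cast; ring⟩ e1)).mul
    ⟨cA I1, cA I2, p (by omega) k2⟩).pow _).mul
    ⟨hI A hA M _ H d hM hH _ _ _ _ I1.ss (iso_bs I1 b1),
      hI A hA M _ H d hM hH _ _ _ _ I2.ss (iso_bs I2 b2),
      lip _ _ _ _ _ _ _ _ I1.ss I2.ss (u' * x) (iso_bs I1 b1) (iso_bs I2 b2) I1.vs I2.vs
        (p (by omega) k1) (u3.mul_left ⟨u, z, by linear_combination u1⟩) ?_⟩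
  have := iso_xc I2 hM b2 1
  rw [Int.cast_one, one_mul, one_smul] at this
  rw [this, iso_xc I1 hM b1, u4, u2, e2, ← mul_smul,
    show u' * x * u = u' - (u' * z) * M by linear_combination u' * u1, sub_smul, mul_smul (u' * z),
    natCast_zsmul, ← map_nsmul, P0, map_zero, smul_zero, sub_zero]

/-- the multiples of `2 ^ j` -/
def Jd (A : ValuationSubring ℂ) (j : ℕ) : AddSubgroup ℂ where
  carrier := {z | A.valuation z ≤ A.valuation 2 ^ j}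
  add_mem' := fun a b => A.valuation.map_add_le a b
  zero_mem' := by simp
  neg_mem' := fun a => (A.valuation.map_neg _).trans_le a

theorem mk_eq {j : ℕ} {x y : ℂ} (e : A.valuation (x - y) ≤ A.valuation 2 ^ j) :
    QuotientAddGroup.mk' (Jd A j) x = QuotientAddGroup.mk' (Jd A j) y :=
  QuotientAddGroup.eq_iff_sub_mem.2 e

namespace Dat

variable {m j : ℕ} {H : ℍ → ℂ} (D : Dat h ρ M ω₀ m j H)

/-- the eigenfunction -/
def ps (g : Hu) : ℂ ⧸ Jd A j := if hg : Cp M g then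
  QuotientAddGroup.mk' (Jd A j) (nv m H g (D.ex g hg).choose (D.ex g hg).choose_spec.choose) else 0

theorem ps_eq {g : Hu} (hg : Cp M g) {ω : ℂ} {τ : ℍ} (b : Bz h ρ M ω₀ g ω τ) :
    D.ps g = QuotientAddGroup.mk' (Jd A j) (nv m H g ω τ) := by
  obtain ⟨n, hn⟩ := D.cont
  have := hn g 0 _ ω _ τ hg (D.ex g hg).choose_spec.choose_spec
  rw [smul_zero, add_zero] at this
  rw [ps, dif_pos hg]
  exact mk_eq (this b).le

theorem eig {d : ℕ → ℂ} (hH : Fm A M (2 * m + 2) H d) {a : ℕ → ℤ} {ι : Type} {p : ι → ℕ}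
    (hp : ∀ i, (p i).Prime ∧ ¬ p i ∣ 2 * M)
    (e : ∀ l : ℕ, l.Prime → ¬ l ∣ 2 * M → ∀ n : ℕ, A.valuation (d (l * n) +
      (if l ∣ n then (l : ℂ) ^ (2 * m + 1) * d (n / l) else 0) - (l : ℂ) ^ m * a l * d n) ≤
        A.valuation 2 ^ j) : Eig M (fun i => Rp (p i)) (fun i => a (p i)) D.ps := by
  have M0 := D.odd.pos.ne'
  haveI := NeZero.mk M0
  have z : ∀ x ∈ A, QuotientAddGroup.mk' (Jd A j) (2 ^ j * x) = 0 := fun x hx =>
    (mk_eq (y := 0) (by rw [sub_zero, mul_comm]; exact val_mul_le hx (map_pow _ _ _).le)).trans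
      (map_zero _)
  refine ⟨⟨j, fun x => ?_⟩, ?_, fun u x hu hx => ?_, fun k x hk hx => ?_, fun i x hx => ?_⟩
  · by_cases hx : Cp M x
    · obtain ⟨ω, τ, b⟩ := D.ex x hx
      rw [D.ps_eq hx b, ← map_nsmul, nsmul_eq_mul, Nat.cast_pow, Nat.cast_ofNat]
      exact z _ (D.int H d x ω τ hH hx b.1)
    · rw [ps, dif_neg hx, smul_zero]
  · obtain ⟨n, hn⟩ := D.cont
    refine ⟨n + 1, fun x y hx => ?_⟩
    obtain ⟨ω, τ, b⟩ := D.ex x hx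
    obtain ⟨ω', τ', b'⟩ := D.ex _ (cp_add hx n y)
    rw [D.ps_eq hx b, D.ps_eq (cp_add hx n y) b']
    exact (mk_eq (hn x y _ _ _ _ hx b b').le).symm
  · obtain ⟨ω, τ, b⟩ := D.ex x hx
    rw [D.ps_eq hx b, D.ps_eq (Cp.mul (hu ▸ isCoprime_one_left : IsCoprime (nm u) _) hx)
      (b.up M0 ((Kr_unit hu x).symm ▸ b.1) isCoprime_one_left (by simp)), nv, nv, map_mul nm, hu,
      one_mul]
  · obtain ⟨ω, τ, b⟩ := D.ex x hx
    have ko : Odd k := Int.isCoprime_two_right.1 hk.of_mul_right_left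
    have k0 : (k : ℂ) ≠ 0 := Int.cast_ne_zero.2 (by rintro rfl; simp at ko)
    have b' : Bs (Kr h ρ (k * x)) (ω / k) τ := ⟨div_ne_zero b.1.ne k0, fun z => by
      rw [Kr_int ko, b.1.mem]
      simp only [div_mul_eq_mul_div, eq_div_iff k0, mul_comm z]⟩
    rw [zsmul_eq_mul, D.ps_eq hx b, D.ps_eq (Cp.mul (by rw [Cp, nm_int]; exact hk.pow_left) hx)
      (b.up M0 b' hk.of_mul_right_right (mul_div_cancel₀ _ k0).symm), nv, nv, map_mul nm, nm_int,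
      vl_mul _ H k0 (ω / k), mul_div_cancel₀ _ k0]
    congr 1
    push_cast
    rw [mul_inv, mul_pow, inv_pow, ← pow_mul, show 2 * (m + 1) = 2 * m + 2 by ring]
    field_simp
  · obtain ⟨ω, τ, b⟩ := D.ex x hx
    obtain ⟨hl, k⟩ := hp i
    generalize p i = l at hl k
    obtain ⟨l2, lc⟩ := cp_prime hl k
    have l0 : (l : ℂ) ≠ 0 := Nat.cast_ne_zero.2 hl.ne_zero
    obtain ⟨G, d', g1, g2⟩ := fm_eig ⟨l, hl, k⟩ hH (e l hl k)
    rw [sum_step b.1 hl l2 (cp_odd hx) _ (fun o => QuotientAddGroup.mk' (Jd A j)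
      (((l : ℂ)⁻¹ * ((nm x : ℤ) : ℂ)⁻¹) ^ (m + 1) * vl (2 * m + 2) H (wo l ω o) (tn l hl.pos τ o)))
      fun α hα o b' _ => by
        rw [D.ps_eq (Cp.mul (by rw [Cp, Rp_nm hα]; exact lc) hx) (b.step M0 hl k b'), nv, map_mul nm,
          Rp_nm hα, Int.cast_mul, mul_inv, Int.cast_natCast], ← map_sum, ← Finset.mul_sum,
      tFun_apply ⟨l, hl, k⟩ hH.mf, D.ps_eq hx b, ← map_zsmul, ← sub_eq_zero, ← map_sub,
      ← z (((l : ℤ) : ℂ)⁻¹ ^ m * nv m G x ω τ) (mul_mem (pow_mem (inv_odd h.two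
        (by exact_mod_cast hl.odd_of_ne_two l2)) _) (D.int G d' x ω τ g1 hx b.1))]
    congr 1
    simp only [nv, vl, g2, zsmul_eq_mul, Int.cast_natCast, mul_pow, inv_pow]
    field_simp
    ring

end Dat

end Hk

open Hk in
/-- **HK** -/
theorem hk (h0 : D0) (hI : INT) (hN : NZ) (hL : LIP) (hG : GEO) : HK := by
  intro N _ a hN' ha ι p hp j
  obtain ⟨A, hA⟩ := ex_ok
  have hM : Odd (N ^ 3) := hN'.pow
  obtain ⟨m, H, d, hH, d1, e⟩ := h0 A hA N a hN' ha (j + 1)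
  obtain ⟨Z, hZ⟩ := hL A hA _ hM
  obtain ⟨Λ, t, ω₀, τ₀, h, b, t1, t2, t3⟩ := hN A hA _ _ H d hM hH d1 Z
  obtain ⟨ρ, hρ⟩ := hG A hA.two
  obtain ⟨c, s, L, I, I'⟩ := hρ Λ t h t1
  obtain ⟨i, lip⟩ := hZ _ H d ⟨m + 1, by ring⟩ hH _ t2 (j + 1)
  have D := dat hI hA hM b hH I I' lip
  have c1 : Cp (N ^ 3) 1 := by rw [Cp, map_one]; exact isCoprime_one_left
  refine ⟨_, inferInstance, D.ps, D.eig hH hp fun l hl k => e l hl fun k' =>
    k (k'.trans (mul_dvd_mul_left 2 (dvd_pow_self N three_ne_zero))), 1, c1, fun k => ?_⟩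
  rw [D.ps_eq c1 (bz_one b), ← map_nsmul,
    QuotientAddGroup.mk'_apply, QuotientAddGroup.eq_zero_iff] at k
  replace k : A.valuation _ ≤ _ := k
  rw [nv, map_one, Int.cast_one, inv_one, one_pow, one_mul, nsmul_eq_mul, map_mul, Nat.cast_pow,
    Nat.cast_ofNat, map_pow, pow_succ] at k
  exact t3.not_ge (le_of_mul_le_mul_left k
    (pow_pos (zero_lt_iff.2 ((map_ne_zero _).2 two_ne_zero)) _))

end Vale.Agent.P004M.D
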