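import Vale.Agent.P004M.D.X1
import Vale.Agent.P022D.V.Irr

/-!
# P004M, route D, rows INT, NZ, LIP: values of modular forms at lattices (tools)
-/

set_option autoImplicit false
set_option linter.all false

open UpperHalfPlane hiding I
open Polynomial CongruenceSubgroup
open scoped MatrixGroups ModularForm Manifold Real

noncomputable section

namespace Vale.Agent.P004M.D.Iv

open Vale.Agent.P027H Vale.Agent.P022.H218.L3 Vale.Agent.P022.H236.L3 Vale.Agent.P022.H542.L3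
  Vale.Agent.P022D.Irr Vale.Agent.P027M.M

/-! ### valuations -/

section val
variable {A : ValuationSubring ℂ}

theorem le1 {x : ℂ} (h : x ∈ A) : A.valuation x ≤ 1 := (A.valuation_le_one_iff _).2 h

theorem mul_le_l {x y : ℂ} (h : x ∈ A) : A.valuation (x * y) ≤ A.valuation y := by
  rw [map_mul]
  exact mul_le_of_le_one_left' (le1 h)

theorem pow_sub_le {t t' : ℂ} (ht : t ∈ A) (ht' : t' ∈ A) (i : ℕ) :
    A.valuation (t ^ i - t' ^ i) ≤ A.valuation (t - t') := by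
  induction i with
  | zero => simp
  | succ i ih =>
    rw [show t ^ (i + 1) - t' ^ (i + 1) = t * (t ^ i - t' ^ i) + t' ^ i * (t - t') by ring]
    exact A.valuation.map_add_le ((mul_le_l ht).trans ih) (mul_le_l (pow_mem ht' i))

theorem eval_mem {P : ℂ[X]} (hP : ∀ i, P.coeff i ∈ A) {t : ℂ} (ht : t ∈ A) : P.eval t ∈ A := by
  rw [eval_eq_sum_range]
  exact sum_mem fun i _ => mul_mem (hP i) (pow_mem ht i)

theorem eval_sub_le {P : ℂ[X]} (hP : ∀ i, P.coeff i ∈ A) {t t' : ℂ} (ht : t ∈ A) (ht' : t' ∈ A) :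
    A.valuation (P.eval t - P.eval t') ≤ A.valuation (t - t') := by
  rw [eval_eq_sum_range, eval_eq_sum_range, ← Finset.sum_sub_distrib]
  refine A.valuation.map_sum_le fun i _ => ?_
  rw [← mul_sub]
  exact (mul_le_l (hP i)).trans (pow_sub_le ht ht' i)

theorem root_mem {α : Type} [Fintype α] (r : α → ℂ)
    (h : ∀ i < Fintype.card α, (∏ g, (X - C (r g))).coeff i ∈ A) (g : α) : r g ∈ A := by
  obtain ⟨y, hy⟩ := (IsIntegrallyClosed.isIntegral_iff (R := A) (K := ℂ)).1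
    (int_root A.toSubring r h g)
  exact hy ▸ y.2

theorem ex_pow (h2 : A.valuation 2 < 1) (hA : Arch A) (c : ℂ) : ∃ b : ℕ, 2 ^ b * c ∈ A := by
  by_cases hc : c = 0
  · exact ⟨0, by rw [hc, mul_zero]; exact A.zero_mem⟩
  obtain ⟨m, hm⟩ := hA 2⁻¹ c⁻¹ (fun h => by
    have := le1 h
    rw [map_inv₀, inv_le_one₀ (by simp [zero_lt_iff])] at this
    exact this.not_gt h2) (inv_ne_zero hc)
  refine ⟨m, (A.mem_or_inv_mem _).resolve_right ?_⟩
  rwa [mul_inv, ← inv_pow, mul_comm]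

theorem two_pos' : 0 < A.valuation 2 := by simp [zero_lt_iff]

theorem two_anti (h2 : A.valuation 2 < 1) {a b : ℕ} (h : a ≤ b) :
    A.valuation 2 ^ b ≤ A.valuation 2 ^ a := pow_le_pow_right_of_le_one' h2.le h

end val

/-! ### bases and values -/

/-- an oriented basis -/
def B (Λ : Submodule ℤ ℂ) (ω : ℂ) (τ : ℍ) : Prop :=
  ω ≠ 0 ∧ ∀ z, z ∈ Λ ↔ ∃ a b : ℤ, z = ω * (a * (τ : ℂ) + b)

/-- the value of a form -/
def w (k : ℕ) (f : ℍ → ℂ) (ω : ℂ) (τ : ℍ) : ℂ := (2 * π * Complex.I / ω) ^ k * f τ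

variable {Λ : Submodule ℤ ℂ} {t ω : ℂ} {τ : ℍ}

theorem B.lat (h : B Λ ω τ) : Λ = (P014G.mkPP ω h.1 τ).lattice := by
  ext z
  rw [h.2, PeriodPair.mem_lattice]
  refine exists_congr fun a => exists_congr fun b => ?_
  rw [eq_comm]
  exact Eq.congr_left (by simp only [P014G.mkPP]; ring)

theorem B.hom (h : B Λ ω τ) : Hom ω (P027M.M.lat τ) Λ := by
  refine ⟨h.1, fun z => ?_⟩
  rw [mem_lat, h.2]
  exact exists_congr fun a => exists_congr fun b => by rw [mul_right_inj' h.1, eq_comm]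

theorem ex_B (h : IsLat Λ) : ∃ ω τ, B Λ ω τ := by
  obtain ⟨L, rfl⟩ := h
  have hi := LinearIndependent.pair_iff.1 L.indep
  have h2 : L.ω₂ ≠ 0 := fun e => one_ne_zero (hi 0 1 (by simp [e])).2
  have h3 : (L.ω₁ / L.ω₂).im ≠ 0 := fun e => one_ne_zero (hi 1 (-(L.ω₁ / L.ω₂).re) (by
    have : ((L.ω₁ / L.ω₂).re : ℂ) = L.ω₁ / L.ω₂ := Complex.ext (by simp) (by simp [e])
    rw [one_smul, Complex.real_smul, Complex.ofReal_neg, this]
    field_simp
    ring)).1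
  rcases lt_or_gt_of_ne h3 with h4 | h4
  · refine ⟨L.ω₂, ⟨-(L.ω₁ / L.ω₂), by simpa using h4⟩, h2, fun z => ?_⟩
    rw [PeriodPair.mem_lattice]
    constructor
    · rintro ⟨a, b, rfl⟩
      exact ⟨-a, b, by simp only [coe_mk]; push_cast; field_simp⟩
    · rintro ⟨a, b, rfl⟩
      exact ⟨-a, b, by simp only [coe_mk]; push_cast; field_simp⟩
  · refine ⟨L.ω₂, ⟨L.ω₁ / L.ω₂, h4⟩, h2, fun z => ?_⟩
    rw [PeriodPair.mem_lattice]
    refine exists_congr fun a => exists_congr fun b => ?_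
    rw [eq_comm]
    exact Eq.congr_right (by simp only [coe_mk]; field_simp)

theorem den_ne (γ : SL(2, ℤ)) (τ : ℍ) : ((γ 1 0 : ℂ) * τ + γ 1 1) ≠ 0 := by
  have := denom_ne_zero (γ : GL (Fin 2) ℝ) τ
  rwa [ModularGroup.denom_apply] at this

theorem B.smul (h : B Λ ω τ) (γ : SL(2, ℤ)) : B Λ (ω * ((γ 1 0 : ℂ) * τ + γ 1 1)) (γ • τ) := by
  have hd := den_ne γ τ
  have e : ((γ • τ : ℍ) : ℂ) = ((γ 0 0 : ℂ) * τ + γ 0 1) / ((γ 1 0 : ℂ) * τ + γ 1 1) := by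
    rw [specialLinearGroup_apply]
    simp
  have hdet : (γ 0 0 : ℂ) * γ 1 1 - γ 0 1 * γ 1 0 = 1 := by exact_mod_cast det_eq γ
  refine ⟨mul_ne_zero h.1 hd, fun z => ?_⟩
  have e2 : ∀ m n : ℂ, ω * ((γ 1 0 : ℂ) * τ + γ 1 1) * (m * ((γ • τ : ℍ) : ℂ) + n) =
      ω * (m * ((γ 0 0 : ℂ) * τ + γ 0 1) + n * ((γ 1 0 : ℂ) * τ + γ 1 1)) := fun m n => by
    rw [e, mul_add, mul_assoc ω, mul_left_comm _ m, mul_div_cancel₀ _ hd]
    ring
  simp only [h.2, e2]
  constructor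
  · rintro ⟨m, n, rfl⟩
    refine ⟨m * γ 1 1 - n * γ 1 0, n * γ 0 0 - m * γ 0 1, ?_⟩
    push_cast
    linear_combination (-ω * ((m : ℂ) * τ + n)) * hdet
  · rintro ⟨m, n, rfl⟩
    refine ⟨m * γ 0 0 + n * γ 1 0, m * γ 0 1 + n * γ 1 1, ?_⟩
    push_cast
    ring

theorem w_smul (k : ℕ) (f : ℍ → ℂ) (ω : ℂ) (τ : ℍ) (γ : SL(2, ℤ)) :
    w k f (ω * ((γ 1 0 : ℂ) * τ + γ 1 1)) (γ • τ) = w k (f ∣[(k : ℤ)] γ) ω τ := by
  rw [w, w, ModularForm.SL_slash_apply, ModularGroup.denom_apply, zpow_neg, zpow_natCast,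
    ← div_div, div_pow, div_eq_mul_inv]
  ring

theorem w4 (h : Nm Λ t) (b : B Λ ω τ) : w 4 ModularForm.E₄ ω τ = t ^ 4 - 24 * t := by
  have h1 := h.e2
  rw [b.lat, g2_lat, P014G.g2_mk] at h1
  rw [w, div_pow, mul_pow, Complex.I_pow_four]
  linear_combination 12 * h1

theorem w6 (h : Nm Λ t) (b : B Λ ω τ) : w 6 ModularForm.E₆ ω τ = t ^ 6 - 36 * t ^ 3 + 216 := by
  have h1 := h.e3
  rw [b.lat, g3_lat, P014G.g3_mk] at h1
  rw [w, div_pow, mul_pow, show Complex.I ^ 6 = -1 by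
    rw [show 6 = 4 + 2 from rfl, pow_add, Complex.I_pow_four, Complex.I_sq, one_mul]]
  linear_combination (-216) * h1

theorem w12 (h : Nm Λ t) (b : B Λ ω τ) : w 12 ModularForm.discriminant ω τ = t ^ 3 - 27 := by
  have h1 := w4 h b
  have h2 := w6 h b
  have e : w 12 ModularForm.discriminant ω τ =
      (w 4 ModularForm.E₄ ω τ ^ 3 - w 6 ModularForm.E₆ ω τ ^ 2) / 1728 := by
    rw [w, w, w, ModularForm.discriminant_eq_E₄_cube_sub_E₆_sq]
    ring
  rw [e, h1, h2]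
  ring

theorem tp_ne (b : B Λ ω τ) : (2 * π * Complex.I / ω : ℂ) ≠ 0 :=
  div_ne_zero Complex.two_pi_I_ne_zero b.1

theorem jf_eq (h : Nm Λ t) (b : B Λ ω τ) : jf τ = (t ^ 4 - 24 * t) ^ 3 / (t ^ 3 - 27) := by
  rw [← w4 h b, ← w12 h b, jf, w, w, mul_pow, ← pow_mul,
    mul_div_mul_left _ _ (pow_ne_zero _ (tp_ne b))]

theorem w_wp (b : B Λ ω τ) (N : ℕ) (v : Fin 2 → ℤ) :
    w 2 (xv N v) ω τ = wp Λ (ω * zt N v τ) := by
  rw [b.hom.wp, w, xv]
  have := b.1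
  have := Complex.two_pi_I_ne_zero
  field_simp

variable {A : ValuationSubring ℂ}

theorem val_D (h : Ss A Λ t) : A.valuation (t ^ 3 - 27) = 1 := Et_Δ t ▸ h.val_Δ

theorem D_ne (h : Ss A Λ t) : t ^ 3 - 27 ≠ 0 := fun e => by simpa [e] using val_D h

theorem D_inv (h : Ss A Λ t) : (t ^ 3 - 27)⁻¹ ∈ A :=
  (A.valuation_le_one_iff _).1 (by rw [map_inv₀, val_D h, inv_one])

theorem c4_mem (h : t ∈ A) : t ^ 4 - 24 * t ∈ A :=
  sub_mem (pow_mem h 4) (mul_mem (ofNat_mem A 24) h)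

theorem jf_mem (h : Ss A Λ t) (b : B Λ ω τ) : jf τ ∈ A := by
  rw [jf_eq h.toNm b, div_eq_mul_inv]
  exact mul_mem (pow_mem (c4_mem h.mem) 3) (D_inv h)

/-! ### the characteristic polynomial -/

variable {N : ℕ} [NeZero N]

/-- evaluation -/
def ev (N : ℕ) (τ : ℍ) : WW N →+* ℂ := (Pi.evalRingHom _ τ).comp (WW N).subtype

theorem inv_poly (x : WW N) (hx : ∀ g : GG N, g • x = x) : ∃ P : ℂ[X],
    exW N x = eval₂ HahnSeries.C (exW N (jW N)) P ∧ ∀ τ, x.1 τ = P.eval (jf τ) := by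
  obtain ⟨P, hP⟩ := (dat (N := N) ⊤).inv x hx
  refine ⟨P, hP, fun τ => ?_⟩
  have h1 : exW N (x - eval₂ (cst N) (jW N) P) = 0 := by
    rw [map_sub, hP, hom_eval₂, sub_eq_zero]
    congr 1
    exact RingHom.ext fun c => ((dat (N := N) ⊤).const c).symm
  have h2 : x = eval₂ (cst N) (jW N) P := sub_eq_zero.1 (by_contra fun e =>
    (exW_spec _).ne_zero (x - eval₂ (cst N) (jW N) P).2.1 (fun e' => e (Subtype.ext e')) h1)
  exact (congrArg (ev N τ) h2).trans (hom_eval₂ P (cst N) (ev N τ) (jW N))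

theorem chi (x : WW N) : ∃ P : ℕ → ℂ[X], ∀ i,
    (∏ g : GG N, (X - C (exW N (g • x)))).coeff i = eval₂ HahnSeries.C (exW N (jW N)) (P i) ∧
    ∀ τ, (∏ g : GG N, (X - C ((g • x).1 τ))).coeff i = (P i).eval (jf τ) := by
  choose P h1 h2 using fun i => inv_poly _ (MulSemiringAction.smul_coeff_charpoly (G := GG N) x i)
  have e : ∀ {R : Type} [CommRing R] (φ : WW N →+* R) (i : ℕ),
      (∏ g : GG N, (X - C (φ (g • x)))).coeff i =
        φ ((MulSemiringAction.charpoly (GG N) x).coeff i) := fun φ i => by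
    rw [← coeff_map, MulSemiringAction.charpoly_eq, Polynomial.map_prod]
    simp
  exact ⟨P, fun i => ⟨(e _ i).trans (h1 i), fun τ => (e (ev N τ) i).trans (h2 i τ)⟩⟩

theorem map_chi {x : WW N} (hx : x ∈ BB A (GG N) (exW N)) (i : ℕ) :
    (∏ g : GG N, (X - C (exW N (g • x)))).coeff i =
      (Int A).subtype ((∏ g : GG N, (X - C (⟨_, hx g⟩ : Int A))).coeff i) := by
  rw [← coeff_map, Polynomial.map_prod]
  simp

theorem val_int {x : WW N} (hx : x ∈ BB A (GG N) (exW N)) (hj : jf τ ∈ A) : x.1 τ ∈ A := by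
  obtain ⟨P, hP⟩ := chi x
  have := root_mem (fun g : GG N => (g • x).1 τ) (fun i _ => by
    rw [(hP i).2]
    refine eval_mem (coeff_int (dat (N := N) A).pole ?_) hj
    rw [← (hP i).1, map_chi hx]
    exact Subtype.property _) 1
  rwa [one_smul] at this

/-- the function of weight zero attached to a form with an integral expansion -/
theorem ex_bb (hA : Arch A) (hu : (N : ℂ)⁻¹ ∈ A) {k : ℕ} {f : ℍ → ℂ} (hf : IsMF (Gamma N) k f)
    {s : LS} (hs : ExL 1 s f) (hi : s ∈ Int A) : ∃ x : BB A (GG N) (exW N),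
      x.1.1 = f ^ 12 / ModularForm.discriminant ^ k ∧
      ∀ n, A.valuation (s.coeff n) = 1 → rho A (GG N) (exW N) x ≠ 0 := by
  have p : 0 < 12 := by norm_num
  have h1 : IsMF (Gamma N) (k * 12) (f ^ 12) := by
    have := hf.pow 12
    rwa [mul_comm] at this
  have m := div_mem_WW h1 (disc_pow _ k) (disc_pow_ne k)
  obtain ⟨d, d0, d1⟩ := ex_disc (l := 1) one_pos
  obtain ⟨i1, -⟩ := good_red (O := A) one_pos (by simp) (pos12 (N := N)) d0
  obtain ⟨i2, -⟩ := good_red (O := A) one_pos (by simp) (pos12 (N := N)) d0.inv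
  rw [map_inv₀] at i2
  have d2 := exL_one_sb (pos12 (N := N)) d1
  have d3 : sb (N * 12) pos12 d ≠ 0 := (_root_.map_ne_zero _).2 d0.ne
  have key : ∀ (δ : SL(2, ℤ)) (u : LS), ExL (N * 12) u (f ∣[(k : ℤ)] δ) →
      exW N (pr N δ⁻¹ • ⟨_, m⟩) = u ^ 12 * (sb (N * 12) pos12 d)⁻¹ ^ k := by
    intro δ u hu
    rw [inv_pow, ← div_eq_mul_inv]
    refine exW_div (k := k * 12) m δ ?_ ?_ (pow_ne_zero _ d3)
    · have := pow_slash (k := k) f 12 δ
      rw [Nat.cast_ofNat] at this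
      rw [this]
      exact hu.pow 12
    · rw [(disc_pow ⊤ k).slash δ (Subgroup.mem_top _)]
      exact d2.pow k
  refine ⟨⟨⟨_, m⟩, fun g => ?_⟩, rfl, fun n hn e => ?_⟩
  · obtain ⟨δ, rfl⟩ := pr_surj N g
    have h2 := isMF_exL (NeZero.ne N) (T_pow_Gamma N) (conjN hf δ⁻¹)
    have h3 := key δ⁻¹ _ (exL_period p (NeZero.ne N) h2)
    rw [inv_inv] at h3
    rw [h3]
    exact mul_mem (pow_mem ((sb_int p).2 (irrL hA hu hf (exL_one_sb (NeZero.pos N) hs)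
      ((sb_int _).2 hi) δ⁻¹ h2)) _) (pow_mem i2 _)
  · have h3 := key 1 _ (by
      rw [SlashAction.slash_one]
      exact exL_one_sb pos12 hs)
    rw [inv_one, map_one, one_smul] at h3
    have i3 := (sb_int (pos12 (N := N))).2 hi
    have h4 : P022D.Irr.red A (⟨_, i3⟩ ^ 12 * ⟨_, i2⟩ ^ k) = 0 := by
      rw [← e, rho_apply]
      congr 1
      exact Subtype.ext h3.symm
    rw [map_mul, map_pow, map_pow] at h4
    rcases mul_eq_zero.1 h4 with h5 | h5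
    · have := red_zero.1 (pow_eq_zero_iff (by norm_num) |>.1 h5) ((N * 12 : ℕ) * n)
      rw [coeff_sb_mul, hn] at this
      exact lt_irrefl _ this
    · have h6 : P022D.Irr.red A (⟨_, i2⟩ * ⟨_, i1⟩) = 1 := by
        rw [← map_one (P022D.Irr.red A)]
        congr 1
        exact Subtype.ext (inv_mul_cancel₀ d3)
      rw [map_mul, eq_zero_of_pow_eq_zero h5, zero_mul] at h6
      exact zero_ne_one h6

theorem w_pow12 (h : Ss A Λ t) (b : B Λ ω τ) (k : ℕ) (f : ℍ → ℂ) :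
    A.valuation ((f ^ 12 / ModularForm.discriminant ^ k : ℍ → ℂ) τ) =
      A.valuation (w k f ω τ) ^ 12 := by
  have e : (f ^ 12 / ModularForm.discriminant ^ k : ℍ → ℂ) τ =
      w k f ω τ ^ 12 / (t ^ 3 - 27) ^ k := by
    rw [← w12 h.toNm b, w, w, mul_pow, mul_pow, ← pow_mul, ← pow_mul, mul_comm k,
      mul_div_mul_left _ _ (pow_ne_zero _ (tp_ne b))]
    rfl
  rw [e, map_div₀, map_pow, map_pow, val_D h, one_pow, div_one]

/-- **INT** -/
theorem int0 (hA : Arch A) (hu : (N : ℂ)⁻¹ ∈ A) {k : ℕ} {f : ℍ → ℂ} (hf : IsMF (Gamma N) k f)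
    {s : LS} (hs : ExL 1 s f) (hi : s ∈ Int A) (h : Ss A Λ t) (b : B Λ ω τ) : w k f ω τ ∈ A := by
  obtain ⟨x, hx, -⟩ := ex_bb hA hu hf hs hi
  have h1 := le1 (val_int x.2 (jf_mem h b))
  rw [hx, w_pow12 h b] at h1
  exact (A.valuation_le_one_iff _).1 ((pow_le_one_iff (by norm_num)).1 h1)

end Vale.Agent.P004M.D.Iv
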