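import Vale.Agent.P004M.D.Iv0

/-!
# P004M, route D, row NZ: a form with a unit coefficient has large values at supersingular points
-/

set_option autoImplicit false
set_option linter.all false

open UpperHalfPlane hiding I
open Polynomial CongruenceSubgroup
open scoped MatrixGroups ModularForm Manifold Real

noncomputable section

namespace Vale.Agent.P004M.D.Iv

open Vale.Agent.P027H Vale.Agent.P022.H218.L3 Vale.Agent.P022.H236.L3 Vale.Agent.P022.H542.L3
  Vale.Agent.P022D.Irr Vale.Agent.P027M.M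

variable {A : ValuationSubring ℂ}

theorem coeff_mem {α : Type} [Fintype α] {r : α → ℂ} (h : ∀ g, r g ∈ A) (i : ℕ) :
    (∏ g, (X - C (r g))).coeff i ∈ A := by
  have : ∏ g, (X - C (r g)) = (∏ g, (X - C (⟨_, h g⟩ : A))).map A.subtype := by
    rw [Polynomial.map_prod]
    simp
  rw [this, coeff_map]
  exact Subtype.property _

theorem deg_prod {L : Type} [CommRing L] [IsDomain L] {α : Type} [Fintype α] (r : α → L) :
    (∏ g, (X - C (r g))).natDegree = Fintype.card α := by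
  rw [natDegree_prod_of_monic _ _ fun g _ => monic_X_sub_C _]
  simp

theorem coeff_scale {α : Type} [Fintype α] (r : α → ℂ) (c : ℂ) (i : ℕ) :
    (∏ g, (X - C (r g * c))).coeff i =
      (∏ g, (X - C (r g))).coeff i * c ^ (Fintype.card α - i) := by
  rw [← scale_prod, coeff_scaleRoots, deg_prod]

theorem ex_big (h2 : A.valuation 2 < 1) {α : Type} [Fintype α] (r : α → ℂ) {i : ℕ}
    (hi : i < Fintype.card α) (h : A.valuation 2 < A.valuation ((∏ g, (X - C (r g))).coeff i)) :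
    ∃ g, A.valuation 2 < A.valuation (r g) := by
  by_contra! hc
  have e : ∀ g, r g = r g / 2 * 2 := fun g => by ring
  have m : ∀ g, r g / 2 ∈ A := fun g => by
    rw [← A.valuation_le_one_iff, map_div₀, div_le_one₀ two_pos']
    exact hc g
  refine h.not_ge ?_
  rw [Finset.prod_congr rfl fun g _ => by rw [e g], coeff_scale]
  refine (mul_le_l (coeff_mem m i)).trans ?_
  rw [map_pow]
  exact (two_anti h2 (Nat.sub_pos_of_lt hi)).trans_eq (pow_one _)

theorem ex_bound (h2 : A.valuation 2 < 1) (S : Finset ℂ) (h : ∀ a ∈ S, A.valuation a < 1) :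
    ∃ e, A.valuation e < 1 ∧ A.valuation 2 ≤ A.valuation e ∧
      ∀ a ∈ S, A.valuation a ≤ A.valuation e := by
  classical
  obtain ⟨e, h1, h3⟩ := (insert 2 S).exists_max_image A.valuation (Finset.insert_nonempty _ _)
  refine ⟨e, ?_, h3 _ (Finset.mem_insert_self _ _), fun a ha => h3 _ (Finset.mem_insert_of_mem ha)⟩
  rcases Finset.mem_insert.1 h1 with rfl | h1
  exacts [h2, h e h1]

theorem val_poly (h2 : A.valuation 2 < 1) {P : ℂ[X]} (hP : ∀ i, P.coeff i ∈ A)
    (hu : ∃ n, ¬ A.valuation (P.coeff n) < 1) : ∃ (r : ℕ) (e : ℂ), A.valuation e < 1 ∧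
      A.valuation 2 ≤ A.valuation e ∧ ∀ j, 0 < A.valuation j → A.valuation j < 1 →
        A.valuation e < A.valuation j ^ r → A.valuation (P.eval j) = A.valuation j ^ r := by
  classical
  obtain ⟨e, h1, h3, h4⟩ := ex_bound h2 ((Finset.range (Nat.find hu)).image P.coeff) fun a ha => by
    obtain ⟨i, hi, rfl⟩ := Finset.mem_image.1 ha
    exact not_not.1 (Nat.find_min hu (Finset.mem_range.1 hi))
  refine ⟨Nat.find hu, e, h1, h3, fun j j0 j1 hj => ?_⟩
  have u1 : A.valuation (P.coeff (Nat.find hu)) = 1 :=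
    le_antisymm (le1 (hP _)) (not_lt.1 (Nat.find_spec hu))
  have hm : Nat.find hu ∈ P.support := mem_support_iff.2 fun e => by
    rw [e, map_zero] at u1
    exact zero_ne_one u1
  have u2 : A.valuation (P.coeff (Nat.find hu) * j ^ Nat.find hu) =
      A.valuation j ^ Nat.find hu := by rw [map_mul, u1, one_mul, map_pow]
  rw [eval_eq_sum, Polynomial.sum, ← Finset.add_sum_erase _ _ hm,
    Valuation.map_add_eq_of_lt_left, u2]
  rw [u2]
  refine A.valuation.map_sum_lt (pow_pos j0 _).ne' fun i hi => ?_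
  rcases lt_or_gt_of_ne (Finset.ne_of_mem_erase hi) with k | k
  · rw [mul_comm]
    exact ((mul_le_l (pow_mem (mem_of_lt j1) i)).trans
      (h4 _ (Finset.mem_image_of_mem _ (Finset.mem_range.2 k)))).trans_lt hj
  · refine (mul_le_l (hP i)).trans_lt ?_
    rw [map_pow]
    exact pow_lt_pow_right_of_lt_one₀ j0 j1 k

theorem ex_root {e : ℂ} (h0 : 0 < A.valuation e) (h1 : A.valuation e < 1) (n : ℕ)
    (Z : Finset A.ValueGroup) : ∃ t, A.valuation t ∉ Z ∧ 0 < A.valuation t ∧ A.valuation t < 1 ∧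
      A.valuation e < A.valuation t ^ n := by
  choose t ht using fun m : ℕ => IsAlgClosed.exists_pow_nat_eq e (n := n + m + 1) (by omega)
  have k : ∀ m, A.valuation (t m) ^ (n + m + 1) = A.valuation e := fun m => by rw [← map_pow, ht]
  have k0 : ∀ m, 0 < A.valuation (t m) := fun m => zero_lt_iff.2 fun h => h0.ne' (by
    rw [← k m, h, zero_pow (by omega)])
  have k1 : ∀ m, A.valuation (t m) < 1 := fun m => lt_of_not_ge fun h =>
    h1.not_ge (k m ▸ one_le_pow₀ h)
  obtain ⟨_, ⟨m, rfl⟩, hm⟩ := (Set.infinite_range_of_injective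
    (f := fun m => A.valuation (t m)) fun a b h => by
      have := pow_right_injective₀ (k0 a) (k1 a).ne ((k a).trans ((k b).symm.trans
        (congrArg (· ^ (n + b + 1)) h.symm)))
      omega).exists_notMem_finset Z
  exact ⟨t m, hm, k0 m, k1 m, k m ▸ pow_lt_pow_right_of_lt_one₀ (k0 m) (k1 m) (by omega)⟩

variable {Λ : Submodule ℤ ℂ} {t ω : ℂ} {τ : ℍ}

theorem val_jf (h : Ss A Λ t) (b : B Λ ω τ) (ht : A.valuation 2 < A.valuation t) :
    A.valuation (jf τ) = A.valuation t ^ 12 := by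
  have h3 : A.valuation (3 : ℂ) = 1 := by exact_mod_cast val_odd h.two (n := 3) (by decide)
  have e : A.valuation (t ^ 3 - 2 ^ 3 * 3) = A.valuation t ^ 3 := by
    rw [Valuation.map_sub_eq_of_lt_left, map_pow]
    rw [map_mul, map_pow, map_pow, h3, mul_one]
    exact pow_lt_pow_left₀ ht zero_le' (by norm_num)
  rw [jf_eq h.toNm b, map_div₀, val_D h, div_one, map_pow,
    show t ^ 4 - 24 * t = t * (t ^ 3 - 2 ^ 3 * 3) by ring, map_mul, e, ← pow_succ', ← pow_mul]

variable {N : ℕ} [NeZero N]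

theorem unit_coeff (x : BB A (GG N) (exW N)) (h0 : rho A (GG N) (exW N) x ≠ 0) :
    ∃ (P : ℂ[X]) (i : ℕ), i < Fintype.card (GG N) ∧ (∀ n, P.coeff n ∈ A) ∧
      (∃ n, ¬ A.valuation (P.coeff n) < 1) ∧
      ∀ τ, (∏ g : GG N, (X - C ((g • x.1).1 τ))).coeff i = P.eval (jf τ) := by
  obtain ⟨P, hP⟩ := chi x.1
  have m : ∀ i, eval₂ HahnSeries.C (exW N (jW N)) (P i) ∈ Int A := fun i => by
    rw [← (hP i).1, map_chi x.2]
    exact Subtype.property _
  have m1 := fun i => coeff_int (dat (N := N) A).pole (m i)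
  by_contra hc
  obtain ⟨J1, -⟩ := (dat (N := N) A).pole
  have k : ∀ i < Fintype.card (GG N), (∏ g : GG N, (X - C (P022D.Irr.red A ⟨_, x.2 g⟩))).coeff i
      = 0 := fun i hi => by
    obtain ⟨_, Q, hQ, e⟩ := eval_int J1 (m1 i)
    have q0 : Q = 0 := Polynomial.ext fun n => by
      rw [hQ, coeff_zero, res_zero]
      by_contra hn
      exact hc ⟨P i, i, hi, m1 i, ⟨n, hn⟩, (hP i).2⟩
    rw [q0, eval₂_zero] at e
    have : ∏ g : GG N, (X - C (P022D.Irr.red A ⟨_, x.2 g⟩)) =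
        (∏ g : GG N, (X - C (⟨_, x.2 g⟩ : Int A))).map (P022D.Irr.red A) := by
      rw [Polynomial.map_prod]
      simp
    rw [this, coeff_map, ← e]
    congr 1
    exact Subtype.ext ((map_chi x.2 i).symm.trans (hP i).1)
  have e := (monic_prod_of_monic Finset.univ
    (fun g : GG N => X - C (P022D.Irr.red A ⟨_, x.2 g⟩)) fun g _ => monic_X_sub_C _).as_sum
  rw [deg_prod, Finset.sum_eq_zero fun i hi => by
    rw [k i (Finset.mem_range.1 hi), map_zero, zero_mul], add_zero] at e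
  have e2 := congrArg (eval (P022D.Irr.red A ⟨_, x.2 1⟩)) e
  rw [eval_prod, Finset.prod_eq_zero (Finset.mem_univ 1) (by simp), eval_pow, eval_X] at e2
  refine h0 (Eq.trans ?_ (eq_zero_of_pow_eq_zero e2.symm))
  rw [rho_apply]
  congr 2
  rw [one_smul]

/-- **NZ** -/
theorem nz0 (h2 : A.valuation 2 < 1) (hA : Arch A) (hu : (N : ℂ)⁻¹ ∈ A) {k : ℕ} {f : ℍ → ℂ}
    (hf : IsMF (Gamma N) k f) {s : LS} (hs : ExL 1 s f) (hi : s ∈ Int A) {n : ℤ}
    (hn : A.valuation (s.coeff n) = 1) (Z : Finset A.ValueGroup) :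
    ∃ Λ t ω τ, Ss A Λ t ∧ B Λ ω τ ∧ A.valuation 2 < A.valuation t ∧ A.valuation t ∉ Z ∧
      A.valuation 2 < A.valuation (w k f ω τ) := by
  obtain ⟨x, hx, h0⟩ := ex_bb hA hu hf hs hi
  obtain ⟨P, i, i1, p1, p2, p3⟩ := unit_coeff x (h0 n hn)
  obtain ⟨r, e, e1, e2, e3⟩ := val_poly h2 p1 p2
  obtain ⟨t, t1, t2, t3, t4⟩ := ex_root (two_pos'.trans_le e2) e1 (12 * r + 1) Z
  have t5 : A.valuation 2 < A.valuation t := e2.trans_lt (t4.trans_le
    ((pow_le_pow_right_of_le_one' t3.le (by omega)).trans_eq (pow_one _)))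
  obtain ⟨Λ, hΛ⟩ := ex_nm (t := t) fun e => by
    have h3 : A.valuation (27 : ℂ) = 1 := by exact_mod_cast val_odd h2 (n := 27) (by decide)
    rw [← e, map_pow] at h3
    exact (pow_lt_one₀ zero_le' t3 (by norm_num)).ne h3
  have h : Ss A Λ t := ⟨hΛ, h2, t3⟩
  obtain ⟨ω, τ, b⟩ := ex_B hΛ.lat
  have j := val_jf h b t5
  have t6 : A.valuation e < A.valuation (jf τ) ^ r := by
    rw [j, ← pow_mul]
    exact t4.trans_le (pow_le_pow_right_of_le_one' t3.le (by omega))
  obtain ⟨g, hg⟩ := ex_big h2 (fun g : GG N => (g • x.1).1 τ) i1 (by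
    rw [p3, e3 _ (j ▸ pow_pos t2 _) (j ▸ pow_lt_one₀ zero_le' t3 (by norm_num)) t6]
    exact e2.trans_lt t6)
  obtain ⟨γ, rfl⟩ := pr_surj N g
  refine ⟨Λ, t, _, _, h, b.smul γ⁻¹, t5, t1, lt_of_not_ge fun c => hg.not_ge ?_⟩
  simp only [smul_coe]
  rw [hx, w_pow12 h (b.smul γ⁻¹)]
  exact (pow_le_pow_left₀ zero_le' c 12).trans ((two_anti h2 (by norm_num)).trans_eq (pow_one _))

end Vale.Agent.P004M.D.Iv
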