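import Vale.Agent.P004M.D.Rt0
import Vale.Agent.P004M.Cg

/-!
# P004M, route D: the Hurwitz order localised at `2 M`
-/

set_option autoImplicit false
set_option linter.all false

noncomputable section

open scoped Quaternion

namespace Vale.Agent.P004M.D.Rt

open Hu MvPolynomial J0

variable {M : ℕ}

theorem cz : CharZero ℍ[ℚ] := algebraRat.charZero _

theorem q_inj : Function.Injective (toQ ℚ) := (injective_iff_map_eq_zero _).2 fun x h => by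
  have := congrArg (toQ ℚ) (mul_cj x)
  rw [map_mul, h, zero_mul, map_intCast] at this
  exact nm_eq_zero.1 ((@Int.cast_eq_zero _ _ cz _).1 this.symm)

theorem odd_of {d : ℤ} (h : IsCoprime d (2 * M)) : ¬ 2 ∣ d := fun k => by
  simpa [Int.isUnit_iff] using h.of_mul_right_left.isUnit_of_dvd' k dvd_rfl

theorem ne0 {d : ℤ} (h : IsCoprime d (2 * M)) : d ≠ 0 := fun e => odd_of h (e ▸ dvd_zero 2)

theorem nm_add (x y : Hu) (n : ℕ) : ∃ t, nm (x + n • y) = nm x + n * t :=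
  ⟨nm (x + y) - nm x - nm y + n * nm y, by simp [nm_def]; ring⟩

theorem cp_add {x : Hu} {n : ℕ} (hn : 2 * M ∣ n) (y : Hu) (h : Cp M x) : Cp M (x + n • y) := by
  obtain ⟨k, rfl⟩ := hn
  obtain ⟨t, ht⟩ := nm_add x y (2 * M * k)
  rw [Cp, ht, Nat.cast_mul, mul_assoc, Nat.cast_mul]
  exact IsCoprime.add_mul_left_left h _

theorem cp_per {x : Hu} {n : ℕ} (hn : 2 * M ∣ n) (y : Hu) : Cp M (x + n • y) ↔ Cp M x :=
  ⟨fun h => by simpa using cp_add hn (-y) h, cp_add hn y⟩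

theorem cp_int {d : ℤ} (h : IsCoprime d (2 * M)) : Cp M d := by
  rw [Cp, nm_int]; exact h.pow_left

theorem cp_mul {x y : Hu} : Cp M (x * y) ↔ Cp M x ∧ Cp M y := by
  rw [Cp, map_mul]; exact IsCoprime.mul_left_iff

/-- `z = x / d` -/
def Nu (M : ℕ) (z : ℍ[ℚ]) (d : ℤ) (x : Hu) : Prop := IsCoprime d (2 * M) ∧ d • z = toQ ℚ x

theorem Nu.mul {z z' : ℍ[ℚ]} {d d' : ℤ} {x x' : Hu} (h : Nu M z d x) (h' : Nu M z' d' x') :
    Nu M (z * z') (d * d') (x * x') :=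
  ⟨h.1.mul_left h'.1, by rw [map_mul, ← h.2, ← h'.2, smul_mul_smul_comm]⟩

theorem Nu.add {z z' : ℍ[ℚ]} {d d' : ℤ} {x x' : Hu} (h : Nu M z d x) (h' : Nu M z' d' x') :
    Nu M (z + z') (d * d') (d' • x + d • x') :=
  ⟨h.1.mul_left h'.1, by rw [map_add, map_zsmul, map_zsmul, ← h.2, ← h'.2]; module⟩

theorem Nu.neg {z : ℍ[ℚ]} {d : ℤ} {x : Hu} (h : Nu M z d x) : Nu M (-z) d (-x) :=
  ⟨h.1, by rw [map_neg, smul_neg, h.2]⟩

theorem Nu.one_add {z : ℍ[ℚ]} {d : ℤ} {x : Hu} (h : Nu M z d x) (n : ℕ) :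
    Nu M (1 + n • z) d (d + n • x) :=
  ⟨h.1, by rw [map_add, map_nsmul, ← h.2, map_intCast, ← zsmul_one]; module⟩

theorem Nu.uniq {z : ℍ[ℚ]} {d d' : ℤ} {x x' : Hu} (h : Nu M z d x) (h' : Nu M z d' x') :
    d' • x = d • x' := q_inj (by rw [map_zsmul, map_zsmul, ← h.2, ← h'.2, smul_comm])

theorem Nu.ext {z z' : ℍ[ℚ]} {d : ℤ} {x : Hu} (h : Nu M z d x) (h' : Nu M z' d x) : z = z' :=
  mul_left_cancel₀ ((@Int.cast_ne_zero _ _ cz _).2 (ne0 h.1))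
    (by simpa using h.2.trans h'.2.symm)

theorem nu_q (x : Hu) : Nu M (toQ ℚ x) 1 x := ⟨isCoprime_one_left, one_smul _ _⟩

theorem nu_fr {d : ℤ} (h : IsCoprime d (2 * M)) (x : Hu) : Nu M ((d : ℚ)⁻¹ • toQ ℚ x) d x :=
  ⟨h, by rw [← Int.cast_smul_eq_zsmul ℚ, smul_inv_smul₀ (Int.cast_ne_zero.2 (ne0 h))]⟩

variable (M) in
/-- the localised order -/
def OL : Subring ℍ[ℚ] where
  carrier := {z | ∃ d x, Nu M z d x}
  mul_mem' := fun ⟨_, _, h⟩ ⟨_, _, k⟩ => ⟨_, _, h.mul k⟩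
  one_mem' := ⟨1, 1, map_one (toQ ℚ) ▸ nu_q 1⟩
  add_mem' := fun ⟨_, _, h⟩ ⟨_, _, k⟩ => ⟨_, _, h.add k⟩
  zero_mem' := ⟨1, 0, map_zero (toQ ℚ) ▸ nu_q 0⟩
  neg_mem' := fun ⟨_, _, h⟩ => ⟨_, _, h.neg⟩

theorem unit_of {z : OL M} {d : ℤ} {x : Hu} (h : Nu M z d x) (hx : Cp M x) : IsUnit z := by
  have k := nu_fr hx (d • cj x)
  refine ⟨⟨z, ⟨_, _, _, k⟩, Subtype.ext ((h.mul k).ext ⟨h.1.mul_left hx, ?_⟩),
    Subtype.ext ((k.mul h).ext ⟨IsCoprime.mul_left hx h.1, ?_⟩)⟩, rfl⟩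
  · rw [mul_smul_comm, mul_cj]; simp
  · simp [cj_mul, mul_assoc, mul_comm (nm x) d]

theorem cp_of {g : (OL M)ˣ} {d : ℤ} {x : Hu} (h : Nu M g.1 d x) : Cp M x := by
  obtain ⟨d', x', k⟩ := g⁻¹.1.2
  have e := h.mul k
  rw [← Subring.coe_mul, Units.mul_inv, Subring.coe_one, ← map_one (toQ ℚ)] at e
  have := e.uniq (nu_q 1)
  rw [one_smul, zsmul_one] at this
  exact (cp_mul.1 (this ▸ cp_int e.1)).1

theorem un (z : OL M) : IsUnit (1 + (4 * M) • z) := by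
  obtain ⟨d, x, h⟩ := z.2
  exact unit_of (h.one_add _) (cp_add ⟨2, by ring⟩ x (cp_int h.1))

/-- the basis -/
def eb : Fin 4 → Hu := ![1, ii, om, ii * om]

/-- the coordinates -/
def fc : Hu →+ Fin 4 → ℤ := AddMonoidHom.mk' (fun x => ![x.a, x.b, x.c, x.d]) fun x y => by
  ext i; fin_cases i <;> simp

theorem fc_sum (x : Hu) : x = ∑ i, fc x i • eb i := by
  simpa [Fin.sum_univ_four, fc, eb] using dec x

theorem fc_eb : ∀ k i, fc (eb k) i = if k = i then 1 else 0 := by decide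

variable (M) in
/-- the basis in the localised order -/
def eO (i : Fin 4) : OL M := ⟨_, _, _, nu_q (eb i)⟩

theorem dig {z : OL M} {d : ℤ} {x : Hu} (h : Nu M z d x) :
    Co 2 (eO M) z fun i => (fc x i : ℚ_[2]) / d := fun t => by
  obtain ⟨d', k, e⟩ := h.1.of_mul_right_left.pow_right (n := t)
  have k0 : (0 : ℤ) < 2 ^ t := by positivity
  have k1 : ∀ i, ∃ (a : ℕ) (w : ℤ), fc x i = d * a + 2 ^ t * w := fun i =>
    ⟨(d' * fc x i % 2 ^ t).toNat, k * fc x i + d * (d' * fc x i / 2 ^ t), by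
      rw [Int.toNat_of_nonneg (Int.emod_nonneg _ k0.ne'), Int.emod_def]
      linear_combination (-fc x i) * e⟩
  choose a w hw using k1
  have k2 := nu_fr h.1 (∑ i, w i • eb i)
  refine ⟨a, ⟨_, _, _, k2⟩, Subtype.ext (h.ext ⟨h.1, ?_⟩), fun i => ?_⟩
  · rw [Subring.coe_add, smul_add, AddSubgroupClass.coe_nsmul, smul_comm, k2.2, fc_sum x]
    simp only [hw, eO, map_sum, map_zsmul, AddSubmonoidClass.coe_finsetSum, Finset.smul_sum,
      ← Finset.sum_add_distrib, AddSubgroupClass.coe_nsmul]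
    exact Finset.sum_congr rfl fun i _ => by module
  · have k3 : ‖(d : ℚ_[2])‖ = 1 := (Padic.norm_int_le_one d).antisymm
      (not_lt.1 (mt Padic.norm_intCast_lt_one_iff.1 (odd_of h.1)))
    have k4 : (d : ℚ_[2]) ≠ 0 := Int.cast_ne_zero.2 (ne0 h.1)
    rw [show (fc x i : ℚ_[2]) / d - a i = ((2 : ℕ) : ℚ_[2]) ^ t * w i / d by
      rw [hw]; push_cast; field_simp; ring, norm_div, k3, div_one, norm_mul, Padic.norm_p_pow]
    exact mul_le_of_le_one_right (by positivity) (Padic.norm_int_le_one _)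

theorem uo (hM : M ≠ 0) : P022K.Iw.Uo 2 (fun i => gC un (eO M i)) (NC (OL M) 2 (4 * M)) := by
  refine uo_C two_ne_zero (by omega) ⟨M, rfl⟩ un (fun n x h k => ?_)
    _ (fun T h1 h2 z => ?_) fun i => ⟨⟨⟨⟨{z | ∃ d x, Nu M z d x ∧ 2 ∣ fc x i},
      fun ⟨d, x, h, k⟩ ⟨d', x', h', k'⟩ => ⟨_, _, h.add h', ?_⟩⟩, 1, 0,
        by simpa using nu_q 0, by simp⟩, fun ⟨d, x, h, k⟩ => ⟨_, _, h.neg, by simpa using k⟩⟩,
      fun y => ?_, fun k hk => ⟨_, _, nu_q _, by simp [fc_eb, hk]⟩, fun ⟨d, x, h, k⟩ => ?_⟩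
  · have := congrArg Subtype.val k
    exact Subtype.ext ((mul_eq_zero.1 (by simpa using this)).resolve_left
      ((@Nat.cast_ne_zero _ _ cz _).2 h))
  · obtain ⟨d, x, h⟩ := z.2
    obtain ⟨a, y, e, -⟩ := dig h 1
    rw [e, pow_one]
    exact add_mem (sum_mem fun i _ => nsmul_mem (h1 i) _) (h2 y)
  · simpa [-zsmul_eq_mul] using (k.mul_left d').add (k'.mul_left d)
  · obtain ⟨d, x, h⟩ := y.2
    exact ⟨d, 2 • x, ⟨h.1, by rw [map_nsmul, ← h.2, smul_comm]; rfl⟩, by rw [map_nsmul]; simp⟩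
  · have := h.uniq (nu_q _)
    rw [one_smul] at this
    exact odd_of h.1 (by simpa [this, fc_eb, -zsmul_eq_mul] using k)

theorem lin (K : Type) [Field K] [CharZero K] (φ : Hu →+ ℤ) : ∃ P : MvPolynomial (Fin 4) K,
    P.IsHomogeneous 1 ∧ ∀ y, (φ y : K) = eval (fun i => (co y i : K)) P := by
  have h := fun i : Fin 4 => isHomogeneous_X K i
  refine ⟨C (φ (eb 0) / 2 : K) * (X 0 + X 3) + C (φ (eb 1) / 2 : K) * (X 1 - X 2) +
    C (φ (eb 2) / 2 : K) * (X 2 + X 3) + C (φ (eb 3) / 2 : K) * (X 3 - X 2),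
    (((((h 0).add (h 3)).C_mul _).add (((h 1).sub (h 2)).C_mul _)).add
      (((h 2).add (h 3)).C_mul _)).add (((h 3).sub (h 2)).C_mul _), fun y => ?_⟩
  conv_lhs => rw [fc_sum y]
  simp [Fin.sum_univ_four, fc, co, -zsmul_eq_mul]
  ring

end Vale.Agent.P004M.D.Rt
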