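import Mathlib

/-!
# P004M, route D, theta series: the fourfold Jacobi theta function and its law under the theta group
-/

set_option autoImplicit false

open Complex
open scoped Real

noncomputable section

namespace Vale.Agent.P004M.D

/-- the product of four Jacobi theta functions -/
def J4 (z : Fin 4 → ℂ) (t : ℂ) : ℂ := ∏ i, jacobiTheta₂ (z i) t

/-- the sum of squares -/
def sq4 (z : Fin 4 → ℂ) : ℂ := ∑ i, z i ^ 2

theorem J4_S (z : Fin 4 → ℂ) {t : ℂ} (ht : t ≠ 0) :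
    J4 (fun i => z i / t) (-1 / t) = -t ^ 2 * cexp (π * I * sq4 z / t) * J4 z t := by
  have h1 : ((-I * t) ^ (1 / 2 : ℂ)) ^ 4 = -t ^ 2 := by
    rw [show (4 : ℕ) = 2 * 2 from rfl, pow_mul, show (1 / 2 : ℂ) = ((2 : ℕ) : ℂ)⁻¹ by norm_num,
      cpow_nat_inv_pow _ two_ne_zero, mul_pow, neg_sq, I_sq, neg_one_mul]
  have h2 : J4 z t = (-t ^ 2)⁻¹ * cexp (-(π * I * sq4 z / t)) * J4 (fun i => z i / t) (-1 / t) := by
    rw [J4, J4, Finset.prod_congr rfl fun i _ => jacobiTheta₂_functional_equation (z i) t,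
      Finset.prod_mul_distrib, Finset.prod_mul_distrib, Finset.prod_const, Finset.card_univ,
      Fintype.card_fin, ← Complex.exp_sum, one_div, inv_pow, h1]
    congr 3
    simp only [sq4, Fin.sum_univ_four]
    ring
  have h3 := pow_ne_zero 2 ht
  rw [h2, Complex.exp_neg]
  field_simp

theorem J4_T (z : Fin 4 → ℂ) (t : ℂ) (k : ℤ) : J4 z (t + k * 2) = J4 z t :=
  Finset.prod_congr rfl fun i _ =>
    Function.Periodic.int_mul (f := jacobiTheta₂ (z i)) (jacobiTheta₂_add_right (z i)) k t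

theorem J4_ell (w : Fin 4 → ℂ) (t : ℂ) (l : Fin 4 → ℤ) : J4 (fun i => w i + l i * t) t =
    cexp (-(π * I * ∑ i, (l i ^ 2 * t + 2 * l i * w i))) * J4 w t := by
  have h : ∀ (w : ℂ) (l : ℤ), jacobiTheta₂ (w + l * t) t =
      cexp (-(π * I * (l ^ 2 * t + 2 * l * w))) * jacobiTheta₂ w t := fun w l => by
    rw [jacobiTheta₂, jacobiTheta₂, ← tsum_mul_left,
      ← (Equiv.addRight l).tsum_eq fun n => _ * jacobiTheta₂_term n w t]
    refine tsum_congr fun n => ?_
    simp only [jacobiTheta₂_term, ← Complex.exp_add, Equiv.coe_addRight, Int.cast_add]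
    congr 1
    ring
  simp only [J4, h, Finset.prod_mul_distrib, ← Complex.exp_sum, Finset.mul_sum,
    Finset.sum_neg_distrib]

/-- the transformation law with sign `e` -/
def Law (e a b c d : ℤ) : Prop := ∀ (z : Fin 4 → ℂ) (t : ℂ), 0 < t.im →
  J4 (fun i => z i / (c * t + d)) ((a * t + b) / (c * t + d)) =
    e * (c * t + d) ^ 2 * cexp (π * I * c * sq4 z / (c * t + d)) * J4 z t

theorem den_ne {a b c d : ℤ} (h : a * d - b * c = 1) {t : ℂ} (ht : 0 < t.im) :
    (c : ℂ) * t + d ≠ 0 := fun e => by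
  have h1 : c = 0 := by simpa [ht.ne'] using congrArg im e
  have h2 : d = 0 := by simpa [h1] using e
  simp [h1, h2] at h

theorem Law.T {e a b c d : ℤ} (h : Law e a b c d) (k : ℤ) :
    Law e a (b + k * 2 * a) c (d + k * 2 * c) := fun z t ht => by
  have := h z (t + k * 2) (by simpa using ht)
  have e : ∀ x y : ℤ, (x : ℂ) * (t + k * 2) + y = x * t + (y + k * 2 * x : ℤ) := fun x y => by
    push_cast
    ring
  rwa [J4_T, e, e] at this

theorem Law.S {e a b c d : ℤ} (h : Law e a b c d) (h1 : a * d - b * c = 1) :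
    Law (-e) b (-a) d (-c) := fun z t ht => by
  have t0 : t ≠ 0 := fun e => by simp [e] at ht
  have ht' : 0 < (-1 / t).im := by
    rw [neg_div, one_div, neg_im, inv_im, neg_div, neg_neg]
    exact div_pos ht (normSq_pos.2 t0)
  have j0 := den_ne h1 ht'
  have j1 : (d : ℂ) * t + (-c : ℤ) = t * (c * (-1 / t) + d) := by
    push_cast
    field_simp
    ring
  have := h (fun i => z i / t) _ ht'
  rw [J4_S z t0] at this
  rw [j1]
  have e1 : (b * t + (-a : ℤ)) / (t * (c * (-1 / t) + d)) =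
      (a * (-1 / t) + b) / (c * (-1 / t) + d) := by
    rw [← div_div]
    push_cast
    field_simp
    ring
  have e2 : π * I * d * sq4 z / (t * (c * (-1 / t) + d)) =
      π * I * c * sq4 (fun i => z i / t) / (c * (-1 / t) + d) + π * I * sq4 z / t := by
    simp only [sq4, div_pow, ← Finset.sum_div]
    generalize hj : c * (-1 / t) + (d : ℂ) = j at j0
    have : (d : ℂ) = j + c / t := by rw [← hj]; ring
    rw [this]
    field_simp
    ring
  simp only [← div_div (z _)]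
  rw [e1, this, e2, Complex.exp_add]
  push_cast
  ring

theorem law_aux (n : ℕ) : ∀ e a b c d : ℤ, c.natAbs = n → a * d - b * c = 1 →
    (e = 1 ∧ a % 2 = 1 ∧ b % 2 = 0 ∧ c % 2 = 0 ∧ d % 2 = 1 ∨
      e = -1 ∧ a % 2 = 0 ∧ b % 2 = 1 ∧ c % 2 = 1 ∧ d % 2 = 0) → Law e a b c d := by
  induction n using Nat.strong_induction_on with
  | _ n ih =>
  intro e a b c d hn h1 h2
  by_cases c0 : c = 0
  · obtain ⟨k, rfl⟩ : ∃ k, b = k * 2 := ⟨b / 2, by omega⟩
    obtain rfl : e = 1 := by omega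
    rw [c0, mul_zero, sub_zero] at h1
    intro z t ht
    rcases Int.eq_one_or_neg_one_of_mul_eq_one' h1 with ⟨rfl, rfl⟩ | ⟨rfl, rfl⟩
    · simpa [c0] using J4_T z t k
    · have := J4_T z t (-k)
      simp only [J4] at this ⊢
      simpa [c0, div_neg, jacobiTheta₂_neg_left, add_comm] using this
  · obtain ⟨k, hk⟩ : ∃ k : ℤ, (d - k * 2 * c).natAbs < c.natAbs := by
      have p0 : 2 * c ≠ 0 := by omega
      have q1 := Int.emod_nonneg (d + c.natAbs) p0
      have q2 := Int.emod_lt_abs (d + c.natAbs) p0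
      have q3 := Int.emod_add_mul_ediv (d + c.natAbs) (2 * c)
      refine ⟨(d + c.natAbs) / (2 * c), ?_⟩
      rw [show (d + c.natAbs) / (2 * c) * 2 * c = 2 * (c * ((d + c.natAbs) / (2 * c))) by ring]
      rw [mul_assoc] at q3
      rw [abs_mul, Int.abs_eq_natAbs c, abs_two] at q2
      omega
    have e1 : k * 2 * a = 2 * (k * a) := by ring
    have e2 : k * 2 * c = 2 * (k * c) := by ring
    have := ((ih _ (hn ▸ hk) (-e) (-(b - k * 2 * a)) a (-(d - k * 2 * c)) c (Int.natAbs_neg _)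
      (by linear_combination h1) (by omega)).S (by linear_combination h1)).T k
    simpa only [neg_neg, sub_add_cancel] using this

theorem law {a b c d : ℤ} (h : a * d - b * c = 1) (hb : b % 2 = 0) (hc : c % 2 = 0) :
    Law 1 a b c d := by
  have h1 : Odd (a * d) := by
    obtain ⟨k, rfl⟩ : ∃ k, b = 2 * k := ⟨b / 2, by omega⟩
    exact ⟨k * c, by linear_combination h⟩
  rw [Int.odd_mul, Int.odd_iff, Int.odd_iff] at h1
  exact law_aux _ _ _ _ _ _ rfl h (Or.inl ⟨rfl, h1.1, hb, hc, h1.2⟩)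

/-- the law at a point `s ξ + b / M` -/
theorem law_chr {A B c d : ℤ} {M : ℕ} (hM : M ≠ 0) (h : A * d - B * (4 * M ^ 2 * c) = 1)
    {ξ : Fin 4 → ℂ} (hξ : sq4 ξ = 0) (b : Fin 4 → ℤ) (s : ℂ) {τ : ℂ} (hτ : 0 < τ.im) :
    J4 (fun i => s / (4 * M ^ 2 * c * τ + d) * ξ i + b i / M)
        (2 * ((A * τ + B) / (4 * M ^ 2 * c * τ + d))) =
      (4 * M ^ 2 * c * τ + d) ^ 2 * J4 (fun i => s * ξ i + d * b i / M) (2 * τ) := by
  have M0 : (M : ℂ) ≠ 0 := Nat.cast_ne_zero.2 hM
  have j0 := den_ne h hτ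
  have h1 := law (a := A) (b := 2 * B) (c := 2 * (M ^ 2 * c)) (d := d) (by linear_combination h)
    (by omega) (by omega) (fun i => s * ξ i + d * b i / M + (2 * M * c * b i : ℤ) * (2 * τ))
    (2 * τ) (by simpa using hτ)
  rw [J4_ell (fun i => s * ξ i + d * b i / M)] at h1
  push_cast at h1 j0
  rw [show 2 * (M ^ 2 * c) * (2 * τ) + d = 4 * M ^ 2 * c * τ + d by ring] at h1
  obtain ⟨j, hj⟩ : ∃ j, j = 4 * M ^ 2 * c * τ + d := ⟨_, rfl⟩
  rw [← hj] at h1 j0 ⊢
  have e1 : ∀ i, s * ξ i + d * b i / M + 2 * M * c * b i * (2 * τ) = s * ξ i + j * b i / M :=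
    fun i => by
      rw [hj]
      field_simp
      ring
  simp only [e1] at h1
  convert h1 using 1
  · congr 1
    · funext i
      field_simp
    · ring
  · rw [one_mul, mul_assoc, ← mul_assoc (cexp _), ← Complex.exp_add, eq_comm]
    convert congrArg (j ^ 2 * ·) (one_mul _) using 3
    rw [← Complex.exp_int_mul_two_pi_mul_I (-(c * d * ∑ i, b i ^ 2))]
    congr 1
    simp only [sq4, Fin.sum_univ_four] at hξ ⊢
    have : (d : ℂ) = j - 4 * M ^ 2 * c * τ := by rw [hj]; ring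
    push_cast
    rw [this]
    field_simp
    linear_combination (M ^ 2 * c * s ^ 2) * hξ

theorem sum_pi {n : ℕ} : ∀ (g : Fin n → ℤ → ℂ), (∀ i, Summable fun k => ‖g i k‖) →
    (Summable fun x : Fin n → ℤ => ‖∏ i, g i (x i)‖) ∧
      ∑' x : Fin n → ℤ, ∏ i, g i (x i) = ∏ i, ∑' k, g i k := by
  induction n with
  | zero => exact fun g _ => ⟨Summable.of_finite, by simp⟩
  | succ n ih =>
    intro g hg
    obtain ⟨h1, h2⟩ := ih (fun i => g i.succ) fun i => hg _
    have e : ∀ p : ℤ × (Fin n → ℤ), ∏ i, g i (Fin.consEquiv (fun _ => ℤ) p i) =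
        g 0 p.1 * ∏ i, g i.succ (p.2 i) := fun p => by simp [Fin.prod_univ_succ, Fin.consEquiv]
    refine ⟨(Fin.consEquiv fun _ => ℤ).summable_iff.1 ?_, ?_⟩
    · simpa only [Function.comp_def, e] using (hg 0).mul_norm h1
    · rw [← (Fin.consEquiv fun _ => ℤ).tsum_eq, Fin.prod_univ_succ, ← h2,
        tsum_mul_tsum_of_summable_norm (hg 0) h1]
      exact tsum_congr e

theorem hasSum_J4 (z : Fin 4 → ℂ) {t : ℂ} (ht : 0 < t.im) : HasSum (fun x : Fin 4 → ℤ =>
    cexp (2 * π * I * ∑ i, z i * x i + π * I * (∑ i, x i ^ 2 : ℤ) * t)) (J4 z t) := by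
  obtain ⟨h1, h2⟩ := sum_pi (fun i k => jacobiTheta₂_term k (z i) t) fun i =>
    (hasSum_jacobiTheta₂_term (z i) ht).summable.norm
  have h3 := h1.of_norm.hasSum
  rw [h2] at h3
  refine (congrArg (HasSum · _) (funext fun x => ?_)).mp h3
  simp only [jacobiTheta₂_term, ← Complex.exp_sum, Fin.sum_univ_four]
  push_cast
  congr 1
  ring

end Vale.Agent.P004M.D
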