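import Vale.Agent.P004M.D.ThA
import Vale.Agent.P022.H218.L3.Amb

/-!
# P004M, route D, theta series of four squares with a harmonic factor and a periodic factor
-/

set_option autoImplicit false

open Complex CongruenceSubgroup Vale.Agent.P022.H218.L3
open UpperHalfPlane hiding I
open scoped Real MatrixGroups ModularForm Nat

noncomputable section

namespace Vale.Agent.P004M.D

/-- a linear form -/
def dot (ξ : Fin 4 → ℂ) (x : Fin 4 → ℤ) : ℂ := ∑ i, ξ i * x i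

/-- the norm form -/
def nq (x : Fin 4 → ℤ) : ℤ := ∑ i, x i ^ 2

theorem nq_nonneg (x : Fin 4 → ℤ) : 0 ≤ nq x := Finset.sum_nonneg fun _ _ => sq_nonneg _

/-- the vectors of norm `n` -/
def shell (n : ℕ) : Finset (Fin 4 → ℤ) :=
  (Fintype.piFinset fun _ => Finset.Icc (-(n : ℤ)) n).filter fun x => nq x = n

theorem mem_shell {n : ℕ} {x : Fin 4 → ℤ} : x ∈ shell n ↔ nq x = n := by
  rw [shell, Finset.mem_filter, and_iff_right_iff_imp, Fintype.mem_piFinset]
  intro h i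
  have := Finset.single_le_sum (f := fun i => x i ^ 2) (fun _ _ => sq_nonneg _) (Finset.mem_univ i)
  rw [Finset.mem_Icc, ← h, nq]
  constructor <;> nlinarith [sq_nonneg (2 * x i + 1), sq_nonneg (2 * x i - 1)]

/-- the general term -/
def tm (f : (Fin 4 → ℤ) → ℂ) (ξ : Fin 4 → ℂ) (n : ℕ) (s τ : ℂ) (x : Fin 4 → ℤ) : ℂ :=
  f x * dot ξ x ^ n * cexp (2 * π * I * (s * dot ξ x + nq x * τ))

/-- the Gaussian -/
def gz (u : ℝ) (x : Fin 4 → ℤ) : ℝ := Real.exp (-(π * u * nq x))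

theorem hasSum_gz {u : ℝ} (hu : 0 < u) : HasSum (fun x => (gz u x : ℂ)) (J4 0 (I * u)) := by
  refine (congrArg (HasSum · _) (funext fun x => ?_)).mp (hasSum_J4 0 (t := I * u) (by simpa))
  rw [gz, ofReal_exp, nq]
  congr 1
  push_cast
  simp only [Pi.zero_apply, zero_mul, Finset.sum_const_zero]
  linear_combination (π * u * ∑ i, (x i : ℂ) ^ 2) * I_sq

theorem sm_gz {u : ℝ} (hu : 0 < u) : Summable (gz u) := summable_ofReal.1 (hasSum_gz hu).summable

theorem gz_le {u : ℝ} (hu : 0 < u) (h1 : u ≤ 1) : ∑' x, gz u x ≤ (∑' x, gz 1 x) / u ^ 2 := by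
  have u0 : (u : ℂ) ≠ 0 := ofReal_ne_zero.2 hu.ne'
  have h2 := J4_S 0 (t := I * u) (mul_ne_zero I_ne_zero u0)
  rw [show -1 / (I * u) = I * (u⁻¹ : ℝ) by rw [ofReal_inv]; field_simp; simp,
    show (fun i => (0 : Fin 4 → ℂ) i / (I * u)) = 0 from funext fun _ => by simp,
    ← (hasSum_gz hu).tsum_eq, ← (hasSum_gz (inv_pos.2 hu)).tsum_eq, ← ofReal_tsum, ← ofReal_tsum,
    mul_pow, I_sq] at h2
  have h3 : ∑' x, gz u⁻¹ x = (∑' x, gz u x) * u ^ 2 := by
    apply ofReal_injective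
    simpa [sq4, mul_comm] using h2
  rw [le_div_iff₀ (by positivity), ← h3]
  refine (sm_gz (inv_pos.2 hu)).tsum_le_tsum (fun x => Real.exp_le_exp.2 ?_) (sm_gz one_pos)
  have : (0 : ℝ) ≤ nq x := by exact_mod_cast nq_nonneg x
  have := (one_le_inv₀ hu).2 h1
  have := Real.pi_pos
  rw [neg_le_neg_iff]
  gcongr

variable {f : (Fin 4 → ℤ) → ℂ} {ξ : Fin 4 → ℂ} {A : ℝ}

theorem tm_le (hf : ∀ x, ‖f x‖ ≤ A) (n : ℕ) {u R : ℝ} (hu : 0 < u) {s τ : ℂ} (hs : ‖s‖ ≤ R)
    (hτ : u ≤ τ.im) (x : Fin 4 → ℤ) : ‖tm f ξ n s τ x‖ ≤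
      A * (n ! / u ^ n) * Real.exp (4 * ((u + 2 * π * R) * ‖ξ‖) ^ 2 / u) * gz u x := by
  have A0 := (norm_nonneg _).trans (hf x)
  have p3 := Real.pi_gt_three
  have q0 : (0 : ℝ) ≤ nq x := by exact_mod_cast nq_nonneg x
  have h1 : ‖dot ξ x‖ ^ n ≤ n ! / u ^ n * Real.exp (u * ‖dot ξ x‖) := by
    have := Real.pow_div_factorial_le_exp (u * ‖dot ξ x‖) (by positivity) n
    rw [div_le_iff₀ (by positivity), mul_pow] at this
    rw [div_mul_eq_mul_div, le_div_iff₀ (by positivity)]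
    linarith
  have h2 : (2 * π * I * (s * dot ξ x + nq x * τ)).re ≤ 2 * π * (R * ‖dot ξ x‖ - nq x * u) := by
    have a := (neg_le_abs _).trans ((abs_im_le_norm (s * dot ξ x)).trans_eq (norm_mul _ _))
    have b := mul_le_mul_of_nonneg_right hs (norm_nonneg (dot ξ x))
    have c := mul_le_mul_of_nonneg_left hτ q0
    have e : (2 * π * I * (s * dot ξ x + nq x * τ)).re =
        2 * π * (-(s * dot ξ x).im - nq x * τ.im) := by
      generalize s * dot ξ x = w
      simp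
      ring
    rw [e]
    gcongr
    linarith
  have h3 : ∀ r : ℝ, 0 ≤ r → r * ‖dot ξ x‖ ≤ 4 * (r * ‖ξ‖) ^ 2 / u + u * nq x := fun r hr => by
    have a : ∀ i, r * ‖ξ i * x i‖ ≤ (r * ‖ξ‖) ^ 2 / u + u * (x i : ℝ) ^ 2 := fun i => by
      rw [norm_mul, norm_intCast, ← sq_abs (x i : ℝ), ← mul_assoc]
      refine (mul_le_mul_of_nonneg_right (mul_le_mul_of_nonneg_left (norm_le_pi_norm ξ i) hr)
        (abs_nonneg _)).trans ?_
      rw [div_add' _ _ _ hu.ne', le_div_iff₀ hu]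
      nlinarith [sq_nonneg (r * ‖ξ‖ - u * |(x i : ℝ)|), sq_nonneg (r * ‖ξ‖),
        sq_nonneg (u * |(x i : ℝ)|)]
    refine (mul_le_mul_of_nonneg_left (norm_sum_le _ _) hr).trans ?_
    rw [Finset.mul_sum]
    refine (Finset.sum_le_sum fun i _ => a i).trans_eq ?_
    simp only [nq, Fin.sum_univ_four]
    push_cast
    ring
  have h4 := h3 (u + 2 * π * R) (by have := (norm_nonneg _).trans hs; positivity)
  rw [tm, norm_mul, norm_mul, norm_pow, norm_exp, gz, mul_assoc (A * _), ← Real.exp_add]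
  refine (mul_le_mul (mul_le_mul (hf x) h1 (by positivity) A0) (Real.exp_le_exp.2 h2)
    (by positivity) (by positivity)).trans ?_
  rw [← mul_assoc, mul_assoc (A * _), ← Real.exp_add]
  refine mul_le_mul_of_nonneg_left (Real.exp_le_exp.2 ?_) (by positivity)
  nlinarith [mul_nonneg hu.le q0]

theorem sm_tm (hf : ∀ x, ‖f x‖ ≤ A) (n : ℕ) (s : ℂ) {τ : ℂ} (hτ : 0 < τ.im) :
    Summable (tm f ξ n s τ) :=
  .of_norm_bounded ((sm_gz hτ).mul_left _) (tm_le hf n hτ le_rfl le_rfl)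

theorem der_tm (hf : ∀ x, ‖f x‖ ≤ A) (n : ℕ) (s : ℂ) {τ : ℂ} (hτ : 0 < τ.im) :
    HasDerivAt (fun s => ∑' x, tm f ξ n s τ x) (2 * π * I * ∑' x, tm f ξ (n + 1) s τ x) s := by
  rw [← tsum_mul_left]
  refine hasDerivAt_tsum_of_isPreconnected (g' := fun x s => 2 * π * I * tm f ξ (n + 1) s τ x)
    (((sm_gz hτ).mul_left _).mul_left ‖2 * π * I‖) Metric.isOpen_ball
    (convex_ball (0 : ℂ) (‖s‖ + 1)).isPreconnected (fun x y _ => ?_) (fun x y hy =>
      (norm_mul _ _).trans_le (mul_le_mul_of_nonneg_left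
        (tm_le hf (n + 1) hτ (mem_ball_zero_iff.1 hy).le le_rfl x) (norm_nonneg _)))
    (Metric.mem_ball_self (by positivity)) (sm_tm hf n 0 hτ) (by simp)
  refine ((((((hasDerivAt_id y).mul_const (dot ξ x)).add_const (nq x * τ)).const_mul
    (2 * π * I)).cexp).const_mul (f x * dot ξ x ^ n)).congr_deriv ?_
  simp only [tm, id]
  ring

theorem tsum_chr {ι : Type} [Fintype ι] {c : ι → ℂ} {β : ι → Fin 4 → ℂ}
    (h : ∀ x, f x = ∑ k, c k * cexp (2 * π * I * dot (β k) x)) (s : ℂ) {τ : ℂ} (hτ : 0 < τ.im) :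
    ∑' x, tm f ξ 0 s τ x = ∑ k, c k * J4 (fun i => s * ξ i + β k i) (2 * τ) := by
  refine HasSum.tsum_eq ((congrArg (HasSum · _) (funext fun x => ?_)).mp (hasSum_sum fun k _ =>
    (hasSum_J4 (fun i => s * ξ i + β k i) (t := 2 * τ) (by simpa)).mul_left (c k)))
  rw [tm, h, pow_zero, mul_one, Finset.sum_mul]
  refine Finset.sum_congr rfl fun k _ => ?_
  rw [mul_assoc (c k), ← Complex.exp_add]
  simp only [dot, nq, Fin.sum_univ_four]
  congr 2
  ring

theorem fourier {M : ℕ} [NeZero M] (per : ∀ x y, f (x + (M : ℤ) • y) = f x) :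
    ∃ (ι : Type) (_ : Fintype ι) (c : ι → ℂ) (b : ι → Fin 4 → ℤ),
      ∀ x, f x = ∑ k, c k * cexp (2 * π * I * dot (fun i => b k i / M) x) := by
  have h1 : ∀ (ψ : AddChar (Fin 4 → ZMod M) ℂ) i, ∃ b : ℕ,
      cexp (2 * π * I / M) ^ b = ψ (Pi.single i 1) := fun ψ i =>
    ((isPrimitiveRoot_exp M (NeZero.ne M)).eq_pow_of_pow_eq_one (by
      rw [← ψ.map_nsmul_eq_pow, ← Nat.cast_smul_eq_nsmul (ZMod M), ZMod.natCast_self, zero_smul,
        ψ.map_zero_eq_one])).imp fun _ h => h.2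
  choose b hb using h1
  refine ⟨_, inferInstance, (AddChar.complexBasis _).repr fun a => f fun i => (a i).cast,
    fun ψ i => b ψ i, fun x => ?_⟩
  have h2 := congrFun ((AddChar.complexBasis (Fin 4 → ZMod M)).sum_repr
    fun a => f fun i => (a i).cast) fun i => (x i : ZMod M)
  have h3 : (fun i => ((x i : ZMod M).cast : ℤ)) = x + (M : ℤ) • fun i => -(x i / M) :=
    funext fun i => by simp [ZMod.coe_intCast, Int.emod_def, sub_eq_add_neg]
  rw [h3, per] at h2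
  rw [← h2, Finset.sum_apply]
  refine Finset.sum_congr rfl fun ψ _ => ?_
  have h4 : (fun i => (x i : ZMod M)) = ∑ i, x i • Pi.single i 1 := funext fun j => by
    simp [Pi.single_apply]
  rw [Pi.smul_apply, AddChar.complexBasis_apply, smul_eq_mul, h4]
  simp only [Fin.sum_univ_four, dot, ψ.map_add_eq_mul, ψ.map_zsmul_eq_zpow, ← hb,
    ← Complex.exp_nat_mul, ← Complex.exp_int_mul, ← Complex.exp_add, Int.cast_natCast]
  congr 2
  ring

theorem bdd_per {M : ℕ} [NeZero M] (per : ∀ x y, f (x + (M : ℤ) • y) = f x) :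
    ∃ A, ∀ x, ‖f x‖ ≤ A := by
  obtain ⟨ι, _, c, b, h⟩ := fourier per
  refine ⟨∑ k, ‖c k‖, fun x => h x ▸ norm_sum_le_of_le _ fun k _ => ?_⟩
  rw [norm_mul, show 2 * π * I * dot (fun i => b k i / M) x =
    (2 * π * ∑ i, (b k i : ℝ) / M * x i : ℝ) * I by simp [dot]; ring, norm_exp_ofReal_mul_I, mul_one]

theorem law_tm {M : ℕ} [NeZero M] (per : ∀ x y, f (x + (M : ℤ) • y) = f x) (hξ : sq4 ξ = 0)
    {a b c d : ℤ} (h : a * d - b * (4 * M ^ 2 * c) = 1) {τ : ℂ} (hτ : 0 < τ.im)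
    (hτ' : 0 < ((a * τ + b) / (4 * M ^ 2 * c * τ + d)).im) (n : ℕ) : ∀ s,
    ∑' x, tm f ξ n (s / (4 * M ^ 2 * c * τ + d)) ((a * τ + b) / (4 * M ^ 2 * c * τ + d)) x =
      (4 * M ^ 2 * c * τ + d) ^ (n + 2) * ∑' x, tm (fun x => f (d • x)) ξ n s τ x := by
  induction n with
  | zero =>
    intro s
    obtain ⟨ι, _, e, β, hf⟩ := fourier per
    rw [tsum_chr hf _ hτ', tsum_chr (c := e) (β := fun k i => d * β k i / M) (fun x => ?_) _ hτ,
      Finset.mul_sum]
    · exact Finset.sum_congr rfl fun k _ => by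
        rw [law_chr (NeZero.ne M) h hξ (β k) s hτ, mul_left_comm]
    · rw [hf]
      refine Finset.sum_congr rfl fun k _ => ?_
      simp only [dot, Pi.smul_apply, smul_eq_mul, Int.cast_mul, Fin.sum_univ_four]
      congr 2
      ring
  | succ n ih =>
    intro s
    obtain ⟨A, hA⟩ := bdd_per per
    have j0 := den_ne h hτ
    push_cast at j0
    have h1 := (der_tm (ξ := ξ) hA n _ hτ').comp s ((hasDerivAt_id s).div_const
      (4 * M ^ 2 * c * τ + d))
    have h2 := (der_tm (ξ := ξ) (fun x => hA (d • x)) n s hτ).const_mul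
      ((4 * M ^ 2 * c * τ + d) ^ (n + 2))
    rw [← funext ih] at h2
    have h3 := h1.unique h2
    refine mul_left_cancel₀ two_pi_I_ne_zero ?_
    rw [mul_one_div, div_eq_iff j0] at h3
    rw [id] at h3
    rw [h3]
    ring

theorem bdd_of_growth {N k : ℕ} [NeZero N] {F : ℍ → ℂ} (h : ∀ γ ∈ Gamma0 N, F ∣[(k : ℤ)] γ = F)
    {C : ℝ} (hC : ∀ τ : ℍ, ‖F τ‖ ≤ C / min τ.im 1 ^ k) (γ : SL(2, ℤ)) :
    IsBoundedAtImInfty (F ∣[(k : ℤ)] γ) := by
  have N0 : (0 : ℝ) < N := Nat.cast_pos.2 (NeZero.pos N)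
  obtain ⟨K, hK⟩ : ∃ K : ℝ, K = |(γ 1 0 : ℝ)| * (N + 1) + |(γ 1 1 : ℝ)| + 1 := ⟨_, rfl⟩
  have K1 : 1 ≤ K := by rw [hK]; exact le_add_of_nonneg_left (by positivity)
  have C0 : 0 ≤ C := by simpa using (norm_nonneg _).trans (hC UpperHalfPlane.I)
  have key : ∀ z : ℍ, 1 ≤ z.im → |z.re| ≤ N → ‖(F ∣[(k : ℤ)] γ) z‖ ≤ C * K ^ k := fun z a b => by
    have j0 := norm_pos_iff.2 (denom_ne_zero γ z)
    have j1 : 1 ≤ ‖denom γ z‖ := by
      rw [ModularGroup.denom_apply]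
      by_cases c0 : γ 1 0 = 0
      · have := γ.det_coe
        rw [Matrix.det_fin_two, c0, mul_zero, sub_zero] at this
        rcases Int.eq_one_or_neg_one_of_mul_eq_one' this with e | e <;> simp [c0, e.2]
      · refine le_trans ?_ (abs_im_le_norm _)
        have : (1 : ℝ) ≤ |(γ 1 0 : ℝ)| := by exact_mod_cast Int.one_le_abs c0
        simpa [abs_mul, abs_of_pos z.im_pos] using one_le_mul_of_one_le_of_one_le this a
    have j2 : ‖denom γ z‖ ≤ K * z.im := by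
      rw [ModularGroup.denom_apply, hK]
      refine (norm_add_le _ _).trans ?_
      have := norm_le_abs_re_add_abs_im (z : ℂ)
      rw [coe_re, coe_im, abs_of_pos z.im_pos] at this
      rw [norm_mul, norm_intCast, norm_intCast]
      nlinarith [abs_nonneg (γ 1 0 : ℝ), abs_nonneg (γ 1 1 : ℝ),
        mul_le_mul_of_nonneg_left (this.trans (show _ ≤ (N + 1) * z.im by nlinarith))
          (abs_nonneg (γ 1 0 : ℝ))]
    have j3 : K⁻¹ ≤ min (γ • z).im 1 * ‖denom γ z‖ := by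
      rw [min_mul_of_nonneg _ _ j0.le, le_min_iff, ModularGroup.im_smul_eq_div_normSq,
        normSq_eq_norm_sq, one_mul]
      refine ⟨?_, (inv_le_one_of_one_le₀ K1).trans j1⟩
      rw [inv_le_iff_one_le_mul₀ (by positivity)]
      field_simp
      linarith
    rw [ModularForm.SL_slash_apply, norm_mul, norm_zpow, zpow_neg, zpow_natCast, ← div_eq_mul_inv]
    refine (div_le_div_of_nonneg_right (hC _) (by positivity)).trans ?_
    rw [div_div, ← mul_pow, ← div_inv_eq_mul C, ← inv_pow]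
    gcongr
  rw [isBoundedAtImInfty_iff]
  refine ⟨C * K ^ k, 1, fun z hz => ?_⟩
  obtain ⟨m, hm⟩ : ∃ m : ℤ, |z.re + (N * m : ℤ)| ≤ N := by
    refine ⟨-⌊z.re / N⌋, ?_⟩
    have a := Int.sub_floor_div_mul_nonneg z.re N0
    have b := Int.sub_floor_div_mul_lt z.re N0
    rw [abs_le]
    push_cast
    constructor <;> linarith
  have h1 := Gamma_mem.1 ((Gamma_normal N).conj_mem _
    (ModularGroup_T_pow_mem_Gamma N (N * m) (dvd_mul_right _ _)) γ)
  have h2 := congrFun (congrArg (· ∣[(k : ℤ)] γ) (h _ (Gamma0_mem.2 h1.2.2.1))) z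
  rw [← SlashAction.slash_mul, inv_mul_cancel_right, SlashAction.slash_mul,
    ModularForm.SL_slash_apply, ModularGroup.denom_apply, ModularGroup.coe_T_zpow] at h2
  have h3 := key (ModularGroup.T ^ (N * m : ℤ) • z) (by rwa [ModularGroup.im_T_zpow_smul])
    (by rwa [ModularGroup.re_T_zpow_smul])
  rw [← h2]
  simpa using h3

/-- the theta series -/
def Th (f : (Fin 4 → ℤ) → ℂ) (ξ : Fin 4 → ℂ) (n : ℕ) (τ : ℍ) : ℂ := ∑' x, tm f ξ n 0 τ x

theorem isMF_Th {M N : ℕ} [NeZero M] [NeZero N] (hN : 4 * M ^ 2 ∣ N)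
    (per : ∀ x y, f (x + (M : ℤ) • y) = f x)
    (sc : ∀ d : ℤ, IsCoprime d N → ∀ x, f (d • x) = f x) (hξ : sq4 ξ = 0) (n : ℕ) :
    IsMF (Gamma0 N) (n + 2 : ℕ) (Th f ξ n) := by
  obtain ⟨A, hA⟩ := bdd_per per
  have hs : ∀ γ ∈ Gamma0 N, Th f ξ n ∣[((n + 2 : ℕ) : ℤ)] γ = Th f ξ n := fun γ hγ => by
    funext τ
    have h1 := (ZMod.intCast_zmod_eq_zero_iff_dvd _ _).1 (Gamma0_mem.1 hγ)
    have h2 := γ.det_coe
    rw [Matrix.det_fin_two] at h2
    obtain ⟨c, hc⟩ := (Int.natCast_dvd_natCast.2 hN).trans h1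
    obtain ⟨e, he⟩ := h1
    push_cast at hc
    have h3 : ((γ • τ : ℍ) : ℂ) = (γ 0 0 * τ + γ 0 1) / (4 * M ^ 2 * c * τ + γ 1 1) := by
      rw [coe_specialLinearGroup_apply]
      simp [hc]
    have h4 := law_tm per hξ (hc ▸ h2) τ.im_pos (h3 ▸ (γ • τ).im_pos) n 0
    have h5 := den_ne (hc ▸ h2) τ.im_pos
    rw [zero_div, ← h3,
      funext (sc _ ⟨γ 0 0, -(γ 0 1 * e), by rw [he] at h2; linear_combination h2⟩)] at h4
    rw [ModularForm.SL_slash_apply, ModularGroup.denom_apply, Th, h4, hc, zpow_neg, zpow_natCast]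
    push_cast at h5 ⊢
    rw [mul_right_comm, mul_inv_cancel₀ (pow_ne_zero _ h5), one_mul, Th]
  refine ⟨mem_Hol.2 (mdifferentiable_iff.2 fun z hz => ?_), hs, bdd_of_growth hs
    (C := A * n ! * Real.exp (4 * ‖ξ‖ ^ 2) * ∑' x, gz 1 x) fun τ => ?_⟩
  · have hz' : 0 < z.im := hz
    have h1 := differentiableOn_tsum_of_summable_norm (U := {w | z.im / 2 < w.im})
      (F := fun x w => tm f ξ n 0 w x) ((sm_gz (half_pos hz')).mul_left _)
      (fun x => by unfold tm; fun_prop) (isOpen_lt continuous_const Complex.continuous_im)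
      fun x w hw => tm_le hA n (half_pos hz') le_rfl (le_of_lt hw) x
    refine ((h1.differentiableAt ((isOpen_lt continuous_const Complex.continuous_im).mem_nhds
      (half_lt_self hz'))).differentiableWithinAt).congr (fun w hw => ?_) ?_
    · simp only [Function.comp, Th, ofComplex_apply_of_im_pos hw]
    · simp only [Function.comp, Th, ofComplex_apply_of_im_pos hz']
  · have u0 : 0 < min τ.im 1 := lt_min τ.im_pos one_pos
    have u1 := min_le_right τ.im 1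
    have A0 := (norm_nonneg _).trans (hA 0)
    generalize hu : min τ.im 1 = u at u0 u1
    refine (tsum_of_norm_bounded ((sm_gz u0).hasSum.mul_left _) (tm_le hA n u0 norm_zero.le
      (hu ▸ min_le_left _ _))).trans ((mul_le_mul (mul_le_mul_of_nonneg_left (Real.exp_le_exp.2
        (show _ ≤ 4 * ‖ξ‖ ^ 2 from ?_)) (by positivity)) (gz_le u0 u1)
          (tsum_nonneg fun _ => (Real.exp_pos _).le) (by positivity)).trans_eq (by ring))
    rw [mul_zero, add_zero, div_le_iff₀ u0]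
    nlinarith [mul_nonneg (mul_nonneg u0.le (sq_nonneg ‖ξ‖)) (sub_nonneg.2 u1)]

theorem hasSum_Th (hf : ∀ x, ‖f x‖ ≤ A) (n : ℕ) (τ : ℍ) : HasSum (fun k : ℕ =>
    (∑ x ∈ shell k, f x * dot ξ x ^ n) * Function.Periodic.qParam 1 τ ^ k) (Th f ξ n τ) := by
  refine (congrArg (HasSum · _) (funext fun k => ?_)).mp
    ((sm_tm hf n 0 τ.im_pos).hasSum.tsum_fiberwise fun x => (nq x).toNat)
  rw [show (fun x => (nq x).toNat) ⁻¹' {k} = shell k from Set.ext fun x => by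
    have := nq_nonneg x
    rw [Finset.mem_coe, mem_shell, Set.mem_preimage, Set.mem_singleton_iff]
    omega, Finset.tsum_subtype', Finset.sum_mul]
  refine Finset.sum_congr rfl fun x hx => ?_
  rw [tm, mem_shell.1 hx, Function.Periodic.qParam, ← Complex.exp_nat_mul]
  congr 2
  push_cast
  ring

end Vale.Agent.P004M.D
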