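import Vale.Agent.P004M.D.ThB
import Vale.Agent.P004M.D.Hur
import Vale.Agent.P022K.UC.Fun
import Vale.Agent.P022K.UC.Alg3

/-!
# P004M, route D: theta series of the Hurwitz order, and words in the Hecke operators
-/

set_option linter.all false

open CongruenceSubgroup

noncomputable section

namespace Vale.Agent.P004M.D

open Vale.Agent.P022 Vale.Agent.P022.H218.L3 Vale.Agent.P022.H783 Vale.Agent.P022K.UC
open Vale.Agent.P022K.UC.Hm Hu
open Vale.Agent.P022.H567.Tw (cf cf_unique)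
open Vale.Agent.P022.H811.L3 (Up Up_dia coeff_Up zero_of_coeff)

/-- **THETA** for the sum of four squares -/
theorem theta {M N : ℕ} [NeZero M] [NeZero N] (hN : 4 * M ^ 2 ∣ N) {f : (Fin 4 → ℤ) → ℂ}
    (per : ∀ x y, f (x + (M : ℤ) • y) = f x)
    (sc : ∀ d : ℤ, IsCoprime d N → ∀ x, f (d • x) = f x) {ξ : Fin 4 → ℂ} (hξ : sq4 ξ = 0) (n : ℕ) :
    ∃ F : MF N (n + 2), Tv F ∧ ∀ k, cf F k = ∑ x ∈ shell k, f x * dot ξ x ^ n := by
  have h := isMF_Th hN per sc hξ n
  obtain ⟨A, hA⟩ := bdd_per per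
  exact ⟨Ab.toMF (h.mono (Gamma1_in_Gamma0 N)), fun l => DFunLike.coe_injective
    ((slG0_coe _ _ _).trans (h.slash _ (gd_mem l.coprime))), cf_unique _ _ (hasSum_Th hA n)⟩

theorem co_int (d : ℤ) (x : Hu) : co (d * x) = d • co x := by
  ext i
  fin_cases i <;> simp [co] <;> ring

theorem co_lin (x : Hu) (d : ℤ) (y : Fin 4 → ℤ) : co (x + d * lip y) = co x + (2 * d) • y := by
  rw [co_add, co_int, co_lip]
  ext i
  simp
  ring

/-- **THETA** for the Hurwitz order -/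
theorem thetaH {M N : ℕ} [NeZero M] [NeZero N] (hN : 16 * M ^ 2 ∣ N) {f : Hu → ℂ}
    (per : ∀ x y, f (x + M * y) = f x) (sc : ∀ d : ℤ, IsCoprime d N → ∀ x, f (d * x) = f x)
    {ξ : Fin 4 → ℂ} (hξ : sq4 ξ = 0) (n : ℕ) :
    ∃ F : MF N (n + 2), Tv F ∧ ∀ k : ℕ, cf F k = ∑ x ∈ On k, f x * dot ξ (co x) ^ n := by
  have h2 : 2 ∣ N := (Dvd.intro (8 * M ^ 2) (by ring)).trans hN
  obtain ⟨F, h1, h3⟩ := theta (M := 2 * M) (N := N) (by convert hN using 1; ring)
    (f := Function.extend co f 0) (fun v y => by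
      by_cases h : ∃ x, co x = v
      · obtain ⟨x, rfl⟩ := h
        rw [Nat.cast_mul, Nat.cast_two, ← co_lin, co_inj.extend_apply, co_inj.extend_apply]
        exact per x _
      · rw [Function.extend_apply' _ _ _ h, Function.extend_apply']
        · rfl
        rintro ⟨x, hx⟩
        exact h ⟨x + (-M : ℤ) * lip y, by rw [co_lin, hx]; ext i; simp⟩) (fun d hd v => by
      by_cases h : ∃ x, co x = v
      · obtain ⟨x, rfl⟩ := h
        rw [← co_int, co_inj.extend_apply, co_inj.extend_apply, sc d hd]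
      · rw [Function.extend_apply' _ _ _ h, Function.extend_apply']
        · rfl
        rintro ⟨x, hx⟩
        obtain ⟨k, rfl⟩ := Int.isCoprime_two_right.1
          (hd.of_isCoprime_of_dvd_right (Int.natCast_dvd_natCast.2 h2))
        exact h ⟨x + (-k : ℤ) * lip v, by rw [co_lin, hx]; ext i; simp; ring⟩) hξ n
  refine ⟨Up Nat.prime_two h2 _ (Up Nat.prime_two h2 _ F), fun l => by
    rw [← Up_dia, ← Up_dia, h1], fun k => ?_⟩
  rw [cf, coeff_Up, coeff_Up, ← cf, h3, eq_comm]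
  refine Finset.sum_of_injOn co co_inj.injOn (fun x hx => ?_) (fun v _ hv => ?_) fun x _ => by
    rw [co_inj.extend_apply]
  · rw [Finset.mem_coe, mem_On] at hx
    rw [Finset.mem_coe, mem_shell, nq, ← nm_co, hx]
    push_cast
    ring
  · rw [Function.extend_apply', Pi.zero_apply, zero_mul]
    rintro ⟨x, rfl⟩
    refine hv ⟨x, mem_On.2 ?_, rfl⟩
    rename_i h4
    rw [mem_shell, nq, ← nm_co] at h4
    push_cast at h4
    omega

theorem dot_mul {ξ : Fin 4 → ℂ} (hξ : sq4 ξ = 0) (x : Hu) :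
    ∃ η, sq4 η = 0 ∧ ∀ β, dot ξ (co (β * x)) = dot η (co β) := by
  refine ⟨![ξ 0 * co x 0 + ξ 1 * co x 1 + ξ 2 * co x 2 + ξ 3 * co x 3,
    -ξ 0 * co x 1 + ξ 1 * co x 0 - ξ 2 * co x 3 + ξ 3 * co x 2,
    -ξ 0 * co x 2 + ξ 1 * co x 3 + ξ 2 * co x 0 - ξ 3 * co x 1,
    -ξ 0 * co x 3 - ξ 1 * co x 2 + ξ 2 * co x 1 + ξ 3 * co x 0] / 2, ?_, fun β => ?_⟩
  · simp only [sq4, Fin.sum_univ_four] at hξ ⊢
    simp
    linear_combination ((co x 0 : ℂ) ^ 2 + co x 1 ^ 2 + co x 2 ^ 2 + co x 3 ^ 2) / 4 * hξ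
  · simp [dot, Fin.sum_univ_four, co]
    ring

section words

variable (R : ℕ → Finset Hu) (N : ℕ)

/-- words in the sums of left translations -/
def TW (V : Type*) [AddCommGroup V] : FreeAlgebra ℤ (PA N) →ₐ[ℤ] Module.End ℤ (Hu → V) :=
  FreeAlgebra.lift ℤ fun l => ∑ α ∈ R l.1, LinearMap.funLeft ℤ V (α * ·)

variable {R N} {V W : Type*} [AddCommGroup V] [AddCommGroup W]

theorem TW_ι (l : PA N) (Φ : Hu → V) (x : Hu) :
    TW R N V (FreeAlgebra.ι ℤ l) Φ x = ∑ α ∈ R l.1, Φ (α * x) := by simp [TW]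

theorem TW_map (φ : V →+ W) (P : FreeAlgebra ℤ (PA N)) :
    ∀ Φ : Hu → V, TW R N W P (φ ∘ Φ) = φ ∘ TW R N V P Φ := by
  induction P using FreeAlgebra.induction with
  | grade0 r => exact fun Φ => funext fun x => by simp
  | grade1 l => exact fun Φ => funext fun x => by simp [TW_ι]
  | mul a b ha hb => exact fun Φ => by simp only [map_mul, Module.End.mul_apply, ha, hb]
  | add a b ha hb => exact fun Φ => funext fun x => by simp [ha, hb]

theorem TW_right (g : Hu) (P : FreeAlgebra ℤ (PA N)) :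
    ∀ Φ : Hu → V, TW R N V P (fun x => Φ (x * g)) = fun x => TW R N V P Φ (x * g) := by
  induction P using FreeAlgebra.induction with
  | grade0 r => exact fun Φ => funext fun x => by simp
  | grade1 l => exact fun Φ => funext fun x => by simp [TW_ι, mul_assoc]
  | mul a b ha hb => exact fun Φ => by simp only [map_mul, Module.End.mul_apply, ha, hb]
  | add a b ha hb => exact fun Φ => funext fun x => by simp [ha, hb]

theorem TW_congr {S : Set Hu} (hS : ∀ l : PA N, ∀ α ∈ R l.1, ∀ x ∈ S, α * x ∈ S)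
    (P : FreeAlgebra ℤ (PA N)) : ∀ Φ Ψ : Hu → V, (∀ x ∈ S, Φ x = Ψ x) →
      ∀ x ∈ S, TW R N V P Φ x = TW R N V P Ψ x := by
  induction P using FreeAlgebra.induction with
  | grade0 r => exact fun Φ Ψ h x hx => by simp [h x hx]
  | grade1 l =>
    intro Φ Ψ h x hx
    rw [TW_ι, TW_ι, Finset.sum_congr rfl fun α a => h _ (hS l α a x hx)]
  | mul a b ha hb =>
    intro Φ Ψ h
    simpa only [map_mul, Module.End.mul_apply] using ha _ _ (hb _ _ h)
  | add a b ha hb => exact fun Φ Ψ h x hx => by simp [ha _ _ h x hx, hb _ _ h x hx]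

theorem TW_eig {A : Type*} [CommRing A] [Module A V] {S : Set Hu}
    (hS : ∀ l : PA N, ∀ α ∈ R l.1, ∀ x ∈ S, α * x ∈ S) (a : PA N → A) {Φ : Hu → V}
    (h : ∀ l : PA N, ∀ x ∈ S, ∑ α ∈ R l.1, Φ (α * x) = a l • Φ x) (P : FreeAlgebra ℤ (PA N)) :
    ∀ x ∈ S, TW R N V P Φ x = FreeAlgebra.lift ℤ a P • Φ x := by
  induction P using FreeAlgebra.induction with
  | grade0 r => exact fun x _ => by simp [Int.cast_smul_eq_zsmul]
  | grade1 l => exact fun x hx => by simp [TW_ι, h l x hx]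
  | mul b c hb hc =>
    intro x hx
    rw [map_mul, Module.End.mul_apply, TW_congr hS b _
      (DistribSMul.toAddMonoidHom V (FreeAlgebra.lift ℤ a c) ∘ Φ) hc x hx, TW_map,
      Function.comp_apply, hb x hx, map_mul, mul_comm, mul_smul]
    rfl
  | add b c hb hc => exact fun x hx => by simp [hb x hx, hc x hx, add_smul]

theorem TW_wd [NeZero N] {m : ℕ} (P : FreeAlgebra ℤ (PA N)) : ∀ G : Hu → MF N (2 * m + 2),
    (∀ (l : PA N) x, ∑ α ∈ R l.1, G (α * x) = ((l.1 : ℂ) ^ m)⁻¹ • Tl _ l (G x)) →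
    TW R N (P022.MF N (2 * m + 2)) P G = fun x => wd N m P (G x) := by
  induction P using FreeAlgebra.induction with
  | grade0 r => exact fun G _ => funext fun x => by simp
  | grade1 l => exact fun G h => funext fun x => by simp [TW_ι, h, wd]
  | mul a b ha hb =>
    intro G h
    rw [map_mul, Module.End.mul_apply, hb G h, ha _ fun l x => by
      rw [← map_sum, h, map_smul, wd_comm (Tl_Tl _ l)], map_mul]
    rfl
  | add a b ha hb => exact fun G h => funext fun x => by simp [ha G h, hb G h]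

end words

/-- the Hecke relation for the system `R` -/
def Hk (R : ℕ → Finset Hu) (l : ℕ) : Prop := ∀ (Φ : Hu → ℂ) (n : ℕ),
  ∑ α ∈ R l, ∑ β ∈ On n, Φ (β * α) = ∑ δ ∈ On (l * n), Φ δ +
    if l ∣ n then l • ∑ ε ∈ On (n / l), Φ (l * ε) else 0

theorem kill1 {R : ℕ → Finset Hu} {M N m : ℕ} [NeZero M] [NeZero N] (hN : 16 * M ^ 2 ∣ N)
    (hR : ∀ l : PA N, Hk R l.1) {f : Hu → ℂ} (per : ∀ x y, f (x + M * y) = f x)
    (sc : ∀ d : ℤ, IsCoprime d N → ∀ x, f (d * x) = f x) {ξ : Fin 4 → ℂ} (hξ : sq4 ξ = 0)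
    {P : FreeAlgebra ℤ (PA N)} (hP : ∀ F, Tv F → wd N m P F = 0) :
    TW R N ℂ P (fun x => ∑ u ∈ On 1,
      f (u * x) * dot ξ (co (u * x)) ^ (2 * m) / nm (u * x) ^ m) = 0 := by
  obtain ⟨Φ, hΦ⟩ : ∃ Φ : Hu → ℂ, ∀ x, f x * dot ξ (co x) ^ (2 * m) / nm x ^ m = Φ x :=
    ⟨_, fun _ => rfl⟩
  have h1 : ∀ x, ∃ F : MF N (2 * m + 2), Tv F ∧ ∀ k : ℕ, 1 ≤ k →
      cf F k = k ^ m * ∑ β ∈ On k, Φ (β * x) := fun x => by
    obtain ⟨η, e1, e2⟩ := dot_mul hξ x
    obtain ⟨F, a, b⟩ := thetaH hN (f := fun β => f (β * x))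
      (fun β y => by rw [add_mul, mul_assoc, per]) (fun d hd β => by rw [mul_assoc, sc d hd])
      e1 (2 * m)
    refine ⟨((nm x : ℂ) ^ m)⁻¹ • F, fun l => by rw [map_smul, a], fun k hk => ?_⟩
    rw [← cfL_apply, map_smul, cfL_apply, b, smul_eq_mul, Finset.mul_sum, Finset.mul_sum]
    refine Finset.sum_congr rfl fun β hβ => ?_
    have : (k : ℂ) ^ m ≠ 0 := pow_ne_zero _ (Nat.cast_ne_zero.2 (by omega))
    rw [← hΦ, e2, map_mul, mem_On.1 hβ]
    push_cast
    rw [mul_pow]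
    field_simp
  choose G g1 g2 using h1
  have h2 := TW_wd (R := R) P G fun l x => sub_eq_zero.1 (zero_of_coeff (by omega) _ fun k hk => by
    have l0 : (l.1 : ℂ) ≠ 0 := Nat.cast_ne_zero.2 l.2.1.ne_zero
    have h3 := hR l (fun β => Φ (β * x)) k
    have h4 : ∀ ε, Φ (l.1 * ε * x) = Φ (ε * x) := fun ε => by
      rw [← hΦ, ← hΦ, mul_assoc, map_mul, nm_nat, ← Int.cast_natCast (R := Hu), co_int,
        sc _ (Nat.isCoprime_iff_coprime.2 l.coprime),
        show dot ξ ((l.1 : ℤ) • co (ε * x)) = l.1 * dot ξ (co (ε * x)) by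
          simp [dot, Finset.mul_sum, mul_left_comm]]
      push_cast
      rw [mul_pow, mul_pow, ← pow_mul]
      field_simp
    show cfL N _ k _ = 0
    rw [map_sub, map_sum, map_smul, cfL_apply, (g1 x).cf_tl, g2 x _ (Nat.mul_pos l.2.1.pos hk)]
    simp only [cfL_apply, g2 _ k hk, ← Finset.mul_sum, ← mul_assoc, h4] at h3 ⊢
    rw [h3, sub_eq_zero, smul_eq_mul]
    split_ifs with h5
    · obtain ⟨k, rfl⟩ := h5
      rw [Nat.mul_div_cancel_left _ l.2.1.pos, g2 x k (Nat.pos_of_mul_pos_left hk),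
        show ((2 * m + 2 : ℕ) : ℤ) - 1 = (2 * m + 1 : ℕ) by push_cast; ring, zpow_natCast]
      push_cast
      rw [Int.mul_ediv_cancel_left _ (Int.natCast_ne_zero.2 l.2.1.ne_zero), nsmul_eq_mul]
      field_simp
      ring
    · push_cast
      field_simp
      ring)
  have h3 := TW_map (R := R) (cfL N (2 * m + 2) 1).toAddMonoidHom P G
  rw [h2] at h3
  funext x
  convert congrFun h3 x using 2
  · funext y
    simp only [hΦ]
    simp [cfL_apply, g2]
  · simp [hP _ (g1 x)]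

end Vale.Agent.P004M.D
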