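import Vale.Agent.P004M.D.ThC
import Vale.Agent.P004M.Harm

/-!
# P004M, route D: a word which kills the modular forms kills the polynomial functions
-/

set_option linter.all false

open MvPolynomial

noncomputable section

namespace Vale.Agent.P004M.D

open Vale.Agent.P022 Vale.Agent.P022K.UC.Hm Hu

variable {R : ℕ → Finset Hu} {M N d : ℕ} [NeZero M] [NeZero N] (hN : 16 * M ^ 2 ∣ N)
  (hR : ∀ l : PA N, Hk R l.1) {P : FreeAlgebra ℤ (PA N)}
  (hP : ∀ m ≤ d, ∀ F, Tv F → wd N m P F = 0)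

include hN hR hP

theorem kill2 {f : Hu → ℂ} (per : ∀ x y, f (x + M * y) = f x)
    (sc : ∀ e : ℤ, IsCoprime e N → ∀ x, f (e * x) = f x) (f0 : f 0 = 0)
    {p : MvPolynomial (Fin 4) ℂ} (hp : p.IsHomogeneous (2 * d)) :
    TW R N ℂ P (fun x => ∑ u ∈ On 1,
      f (u * x) * (eval (fun i => (co (u * x) i : ℂ)) p / nm (u * x) ^ d)) = 0 := by
  have h0 := Harm.harmD Complex.I_sq (fun (y : Hu) i => (co y i : ℂ)) hp
  obtain ⟨g, hg⟩ : ∃ g : Hu → ℂ, ∀ y, eval (fun i => (co y i : ℂ)) p = g y := ⟨_, fun _ => rfl⟩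
  simp only [hg] at h0 ⊢
  refine Submodule.span_induction (p := fun (g : Hu → ℂ) _ => TW R N ℂ P (fun x => ∑ u ∈ On 1,
    f (u * x) * (g (u * x) / nm (u * x) ^ d)) = 0) ?_ ?_ (fun a b _ _ ha hb => ?_)
    (fun c a _ ha => ?_) h0
  · rintro _ ⟨r, w, ξ, e, hξ, rfl⟩
    obtain ⟨m, rfl⟩ : ∃ m, w = 2 * m := ⟨d - r, by omega⟩
    obtain rfl : d = r + m := by omega
    rw [← kill1 hN hR (f := fun x => 4 ^ r * f x) (fun x y => by rw [per])
      (fun e he x => by rw [sc e he]) hξ (hP m (by omega))]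
    refine congrArg _ (funext fun x => Finset.sum_congr rfl fun u _ => ?_)
    generalize u * x = y
    by_cases y0 : y = 0
    · rw [y0, f0, mul_zero, zero_mul, zero_mul, zero_div]
    have h1 : (nm y : ℂ) ≠ 0 := Int.cast_ne_zero.2 (mt nm_eq_zero.1 y0)
    have h2 : ∑ i, (co y i : ℂ) ^ 2 = 4 * nm y := by exact_mod_cast (nm_co y).symm
    beta_reduce
    rw [h2, dot, mul_pow, pow_add]
    field_simp
  · simp only [Pi.zero_apply, zero_div, mul_zero, Finset.sum_const_zero]
    exact map_zero _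
  · simp only [Pi.add_apply, add_div, mul_add, Finset.sum_add_distrib]
    exact (map_add _ _ _).trans (by rw [ha, hb, add_zero])
  · have := TW_map (R := R) (AddMonoidHom.mulLeft c) P fun x => ∑ u ∈ On 1,
      f (u * x) * (a (u * x) / nm (u * x) ^ d)
    rw [ha] at this
    convert this using 2
    · funext x
      simp [Finset.mul_sum, mul_div_assoc, mul_left_comm]
    · simp

/-- **KILL** -/
theorem kill {K : Type*} [Field K] [CharZero K] {f : Hu → ℚ} (per : ∀ x y, f (x + M * y) = f x)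
    (sc : ∀ e : ℤ, IsCoprime e N → ∀ x, f (e * x) = f x) (f0 : f 0 = 0)
    {p : MvPolynomial (Fin 4) K} (hp : p.IsHomogeneous (2 * d)) :
    TW R N K P (fun x => ∑ u ∈ On 1,
      f (u * x) * (eval (fun i => (co (u * x) i : K)) p / nm (u * x) ^ d)) = 0 := by
  have h1 : ∀ s ∈ p.support, TW R N ℚ P (fun x => ∑ u ∈ On 1,
      f (u * x) * ((∏ i, (co (u * x) i : ℚ) ^ s i) / nm (u * x) ^ d)) = 0 := fun s hs => by
    have h2 := kill2 hN hR hP (f := fun x => f x) (fun x y => by rw [per])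
      (fun e he x => by rw [sc e he]) (by rw [f0, Rat.cast_zero]) (isHomogeneous_monomial (d := s)
        (1 : ℂ) (by rw [Finsupp.degree_eq_weight_one]; exact hp (mem_support_iff.1 hs)))
    funext x
    refine Rat.cast_injective (α := ℂ) ((congrFun (TW_map (Rat.castHom ℂ).toAddMonoidHom P _)
      x).symm.trans ?_)
    rw [Pi.zero_apply, Rat.cast_zero]
    refine Eq.trans (congrFun (congrArg _ (funext fun y => ?_)) x) (congrFun h2 x)
    simp [eval_monomial, Finsupp.prod_fintype, -map_mul]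
  have h3 := Finset.sum_congr rfl fun s hs => (TW_map (R := R) ((AddMonoidHom.mulLeft
    (coeff s p)).comp (Rat.castHom K).toAddMonoidHom) P _).trans (congrArg _ (h1 s hs))
  rw [← map_sum] at h3
  convert h3 using 2
  · funext x
    simp only [eval_eq', Finset.sum_div, Finset.mul_sum, Finset.sum_apply]
    rw [Finset.sum_comm]
    refine Finset.sum_congr rfl fun s _ => ?_
    simp [Finset.mul_sum, mul_div_assoc, mul_left_comm, -map_mul]
  · ext x
    simp

end Vale.Agent.P004M.D
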