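import Vale.Agent.P004M.D.ThD

/-!
# P004M, route D: KILL for families of polynomials
-/

set_option linter.all false

open MvPolynomial

noncomputable section

namespace Vale.Agent.P004M.D

open Vale.Agent.P022 Vale.Agent.P022K.UC.Hm Hu

theorem fin_range {X : Type*} {n : ℕ} (hn : n ≠ 0) {F : Hu → X} (h : ∀ x y, F (x + n • y) = F x) :
    (Set.range F).Finite := by
  have hI := Set.finite_Ico (0 : ℤ) n
  refine ((hI.prod (hI.prod (hI.prod hI))).image fun v => F ⟨v.1, v.2.1, v.2.2.1, v.2.2.2⟩).subset ?_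
  rintro _ ⟨x, rfl⟩
  have h1 : ∀ z : ℤ, z % n ∈ Set.Ico (0 : ℤ) n := fun z =>
    ⟨Int.emod_nonneg _ (by omega), Int.emod_lt_of_pos _ (by omega)⟩
  refine ⟨(x.a % n, x.b % n, x.c % n, x.d % n), ⟨h1 _, h1 _, h1 _, h1 _⟩,
    (h _ ⟨x.a / n, x.b / n, x.c / n, x.d / n⟩).symm.trans (congrArg F ?_)⟩
  ext <;> simp [Int.emod_add_mul_ediv]

theorem odd_add (x y : Hu) : Odd (nm (x + 2 * y)) ↔ Odd (nm x) := by
  have : nm (x + 2 * y) = nm x + 2 * (2 * nm y + (x * cj y + y * cj x).a) := by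
    rw [two_mul y]
    simp [nm_def, cj]
    ring
  rw [this, Int.odd_add]
  simp

theorem kill3 {R : ℕ → Finset Hu} {M N d : ℕ} [NeZero M] [NeZero N] (hN : 16 * (4 * M) ^ 2 ∣ N)
    (hR : ∀ l : PA N, Hk R l.1) (hR' : ∀ l : PA N, ∀ α ∈ R l.1, Odd (nm α))
    {P : FreeAlgebra ℤ (PA N)} (hP : ∀ m ≤ d, ∀ F, Tv F → wd N m P F = 0)
    {K : Type*} [Field K] [CharZero K] {p : Hu → MvPolynomial (Fin 4) K}
    (hp : ∀ x, (p x).IsHomogeneous (2 * d)) (per : ∀ x y, p (x + (4 * M) • y) = p x)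
    (sc : ∀ e : ℤ, IsCoprime e N → ∀ x, p (e • x) = p x) {x : Hu} (hx : Odd (nm x)) :
    TW R N K P (fun x => ∑ u ∈ On 1,
      eval (fun i => (co (u * x) i : K)) (p (u * x)) / nm (u * x) ^ d) x = 0 := by
  classical
  have fin := fin_range (NeZero.ne (4 * M)) per
  have h2 : (2 : ℤ) ∣ N := Int.natCast_dvd_natCast.2
    ((Dvd.intro (8 * (4 * M) ^ 2) (by ring)).trans hN)
  have h1 := Finset.sum_eq_zero fun q (hq : q ∈ fin.toFinset) => kill hN hR hP
    (f := fun y => if p y = q ∧ Odd (nm y) then 1 else 0) (fun y z => by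
      rw [← nsmul_eq_mul, per, show (4 * M) • z = 2 * ((2 * M) • z) by
        rw [two_mul ((2 * M) • z), ← add_nsmul]
        congr 1
        ring]
      simp only [odd_add]) (fun e he y => by
      have := Int.isCoprime_two_right.1 (he.of_isCoprime_of_dvd_right h2)
      simp only [map_mul, nm_int, Int.odd_mul, Int.odd_pow, this, true_or, true_and]
      rw [← zsmul_eq_mul, sc e he]) (by simp [nm_def])
    (p := q) (by obtain ⟨y, rfl⟩ := fin.mem_toFinset.1 hq; exact hp y)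
  rw [← map_sum] at h1
  refine (TW_congr (S := {y | Odd (nm y)}) (fun l α a y hy => ?_) P _ _ (fun y hy => ?_) x
    hx).trans (congrFun h1 x)
  · exact (congrArg Odd (map_mul nm α y)).mpr ((hR' l α a).mul hy)
  · rw [Finset.sum_apply, Finset.sum_comm]
    refine Finset.sum_congr rfl fun u hu => ?_
    have : Odd (nm (u * y)) := by rwa [map_mul, mem_On.1 hu, one_mul]
    rw [Finset.sum_eq_single_of_mem (p (u * y)) (by simp) fun q _ e => by simp [e.symm]]
    simp only [this, and_self, if_true, Rat.cast_one, one_mul]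

end Vale.Agent.P004M.D
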