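import Vale.Agent.P027H.Add
import Vale.Agent.P179W.PtRed

/-!
# P004M, route D, block X: the curves `y ^ 2 + t x y + y = x ^ 3`, uniformisation, reduction
-/

set_option autoImplicit false
set_option linter.all false

open WeierstrassCurve WeierstrassCurve.Affine Filter Topology
open scoped Classical

noncomputable section

namespace Vale.Agent.P004M.D

open Vale.Agent.P027H P179W

/-- the curve `y ^ 2 + t x y + y = x ^ 3` -/
def Et {R : Type} [CommRing R] (t : R) : WeierstrassCurve R := ⟨t, 0, 1, 0, 0⟩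

/-- its points -/
abbrev Pt {K : Type} [Field K] (t : K) : Type := (Et t).toAffine.Point

theorem Et_eqn {R : Type} [CommRing R] (t x y : R) :
    (Et t).toAffine.Equation x y ↔ y ^ 2 + t * x * y + y = x ^ 3 := by
  rw [equation_iff]
  simp [Et]

theorem Et_Δ {R : Type} [CommRing R] (t : R) : (Et t).Δ = t ^ 3 - 27 := by
  simp only [Et, Δ, b₂, b₄, b₆, b₈]
  ring

/-- first coordinate, `0` at infinity -/
def xc {K : Type} [Field K] {t : K} : Pt t → K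
  | .zero => 0
  | .some x _ _ => x

/-- second coordinate, `0` at infinity -/
def yc {K : Type} [Field K] {t : K} : Pt t → K
  | .zero => 0
  | .some _ y _ => y

/-- `Λ` is the period lattice of `Et t` -/
structure Nm (Λ : Submodule ℤ ℂ) (t : ℂ) : Prop where
  lat : IsLat Λ
  e2 : g2 Λ = (t ^ 4 - 24 * t) / 12
  e3 : g3 Λ = (-t ^ 6 + 36 * t ^ 3 - 216) / 216

/-- the function `x` -/
def xx (Λ : Submodule ℤ ℂ) (t z : ℂ) : ℂ := wp Λ z - t ^ 2 / 12

/-- the function `y` -/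
def yy (Λ : Submodule ℤ ℂ) (t z : ℂ) : ℂ := (dwp Λ z - t * xx Λ t z - 1) / 2

/-- the uniformisation -/
def exf (Λ : Submodule ℤ ℂ) (t z : ℂ) : Pt t :=
  if z ∈ Λ then 0 else pt (Et t) (xx Λ t z) (yy Λ t z)

variable {Λ : Submodule ℤ ℂ} {t : ℂ}

theorem ex_nm (ht : t ^ 3 ≠ 27) : ∃ Λ, Nm Λ t := by
  obtain ⟨Λ, h1, h2, h3⟩ := exists_lat (a := (t ^ 4 - 24 * t) / 12)
    (b := (-t ^ 6 + 36 * t ^ 3 - 216) / 216) fun e => ht (by linear_combination (-16) * e)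
  exact ⟨Λ, h1, h2, h3⟩

namespace Nm

variable (h : Nm Λ t)
include h

theorem uniq {Λ' : Submodule ℤ ℂ} (h' : Nm Λ' t) : Λ = Λ' :=
  h.lat.ext_g h'.lat (h.e2.trans h'.e2.symm) (h.e3.trans h'.e3.symm)

theorem Δ_ne : (Et t).Δ ≠ 0 := fun e => h.lat.disc_ne (by
  rw [h.e2, h.e3]
  rw [Et_Δ] at e
  linear_combination (-1 / 16) * e)

theorem eqn {z : ℂ} (hz : z ∉ Λ) :
    yy Λ t z ^ 2 + t * xx Λ t z * yy Λ t z + yy Λ t z = xx Λ t z ^ 3 := by
  have := h.lat.ode hz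
  rw [h.e2, h.e3] at this
  simp only [yy, xx]
  linear_combination (1 / 4) * this

theorem ns {z : ℂ} (hz : z ∉ Λ) : (Et t).toAffine.Nonsingular (xx Λ t z) (yy Λ t z) :=
  nonsing_of_Δ h.Δ_ne ((Et_eqn _ _ _).2 (h.eqn hz))

theorem exf_of {z : ℂ} (hz : z ∉ Λ) : exf Λ t z = .some _ _ (h.ns hz) := by
  rw [exf, if_neg hz, pt_of]

theorem xx_congr {z w : ℂ} (e : z - w ∈ Λ) : xx Λ t z = xx Λ t w := by
  rw [xx, xx, h.lat.wp_congr e]

theorem yy_congr {z w : ℂ} (e : z - w ∈ Λ) : yy Λ t z = yy Λ t w := by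
  rw [yy, yy, h.xx_congr e, h.lat.dwp_congr e]

theorem xx_neg (z : ℂ) : xx Λ t (-z) = xx Λ t z := by rw [xx, xx, h.lat.wp_neg]

theorem yy_neg (z : ℂ) : yy Λ t (-z) = -yy Λ t z - t * xx Λ t z - 1 := by
  rw [yy, yy, h.xx_neg, h.lat.dwp_neg]
  ring

theorem exf_congr {z w : ℂ} (e : z - w ∈ Λ) : exf Λ t z = exf Λ t w := by
  have : z ∈ Λ ↔ w ∈ Λ := ⟨fun k => mem_of_eq (sub_mem k e) (by ring),
    fun k => mem_of_eq (add_mem k e) (by ring)⟩
  rw [exf, exf, h.xx_congr e, h.yy_congr e, if_congr this rfl rfl]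

theorem exf_neg (z : ℂ) : exf Λ t (-z) = -exf Λ t z := by
  by_cases hz : z ∈ Λ
  · rw [exf, exf, if_pos hz, if_pos (neg_mem hz), neg_zero]
  · rw [h.exf_of hz, h.exf_of (mt neg_mem_iff.1 hz), Point.neg_some]
    congr 1
    · exact h.xx_neg z
    · rw [h.yy_neg, negY]
      simp [Et]

theorem exf_add1 {z w : ℂ} (hz : z ∉ Λ) (hw : w ∉ Λ) (h1 : z - w ∉ Λ) (h2 : z + w ∉ Λ) :
    exf Λ t (z + w) = exf Λ t z + exf Λ t w := by
  have ne := h.lat.wp_ne hz hw h1 h2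
  obtain ⟨-, a1, a2⟩ := h.lat.add hz hw ne
  have nx : xx Λ t z ≠ xx Λ t w := fun e => ne (sub_left_injective e)
  have sp : (Et t).toAffine.slope (xx Λ t z) (xx Λ t w) (yy Λ t z) (yy Λ t w) =
      (sl (wp Λ z) (dwp Λ z) (wp Λ w) (dwp Λ w) - t) / 2 := by
    rw [slope_of_X_ne nx, sl]
    have := sub_ne_zero.2 ne
    simp only [yy, xx, sub_sub_sub_cancel_right]
    field_simp
    ring
  rw [h.exf_of hz, h.exf_of hw, h.exf_of h2, Point.add_of_X_ne nx]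
  congr 1
  · rw [sp, xx, a1, aX, addX]
    simp only [Et, xx]
    ring
  · rw [sp, yy, xx, a2, a1, aY, aX, addY, negY, negAddY, addX]
    simp only [Et, xx, yy]
    ring

theorem exf_add (z w : ℂ) : exf Λ t (z + w) = exf Λ t z + exf Λ t w := by
  have z0 : ∀ {z}, z ∈ Λ → exf Λ t z = 0 := fun hz => if_pos hz
  by_cases hz : z ∈ Λ
  · rw [z0 hz, zero_add, h.exf_congr (mem_of_eq hz (add_sub_cancel_right z w))]
  by_cases hw : w ∈ Λ
  · rw [z0 hw, add_zero, h.exf_congr (mem_of_eq hw (add_sub_cancel_left z w))]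
  by_cases h2 : z + w ∈ Λ
  · rw [z0 h2, h.exf_congr (z := z) (w := -w) (by rwa [sub_neg_eq_add]), h.exf_neg, neg_add_cancel]
  by_cases h1 : z - w ∈ Λ
  swap
  · exact h.exf_add1 hz hw h1 h2
  have t1 : Tendsto (fun c : ℂ => z + c) (𝓝[≠] 0) (𝓝 z) :=
    ((continuous_const.add continuous_id).tendsto' 0 z (add_zero z)).mono_left nhdsWithin_le_nhds
  have t2 : Tendsto (fun c : ℂ => z - c) (𝓝[≠] 0) (𝓝 z) :=
    ((continuous_const.sub continuous_id).tendsto' 0 z (sub_zero z)).mono_left nhdsWithin_le_nhds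
  have t3 : Tendsto (fun c : ℂ => c + c) (𝓝[≠] 0) (𝓝[≠] 0) :=
    tendsto_nhdsWithin_iff.2 ⟨((continuous_id.add continuous_id).tendsto' 0 0
      (add_zero 0)).mono_left nhdsWithin_le_nhds,
      eventually_nhdsWithin_of_forall fun c hc e => hc (add_self_eq_zero.1 e)⟩
  obtain ⟨c, ⟨⟨c1, c2⟩, c3⟩, c4⟩ := (((h.lat.notMem_zero.and (t1.eventually
    (h.lat.notMem_nhds hz))).and (t2.eventually (h.lat.notMem_nhds hz))).and
    (t3.eventually h.lat.notMem_zero)).exists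
  have h3 : z + c + (z - c) ∉ Λ := fun e => h2 (mem_of_eq (sub_mem e h1) (by ring))
  rw [← h.exf_congr h1, h.exf_congr (z := z + w) (w := z + c + (z - c))
    (mem_of_eq (neg_mem h1) (by ring)), h.exf_add1 c2 c3 (fun e => c4 (mem_of_eq e (by ring))) h3,
    h.exf_add1 hz c1 c3 c2, sub_eq_add_neg, h.exf_add1 hz (mt neg_mem_iff.1 c1)
      (by rwa [sub_neg_eq_add]) (by rwa [← sub_eq_add_neg]), h.exf_neg]
  abel

/-- the uniformisation as a homomorphism -/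
def ex : ℂ →+ Pt t := AddMonoidHom.mk' (exf Λ t) h.exf_add

theorem ex_of {z : ℂ} (hz : z ∉ Λ) : h.ex z = .some _ _ (h.ns hz) := h.exf_of hz

theorem ex_eq_zero {z : ℂ} : h.ex z = 0 ↔ z ∈ Λ :=
  ⟨fun e => by_contra fun hz => Point.some_ne_zero _ ((h.ex_of hz).symm.trans e),
    fun hz => if_pos hz⟩

theorem surj {x y : ℂ} (e : y ^ 2 + t * x * y + y = x ^ 3) :
    ∃ z, z ∉ Λ ∧ xx Λ t z = x ∧ yy Λ t z = y := by
  obtain ⟨z, hz, h1, h2⟩ := h.lat.surj (x := x + t ^ 2 / 12) (y := 2 * y + t * x + 1) (by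
    rw [h.e2, h.e3]
    linear_combination 4 * e)
  have h3 : xx Λ t z = x := by rw [xx, h1, add_sub_cancel_right]
  exact ⟨z, hz, h3, by rw [yy, h2, h3]; ring⟩

/-- the duplication formula -/
theorem dup {z : ℂ} (h2 : 2 * z ∉ Λ) :
    xx Λ t (2 * z) * (4 * xx Λ t z ^ 3 + t ^ 2 * xx Λ t z ^ 2 + 2 * t * xx Λ t z + 1) =
      xx Λ t z ^ 4 - t * xx Λ t z ^ 2 - 2 * xx Λ t z ∧
    4 * xx Λ t z ^ 3 + t ^ 2 * xx Λ t z ^ 2 + 2 * t * xx Λ t z + 1 ≠ 0 := by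
  have hz : z ∉ Λ := fun e => h2 (mem_of_eq (add_mem e e) (two_mul z))
  have e := h.eqn hz
  have k := (congrArg h.ex (two_mul z)).symm.trans (h.ex_of h2)
  have n0 : 2 * yy Λ t z + t * xx Λ t z + 1 ≠ 0 := fun e =>
    h2 ((h.lat.dwp_eq_zero hz).1 (by rw [yy] at e; linear_combination e))
  have ny : yy Λ t z ≠ (Et t).toAffine.negY (xx Λ t z) (yy Λ t z) := fun e => n0 (by
    simp only [negY, Et] at e
    linear_combination e)
  rw [map_add, h.ex_of hz, Point.add_of_Y_ne ny] at k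
  injection k with k1 k2
  rw [slope_of_Y_ne rfl ny, addX, negY] at k1
  simp only [Et] at k1
  have sq : 4 * xx Λ t z ^ 3 + t ^ 2 * xx Λ t z ^ 2 + 2 * t * xx Λ t z + 1 =
      (2 * yy Λ t z + t * xx Λ t z + 1) ^ 2 := by linear_combination (-4) * e
  refine ⟨?_, sq ▸ pow_ne_zero 2 n0⟩
  rw [← k1, show yy Λ t z - (-yy Λ t z - t * xx Λ t z - 1) =
    2 * yy Λ t z + t * xx Λ t z + 1 by ring]
  have k3 := div_mul_cancel₀ (3 * xx Λ t z ^ 2 + 2 * 0 * xx Λ t z + 0 - t * yy Λ t z) n0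
  generalize (3 * xx Λ t z ^ 2 + 2 * 0 * xx Λ t z + 0 - t * yy Λ t z) /
    (2 * yy Λ t z + t * xx Λ t z + 1) = l at k3 ⊢
  rw [sq]
  linear_combination (l * (2 * yy Λ t z + t * xx Λ t z + 1) + 3 * xx Λ t z ^ 2 - t * yy Λ t z +
    t * (2 * yy Λ t z + t * xx Λ t z + 1)) * k3 + (-(t ^ 2) - 8 * xx Λ t z) * e

/-- the sum of the abscissae of `z + w` and `z - w` -/
theorem pair {z w : ℂ} (hz : z ∉ Λ) (hw : w ∉ Λ) (h1 : z - w ∉ Λ) (h2 : z + w ∉ Λ) :
    (xx Λ t (z + w) + xx Λ t (z - w)) * (xx Λ t z - xx Λ t w) ^ 2 =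
      2 * xx Λ t z * xx Λ t w * (xx Λ t z + xx Λ t w) + t ^ 2 * xx Λ t z * xx Λ t w +
        t * (xx Λ t z + xx Λ t w) + 1 ∧ xx Λ t z ≠ xx Λ t w := by
  have ne := h.lat.wp_ne hz hw h1 h2
  obtain ⟨-, a1, -⟩ := h.lat.add hz hw ne
  obtain ⟨-, a2, -⟩ := h.lat.add hz (mt neg_mem_iff.1 hw) (by rwa [h.lat.wp_neg])
  have e1 := h.lat.ode hz
  have e2 := h.lat.ode hw
  rw [h.e2, h.e3] at e1 e2
  rw [h.lat.wp_neg, h.lat.dwp_neg, ← sub_eq_add_neg] at a2
  refine ⟨?_, fun e => ne (sub_left_injective e)⟩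
  have := sub_ne_zero.2 ne
  simp only [xx, a1, a2, aX, sl, sub_sub_sub_cancel_right]
  field_simp
  linear_combination 3456 * e1 + 3456 * e2

end Nm

/-! ### reduction -/

/-- the residue field -/
abbrev kk (A : ValuationSubring ℂ) : Type := IsLocalRing.ResidueField A

/-- the reduction of a complex number (`0` outside `A`) -/
def rs (A : ValuationSubring ℂ) (a : ℂ) : kk A :=
  if h : a ∈ A then IsLocalRing.residue A ⟨a, h⟩ else 0

variable {A : ValuationSubring ℂ}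

theorem rs_coe (a : A) : rs A a = IsLocalRing.residue A a := dif_pos a.2

theorem rs_add {a b : ℂ} (ha : a ∈ A) (hb : b ∈ A) : rs A (a + b) = rs A a + rs A b := by
  lift a to A using ha
  lift b to A using hb
  rw [← A.coe_add, rs_coe, rs_coe, rs_coe, map_add]

theorem rs_mul {a b : ℂ} (ha : a ∈ A) (hb : b ∈ A) : rs A (a * b) = rs A a * rs A b := by
  lift a to A using ha
  lift b to A using hb
  rw [← A.coe_mul, rs_coe, rs_coe, rs_coe, map_mul]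

theorem rs_one : rs A 1 = 1 := (rs_coe 1).trans (map_one _)

theorem rs_zero : rs A 0 = 0 := (rs_coe 0).trans (map_zero _)

theorem rs_eq_zero {a : ℂ} (ha : a ∈ A) : rs A a = 0 ↔ A.valuation a < 1 := by
  lift a to A using ha
  rw [rs_coe, IsLocalRing.residue_eq_zero_iff, A.valuation_lt_one_iff]

theorem rs_surj (b : kk A) : ∃ a ∈ A, rs A a = b := by
  obtain ⟨a, rfl⟩ := IsLocalRing.residue_surjective b
  exact ⟨a, a.2, rs_coe a⟩

/-- a supersingular point -/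
structure Ss (A : ValuationSubring ℂ) (Λ : Submodule ℤ ℂ) (t : ℂ) : Prop extends Nm Λ t where
  two : A.valuation 2 < 1
  lt : A.valuation t < 1

theorem val_odd (h2 : A.valuation 2 < 1) {n : ℤ} (hn : Odd n) : A.valuation n = 1 := by
  obtain ⟨k, rfl⟩ := hn
  push_cast
  rw [add_comm]
  refine A.valuation.map_one_add_of_lt ?_
  rw [map_mul]
  exact mul_lt_one_of_lt_of_le h2 ((A.valuation_le_one_iff _).2 (intCast_mem A k))

namespace Ss

variable (h : Ss A Λ t)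
include h

theorem mem : t ∈ A := (A.valuation_le_one_iff _).1 h.lt.le

theorem val_Δ : A.valuation (Et t).Δ = 1 := by
  have h3 : A.valuation (27 : ℂ) = 1 := by exact_mod_cast val_odd h.two (n := 27) (by decide)
  rw [Et_Δ, Valuation.map_sub_eq_of_lt_right, h3]
  rw [h3, map_pow]
  exact pow_lt_one₀ zero_le' h.lt (by norm_num)

theorem cin : CoeffIn (Et t) {z | A.valuation z ≤ 1} :=
  ⟨h.lt.le, by simp [Et], by simp [Et], by simp [Et], by simp [Et]⟩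

theorem red : (∀ x y, (Et t).toAffine.Equation x y → A.valuation x ≤ 1 →
      (Et (0 : kk A)).toAffine.Nonsingular (rs A x) (rs A y)) ∧ ∀ P Q : Pt t,
    ptRed {z | A.valuation z ≤ 1} (rs A) (Et 0) (P + Q) =
      ptRed {z | A.valuation z ≤ 1} (rs A) (Et 0) P +
        ptRed {z | A.valuation z ≤ 1} (rs A) (Et 0) Q :=
  ((ptRed_holds ℂ _ A.valuation (Et t) h.cin h.val_Δ).2.1 (kk A) (rs A) (Et 0) rs_one
    (fun a b ha hb => rs_add ((A.valuation_le_one_iff _).1 ha) ((A.valuation_le_one_iff _).1 hb))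
    (fun a b ha hb => rs_mul ((A.valuation_le_one_iff _).1 ha) ((A.valuation_le_one_iff _).1 hb))
    (fun a ha => rs_eq_zero ((A.valuation_le_one_iff _).1 ha))
    ((rs_eq_zero h.mem).2 h.lt).symm rs_zero.symm rs_one.symm rs_zero.symm rs_zero.symm).2

/-- **the reduction** `ℂ → ℂ / Λ → E₀ (k)` -/
def rd : ℂ →+ Pt (0 : kk A) :=
  (AddMonoidHom.mk' (ptRed {z | A.valuation z ≤ 1} (rs A) (Et 0)) h.red.2).comp h.toNm.ex

theorem yy_mem {z : ℂ} (hz : z ∉ Λ) (hx : xx Λ t z ∈ A) : yy Λ t z ∈ A :=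
  (A.valuation_le_one_iff _).1 (y_int h.cin (h.ns hz).1 ((A.valuation_le_one_iff _).2 hx))

theorem rd_ns {z : ℂ} (hz : z ∉ Λ) (hx : xx Λ t z ∈ A) :
    (Et (0 : kk A)).toAffine.Nonsingular (rs A (xx Λ t z)) (rs A (yy Λ t z)) :=
  h.red.1 _ _ (h.ns hz).1 ((A.valuation_le_one_iff _).2 hx)

theorem rd_of {z : ℂ} (hz : z ∉ Λ) (hx : xx Λ t z ∈ A) : h.rd z = .some _ _ (h.rd_ns hz hx) := by
  show ptRed _ _ _ (h.toNm.ex z) = _
  rw [h.ex_of hz]
  exact (if_pos ((A.valuation_le_one_iff _).2 hx)).trans (pt_of _)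

theorem rd_mem {z : ℂ} (hz : z ∈ Λ) : h.rd z = 0 := by
  rw [rd, AddMonoidHom.comp_apply, h.ex_eq_zero.2 hz, map_zero]

theorem rd_ne_zero {z : ℂ} : h.rd z ≠ 0 ↔ z ∉ Λ ∧ xx Λ t z ∈ A := by
  refine ⟨fun e => ⟨mt h.rd_mem e, by_contra fun hx => e ?_⟩,
    fun e => h.rd_of e.1 e.2 ▸ Point.some_ne_zero _⟩
  show ptRed _ _ _ (h.toNm.ex z) = _
  rw [h.ex_of (mt h.rd_mem e)]
  exact if_neg (mt (A.valuation_le_one_iff _).1 hx)

theorem xc_rd {z : ℂ} (e : h.rd z ≠ 0) : xc (h.rd z) = rs A (xx Λ t z) := by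
  rw [h.rd_of (h.rd_ne_zero.1 e).1 (h.rd_ne_zero.1 e).2]
  rfl

theorem yc_rd {z : ℂ} (e : h.rd z ≠ 0) : yc (h.rd z) = rs A (yy Λ t z) := by
  rw [h.rd_of (h.rd_ne_zero.1 e).1 (h.rd_ne_zero.1 e).2]
  rfl

end Ss

end Vale.Agent.P004M.D
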