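import Vale.Agent.P004M.D.X1
import Vale.Agent.P004M.D.HDef

/-!
# P004M, route D, block X: the quotient curve and the expansion of the isogeny
-/

set_option autoImplicit false
set_option linter.all false

open Filter Topology Polynomial
open scoped Classical PowerSeries

noncomputable section

namespace Vale.Agent.P004M.D

open Vale.Agent.P027H

variable {Λ M : Submodule ℤ ℂ} {t : ℂ} {A : ValuationSubring ℂ}

theorem wp_two (h : IsLat M) {w : ℂ} (h2 : 2 * w ∉ M) :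
    wp M (2 * w) = ((6 * wp M w ^ 2 - g2 M / 2) / dwp M w) ^ 2 / 4 - 2 * wp M w := by
  have hw : w ∉ M := fun e => h2 (mem_of_eq (add_mem e e) (two_mul w))
  have t1 : Tendsto (fun z => wp M (z + w)) (𝓝[≠] w) (𝓝 (wp M (2 * w))) :=
    ((h.analyticAt_wp h2).continuousAt.tendsto.comp
      ((continuous_add_right w).tendsto' w _ (two_mul w).symm)).mono_left nhdsWithin_le_nhds
  have t2 := (((((hasDerivAt_iff_tendsto_slope.1 (h.hasDerivAt_dwp hw)).div
    (hasDerivAt_iff_tendsto_slope.1 (h.hasDerivAt_wp hw)) (mt (h.dwp_eq_zero hw).1 h2)).pow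
    2).div_const 4).sub ((h.analyticAt_wp hw).continuousAt.tendsto.mono_left
    nhdsWithin_le_nhds)).sub_const (wp M w)
  rw [two_mul (wp M w), ← sub_sub]
  refine tendsto_nhds_unique_of_eventuallyEq t1 t2 ?_
  filter_upwards [(h.notMem_nhds hw).filter_mono nhdsWithin_le_nhds, h.ev_ne hw (wp M w),
    self_mem_nhdsWithin] with z z1 z2 z3
  rw [(h.add z1 hw z2).2.1, aX, sl, Pi.div_apply, slope_def_field, slope_def_field,
    div_div_div_cancel_right₀ (sub_ne_zero.2 z3)]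

/-- the normal form attached to a point of order three -/
theorem nm_three (h : IsLat M) {w c : ℂ} (hw : w ∉ M) (h3 : 3 * w ∈ M) (hc : c ^ 3 = dwp M w) :
    c ≠ 0 ∧ ∃ s, Nm (scl c M) s ∧ s * c ^ 4 = 6 * wp M w ^ 2 - g2 M / 2 ∧
      ∀ z, xx (scl c M) s (c * z) * c ^ 2 = wp M z - wp M w := by
  have h2 : 2 * w ∉ M := fun e => hw (mem_of_eq (sub_mem h3 e) (by ring))
  have c0 : c ≠ 0 := fun e => h2 ((h.dwp_eq_zero hw).1 (by rw [← hc, e]; ring))
  have e1 := wp_two h h2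
  have e2 := h.ode hw
  obtain ⟨s, hs⟩ : ∃ s, s * c ^ 4 = 6 * wp M w ^ 2 - g2 M / 2 :=
    ⟨_, div_mul_cancel₀ _ (pow_ne_zero 4 c0)⟩
  rw [h.wp_congr' (z := 2 * w) (w := w) (mem_of_eq h3 (by ring)), ← hc, ← hs,
    show s * c ^ 4 / c ^ 3 = s * c by field_simp] at e1
  rw [← hc] at e2
  have e3 : wp M w = s ^ 2 * c ^ 2 / 12 := by linear_combination (1 / 3) * e1
  have e4 : g2 M = 12 * wp M w ^ 2 - 2 * s * c ^ 4 := by linear_combination 2 * hs
  have e5 : g3 M = 4 * wp M w ^ 3 - g2 M * wp M w - c ^ 6 := by linear_combination e2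
  have hH := hom_scl c0 M
  refine ⟨c0, s, ⟨hH.isLat h, ?_, ?_⟩, hs, fun z => ?_⟩
  · rw [hH.g2, e4, e3]
    field_simp
    ring
  · rw [hH.g3, e5, e4, e3]
    field_simp
    ring
  · rw [xx, hH.wp, e3]
    field_simp

theorem velu_two {ι : Type} [Fintype ι] {r : ι → ℂ} (hr : Reps r Λ M) (h : Nm Λ t) (hM : IsLat M)
    {w : ℂ} (hw : w ∉ M) : 6 * wp M w ^ 2 - g2 M / 2 =
      ∑ i, (6 * xx Λ t (w - r i) ^ 2 + t ^ 2 * xx Λ t (w - r i) + t) := by
  have k := hM.hasDerivAt_dwp hw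
  rw [funext (hr.dwp h.lat hM)] at k
  refine (k.unique (HasDerivAt.fun_sum fun i _ => (h.lat.hasDerivAt_dwp (z := w - r i) fun e =>
    hw (mem_of_eq (add_mem (hr.le e) (hr.mem i)) (by ring))).comp_sub_const w (r i))).trans
    (Finset.sum_congr rfl fun i _ => ?_)
  rw [xx, h.e2]
  ring

theorem ex_half (G : Type) [AddCommGroup G] [Fintype G] (h : ∀ a : G, a = -a → a = 0) :
    ∃ S : Finset G, (∀ a ∈ S, a ≠ 0) ∧ ∀ F : G → ℂ, ∑ a, F a = F 0 + ∑ a ∈ S, (F a + F (-a)) := by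
  obtain ⟨e, he⟩ := Countable.exists_injective_nat G
  refine ⟨Finset.univ.filter fun a => e a < e (-a), fun a ha e => by simp [e] at ha, fun F => ?_⟩
  have k : ∀ a, F a = (if a = 0 then F a else 0) + ((if e a < e (-a) then F a else 0) +
      if e (-a) < e (- -a) then F (- -a) else 0) := fun a => by
    rw [neg_neg]
    by_cases h0 : a = 0
    · simp [h0]
    · rcases lt_or_gt_of_ne (mt (fun k => h a (he k)) h0) with k | k <;> simp [h0, k, k.not_gt]
  rw [Finset.sum_congr rfl fun a _ => k a, Finset.sum_add_distrib, Finset.sum_add_distrib,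
    Finset.sum_ite_eq', if_pos (Finset.mem_univ _), Finset.sum_add_distrib, Finset.sum_filter,
    Finset.sum_filter,
    ← Equiv.sum_comp (Equiv.neg G) fun a => if e a < e (-a) then F (-a) else 0]
  rfl

theorem ex_frac {R ι : Type} [CommRing R] (S : Finset ι) (b e : ι → R[X])
    (he : ∀ i, (e i).coeff 0 = 1) : ∃ n q : R[X], q.coeff 0 = 1 ∧
      ∀ (B : Type) [CommRing B] (φ : R[X] →+* B) (v : ι → B), (∀ i ∈ S, v i * φ (e i) = φ (b i)) →
        (∑ i ∈ S, v i) * φ q = φ n := by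
  induction S using Finset.induction_on with
  | empty => exact ⟨0, 1, by simp, by simp⟩
  | insert i S hi ih =>
    obtain ⟨n, q, h1, h2⟩ := ih
    refine ⟨b i * q + n * e i, q * e i, by simp [h1, he], fun B _ φ v hv => ?_⟩
    rw [Finset.sum_insert hi, map_add, map_mul, map_mul, map_mul,
      ← hv i (Finset.mem_insert_self _ _), ← h2 B φ v fun j hj => hv j (Finset.mem_insert_of_mem hj)]
    ring

theorem ex_hz {R : Type} [CommRing R] (N D p : R[X]) {d : ℕ} (hd : p.natDegree ≤ d) :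
    ∃ H : R[X], ∀ (B : Type) [CommRing B] (φ : R[X] →+* B) (y : B), y * φ D = φ N →
      φ H = φ D ^ d * p.eval₂ (φ.comp C) y := by
  refine ⟨∑ i ∈ Finset.range (d + 1), C (p.coeff i) * N ^ i * D ^ (d - i), fun B _ φ y hy => ?_⟩
  rw [eval₂_eq_sum_range' _ (Nat.lt_succ_of_le hd), map_sum, Finset.mul_sum]
  refine Finset.sum_congr rfl fun i hi => ?_
  obtain ⟨k, rfl⟩ := Nat.exists_eq_add_of_le (Nat.le_of_lt_succ (Finset.mem_range.1 hi))
  rw [map_mul, map_mul, map_pow, map_pow, ← hy, Nat.add_sub_cancel_left, RingHom.comp_apply]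
  ring

theorem cm_of (t s : A) (P Q : A[X]) (f : A⟦X⟧) (hQ : Q.coeff 0 = 1) (hf : f * Q = P)
    (f0 : PowerSeries.constantCoeff f = 0) (U : Set ℂ) (hU : U.Infinite)
    (H : ∀ u ∈ U, ∃ u' x x' : ℂ,
      u' * (1 - t * u ^ 2 - 2 * u ^ 3) = 4 * u + t ^ 2 * u ^ 2 + 2 * t * u ^ 3 + u ^ 4 ∧
      x * P.eval₂ A.subtype u = Q.eval₂ A.subtype u ∧
      x' * P.eval₂ A.subtype u' = Q.eval₂ A.subtype u' ∧
      x' * (4 * x ^ 3 + s ^ 2 * x ^ 2 + 2 * s * x + 1) = x ^ 4 - s * x ^ 2 - 2 * x) :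
    Cm t s f := by
  obtain ⟨P', hP'⟩ := ex_hz (4 * X + C (t ^ 2) * X ^ 2 + C (2 * t) * X ^ 3 + X ^ 4)
    (1 - C t * X ^ 2 - 2 * X ^ 3) P (le_max_left _ Q.natDegree)
  obtain ⟨Q', hQ'⟩ := ex_hz (4 * X + C (t ^ 2) * X ^ 2 + C (2 * t) * X ^ 3 + X ^ 4)
    (1 - C t * X ^ 2 - 2 * X ^ 3) Q (le_max_right P.natDegree _)
  have E : P' * (Q ^ 4 - C s * P ^ 2 * Q ^ 2 - 2 * P ^ 3 * Q) =
      Q' * (4 * P * Q ^ 3 + C s ^ 2 * P ^ 2 * Q ^ 2 + 2 * C s * P ^ 3 * Q + P ^ 4) := by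
    refine map_injective A.subtype Subtype.val_injective
      (eq_of_infinite_eval_eq _ _ (hU.mono fun u hu => ?_))
    obtain ⟨u', x, x', h1, h2, h3, h4⟩ := H u hu
    have k : (eval₂RingHom A.subtype u).comp C = A.subtype := RingHom.ext fun a => eval₂_C _ _
    have h5 : u' * eval₂RingHom A.subtype u (1 - C t * X ^ 2 - 2 * X ^ 3) = eval₂RingHom A.subtype u
        (4 * X + C (t ^ 2) * X ^ 2 + C (2 * t) * X ^ 3 + X ^ 4) := by
      simp only [map_mul, map_sub, map_add, map_pow, map_ofNat, map_one]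
      simpa using h1
    have p := hP' _ _ _ h5
    have q := hQ' _ _ _ h5
    rw [k] at p q
    rw [Set.mem_setOf_eq, eval_map, eval_map, ← coe_eval₂RingHom]
    simp only [map_mul, map_sub, map_add, map_pow, map_ofNat, p, q]
    simp only [coe_eval₂RingHom, eval₂_C, ← h2, ← h3, ValuationSubring.coe_subtype]
    generalize (eval₂ A.subtype u 1 - _ - _) ^ _ = D
    linear_combination (-D * eval₂ A.subtype u' P * eval₂ A.subtype u P ^ 4) * h4
  have h5 : ps t * coeToPowerSeries.ringHom (1 - C t * X ^ 2 - 2 * X ^ 3) =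
      coeToPowerSeries.ringHom (4 * X + C (t ^ 2) * X ^ 2 + C (2 * t) * X ^ 3 + X ^ 4) := by
    simp only [map_mul, map_sub, map_add, map_pow, map_ofNat, map_one]
    simpa [map_ofNat] using ps_mul t
  have k : (coeToPowerSeries.ringHom (R := A)).comp C = algebraMap A A⟦X⟧ :=
    RingHom.ext fun a => coe_C a
  have p := hP' _ _ _ h5
  have q := hQ' _ _ _ h5
  rw [k, ← aeval_def] at p q
  have e1 : (f.subst (ps t) : A⟦X⟧) * aeval (ps t) Q = aeval (ps t) P := by
    rw [← PowerSeries.subst_coe (ps_has t), ← PowerSeries.subst_coe (ps_has t), ← hf,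
      PowerSeries.subst_mul (ps_has t)]
  have e2 := congrArg coeToPowerSeries.ringHom E
  simp only [map_mul, p, q] at e2
  simp only [map_mul, map_sub, map_add, map_pow, map_ofNat, coeToPowerSeries.ringHom_apply,
    ← hf, ← e1, coe_C] at e2
  have n : ∀ g : A⟦X⟧, PowerSeries.constantCoeff g = 1 → g ≠ 0 := fun g e e' => by simp [e'] at e
  refine ⟨f0, mul_left_cancel₀ (mul_ne_zero (mul_ne_zero (pow_ne_zero (max P.natDegree Q.natDegree)
    (n (coeToPowerSeries.ringHom (1 - C t * X ^ 2 - 2 * X ^ 3)) (by simp))) (n (aeval (ps t) Q) ?_))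
    (pow_ne_zero 4 (n Q (by simpa using hQ)))) ?_⟩
  · rw [aeval_def, hom_eval₂, ps_zero, eval₂_at_zero, hQ, map_one]
  · simp only [map_mul, map_sub, map_add, map_pow, map_ofNat, coeToPowerSeries.ringHom_apply, coe_C]
    linear_combination e2

end Vale.Agent.P004M.D
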