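import Vale.Agent.P004M.D.X2

/-!
# P004M, route D, block X: the isogeny attached to a Hurwitz quaternion
-/

set_option autoImplicit false
set_option linter.all false

open Polynomial IsLocalRing
open scoped Classical PowerSeries

noncomputable section

namespace Vale.Agent.P004M.D

open Vale.Agent.P027H

variable {Λ : Submodule ℤ ℂ} {A : ValuationSubring ℂ}

theorem mem_of_one {a : ℂ} (ha : A.valuation a = 1) : a ∈ A := (A.valuation_le_one_iff _).1 ha.le

theorem res_zero {a : A} (ha : A.valuation a < 1) : residue A a = 0 :=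
  (rs_coe a).symm.trans ((rs_eq_zero a.2).2 ha)

theorem rs_sum {ι : Type} (S : Finset ι) {F : ι → ℂ} (h : ∀ i ∈ S, F i ∈ A) :
    rs A (∑ i ∈ S, F i) = ∑ i ∈ S, rs A (F i) := by
  induction S using Finset.induction_on with
  | empty => exact rs_zero
  | insert i S hi ih =>
    have k := fun j hj => h j (Finset.mem_insert_of_mem hj)
    rw [Finset.sum_insert hi, Finset.sum_insert hi, rs_add (h i (Finset.mem_insert_self _ _))
      (sum_mem k), ih k]

theorem rs_sub {a b : ℂ} (ha : a ∈ A) (hb : b ∈ A) : rs A (a - b) = rs A a - rs A b := by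
  rw [eq_sub_iff_add_eq, ← rs_add (sub_mem ha hb) hb, sub_add_cancel]

theorem ex_cube {d : ℂ} (hd : A.valuation (d - 1) < 1) {γ : kk A} (hγ : γ ^ 3 = 1) :
    ∃ c : A, (c : ℂ) ^ 3 = d ∧ A.valuation c = 1 ∧ residue A c = γ := by
  have k : ∀ c e : ℂ, c ^ 3 = e → A.valuation e = 1 → A.valuation c = 1 := fun c e h1 h2 =>
    (pow_eq_one_iff.1 (by rw [← map_pow, h1, h2])).resolve_right three_ne_zero
  have vd : A.valuation d = 1 := by simpa using A.valuation.map_one_add_of_lt hd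
  obtain ⟨c, hc⟩ := IsAlgClosed.exists_pow_nat_eq d three_pos
  obtain ⟨y, hy⟩ := IsAlgClosed.exists_pow_nat_eq (-3 : ℂ) two_pos
  obtain ⟨w, hw⟩ : ∃ w : ℂ, w ^ 2 + w + 1 = 0 := ⟨(y - 1) / 2, by linear_combination hy / 4⟩
  lift c to A using mem_of_one (k c d hc vd)
  lift w to A using mem_of_one (k w 1 (by linear_combination (w - 1) * hw) (map_one _))
  have h1 : residue A c ^ 3 = 1 := by
    have := res_zero (a := c ^ 3 - 1) (by simpa [hc] using hd)
    rwa [map_sub, map_pow, map_one, sub_eq_zero] at this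
  have h2 : residue A w ^ 2 + residue A w + 1 = 0 := by
    simpa using congrArg (residue A) (show w ^ 2 + w + 1 = 0 by exact_mod_cast hw)
  have h3 : (residue A c - γ) * (residue A (w * c) - γ) * (residue A (w ^ 2 * c) - γ) = 0 := by
    simp only [map_mul, map_pow]
    linear_combination h1 - hγ + (residue A c ^ 3 * (residue A w - 1) + γ ^ 2 * residue A c -
      γ * residue A c ^ 2 * residue A w) * h2
  have k2 : ∀ e : A, (e : ℂ) ^ 3 = d → residue A e - γ = 0 →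
      ∃ c : A, (c : ℂ) ^ 3 = d ∧ A.valuation c = 1 ∧ residue A c = γ := fun e h1 h2 =>
    ⟨e, h1, k _ _ h1 vd, sub_eq_zero.1 h2⟩
  rcases mul_eq_zero.1 h3 with h | h
  · rcases mul_eq_zero.1 h with h | h
    · exact k2 _ hc h
    · exact k2 _ (by push_cast; linear_combination hc + c ^ 3 * (w - 1) * hw) h
  · exact k2 _ (by push_cast; linear_combination hc + c ^ 3 * (w ^ 3 + 1) * (w - 1) * hw) h

namespace Ss

variable {t : A} (h : Ss A Λ t) {C : AddSubgroup (Pt (0 : kk A))} {n : ℕ} (hn : Odd n)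
  (hC : ∀ a ∈ C, n • a = 0)
include h hn hC

theorem rd_sub (z : ℂ) (a : C) : h.rd (z - h.lf a) = h.rd z - a := by
  rw [map_sub, (h.lf_spec hn (hC _ a.2)).2]

theorem off {z : ℂ} (hz : h.rd z ∉ C) (a : C) : h.rd (z - h.lf a) ≠ 0 := fun e =>
  hz (by rw [h.rd_sub hn hC, sub_eq_zero] at e; exact e ▸ a.2)

theorem half [Fintype C] : ∃ S : Finset C, (∀ a ∈ S, a ≠ 0) ∧
    ∀ F : C → ℂ, ∑ a, F a = F 0 + ∑ a ∈ S, (F a + F (-a)) :=
  ex_half C fun a e => by_contra fun k => two_ne (L := kk A) (res_zero (a := 2) h.two)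
    (fun e => k (Subtype.ext e)) (congrArg Subtype.val (add_eq_zero_iff_eq_neg.2 e))

/-- **the quotient curve** -/
theorem quot [Fintype C] (h2 : A.valuation 2 < A.valuation t) {Q : Pt (0 : kk A)} (hQ : Q ∉ C)
    (h3 : 3 • Q ∈ C) {γ : kk A} (hγ : γ ^ 3 = 1) : ∃ c s D : A, Ss A (scl c (h.Up C)) s ∧
      A.valuation s = A.valuation t ∧ A.valuation c = 1 ∧ residue A c = γ ∧
      residue A D = ∑ a : C, xc (Q - a.1) ∧
      ∀ z, xx (scl c (h.Up C)) s (c * z) * c ^ 2 = ∑ a : C, xx Λ t (z - h.lf a) - D := by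
  obtain ⟨w, w1, rfl⟩ : ∃ w, OT Λ w ∧ h.rd w = Q := ⟨_, h.lf_spec (hn.mul (by decide : Odd 3))
    (by rw [mul_smul, hC _ h3])⟩
  have hL := h.Up_lat hn hC
  have hr := h.Up_reps hn hC
  have hw : w ∉ h.Up C := fun e => hQ e.2
  have hx := fun a => h.rd_ne_zero.1 (h.off hn hC hQ a)
  have sx : ∑ a : C, xx Λ t (w - h.lf a) ∈ A := sum_mem fun a _ => (hx a).2
  obtain ⟨S, -, hS⟩ := h.half hn hC
  have hN := hS fun _ => 1
  simp only [Finset.sum_const, nsmul_eq_mul, mul_one] at hN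
  have hd : dwp (h.Up C) w - 1 = 2 * (∑ a : C, yy Λ t (w - h.lf a) + S.card) +
      t * ∑ a : C, xx Λ t (w - h.lf a) := by
    rw [hr.dwp h.lat hL, Finset.sum_congr rfl fun (a : C) _ => show dwp Λ (w - h.lf a) =
      2 * yy Λ t (w - h.lf a) + t * xx Λ t (w - h.lf a) + 1 by rw [yy]; ring]
    simp only [Finset.sum_add_distrib, ← Finset.mul_sum, Finset.sum_const, nsmul_eq_mul, hN]
    ring
  obtain ⟨c, c3, vc, rc⟩ := ex_cube (hd ▸ lt_comb h.two (add_mem (sum_mem fun a _ =>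
    h.yy_mem (hx a).1 (hx a).2) (natCast_mem A _)) h.lt sx) hγ
  obtain ⟨c0, s, hs, e, fm⟩ := nm_three hL hw ⟨by exact_mod_cast w1.nat_mul 3,
    by have := h.rd_nat 3 w; rw [Nat.cast_ofNat] at this; rwa [this]⟩ c3
  have vs : A.valuation s = A.valuation t := by
    have e1 : s * c ^ 4 = t * (1 + (2 * S.card + t * ∑ a : C, xx Λ t (w - h.lf a))) +
        2 * (3 * ∑ a : C, xx Λ t (w - h.lf a) ^ 2) := by
      rw [e, velu_two hr h.toNm hL hw]
      simp only [Finset.sum_add_distrib, ← Finset.mul_sum, Finset.sum_const, nsmul_eq_mul, hN]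
      ring
    have e2 := congrArg A.valuation e1
    have e3 := (A.valuation.map_mul t _).trans (by rw [A.valuation.map_one_add_of_lt
      (lt_comb h.two (natCast_mem A S.card) h.lt sx), mul_one] : _ = A.valuation t)
    rwa [map_mul, map_pow, vc, one_pow, mul_one, Valuation.map_add_eq_of_lt_left, e3] at e2
    rw [e3, map_mul]
    exact (mul_le_of_le_one_right' ((A.valuation_le_one_iff _).2 (mul_mem (ofNat_mem A 3)
      (sum_mem fun a _ => pow_mem (hx a).2 2)))).trans_lt h2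
  lift s to A using mem_of_lt (vs ▸ h.lt)
  refine ⟨c, s, ⟨_, sx⟩, ⟨hs, h.two, vs ▸ h.lt⟩, vs, vc, rc, ?_, fun z => ?_⟩
  · rw [← rs_coe, rs_sum _ fun a _ => (hx a).2]
    exact Finset.sum_congr rfl fun a _ => by rw [← h.xc_rd (h.off hn hC hQ a), h.rd_sub hn hC]
  · rw [fm, velu_sub hr h.lat hL t, Finset.sum_sub_distrib]

/-- **the expansion of the isogeny** -/
theorem series [Fintype C] {c s D : A} (h' : Nm (scl c (h.Up C)) s) (c0 : (c : ℂ) ≠ 0)
    (fm : ∀ z, xx (scl c (h.Up C)) s (c * z) * c ^ 2 = ∑ a : C, xx Λ t (z - h.lf a) - D) :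
    ∃ (S : Finset C) (f : A⟦X⟧) (α : C → kk A) (r : C → (kk A)⟦X⟧),
      PowerSeries.coeff 1 f = c ^ 2 ∧ Cm t s f ∧
      (∀ i, r i * (1 - PowerSeries.C (α i) * PowerSeries.X) = 1) ∧
      f.map (residue A) * (1 + PowerSeries.X * (∑ i ∈ S, PowerSeries.X ^ 2 * r i ^ 2 -
        PowerSeries.C (residue A D))) = PowerSeries.C (residue A c ^ 2) * PowerSeries.X ∧
      ∀ P ∉ C, (∀ i ∈ S, xc P ≠ α i) →
        ∑ a : C, xc (P - a.1) = xc P + ∑ i ∈ S, 1 / (xc P - α i) ^ 2 := by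
  have hr := h.Up_reps hn hC
  have rl := fun a : C => (h.lf_spec hn (hC _ a.2)).2
  have hH := hom_scl c0 (h.Up C)
  obtain ⟨S, hS0, hS⟩ := h.half hn hC
  have r0 := fun (a : C) (ha : a ≠ 0) => h.rd_ne_zero.1 ((rl a).trans_ne fun e => ha (Subtype.ext e))
  choose α hα using show ∀ a : C, ∃ b : A, a ≠ 0 → xx Λ t (h.lf a) = b from fun a => by
    by_cases ha : a = 0
    · exact ⟨0, fun e => (e ha).elim⟩
    · exact ⟨⟨_, (r0 a ha).2⟩, fun _ => rfl⟩
  have k2 : ∀ z ∉ h.Up C, ∀ a ∈ S, (xx Λ t (z - h.lf a) + xx Λ t (z - h.lf (-a : C))) *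
      (xx Λ t z - α a) ^ 2 = 2 * xx Λ t z * α a * (xx Λ t z + α a) + t ^ 2 * xx Λ t z * α a +
        t * (xx Λ t z + α a) + 1 := fun z hz a ha => by
    rw [← hα a (hS0 a ha), ← (h.pair (mt (hr.le ·) hz) (r0 a (hS0 a ha)).1
      (fun e => hz (mem_of_eq (add_mem (hr.le e) (hr.mem a)) (by ring)))
      fun e => hz (mem_of_eq (sub_mem (hr.le e) (hr.mem a)) (by ring))).1, add_comm,
      h.xx_congr (z := z - h.lf (-a : C)) (w := z + h.lf a) (mem_of_eq (neg_mem (h.inj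
        ((hr.mem (-a)).1.add (hr.mem a).1) (by rw [map_add, rl, rl]; simp))) (by ring))]
  have k1 : ∀ z, ∑ a : C, xx Λ t (z - h.lf a) = xx Λ t z +
      ∑ a ∈ S, (xx Λ t (z - h.lf a) + xx Λ t (z - h.lf (-a : C))) := fun z => by
    rw [hS, h.xx_congr (w := z) (mem_of_eq (neg_mem (h.inj (hr.mem 0).1 (rl 0))) (by ring))]
  obtain ⟨b, hb⟩ : ∃ b : C → A[X], b = fun a => 2 * Polynomial.C (α a) * (1 + Polynomial.C (α a) * X) +
    Polynomial.C t ^ 2 * Polynomial.C (α a) * X + Polynomial.C t * (X + Polynomial.C (α a) * X ^ 2) +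
    X ^ 2 := ⟨_, rfl⟩
  obtain ⟨N, q, q0, hq⟩ := ex_frac S b (fun a => (1 - Polynomial.C (α a) * X) ^ 2)
    fun a => by simp [coeff_zero_eq_eval_zero]
  obtain ⟨r, hr1⟩ : ∃ r : C → A⟦X⟧, ∀ a, r a * (1 - PowerSeries.C (α a) * PowerSeries.X) = 1 :=
    ⟨_, fun a => PowerSeries.invOfUnit_mul _ 1 (by simp)⟩
  obtain ⟨G, hG⟩ : ∃ G : A⟦X⟧, G * (1 + PowerSeries.X * (∑ a ∈ S, (b a : A⟦X⟧) * r a ^ 2 -
    PowerSeries.C D)) = 1 := ⟨_, PowerSeries.invOfUnit_mul _ 1 (by simp)⟩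
  have k3 : ∀ z ∉ h.Up C, ∀ u, xx Λ t z * u = 1 → xx (scl c (h.Up C)) s (c * z) *
      (Polynomial.C c ^ 2 * X * q).eval₂ A.subtype u =
        (q + X * N - Polynomial.C D * X * q).eval₂ A.subtype u := fun z hz u hu => by
    have e := hq ℂ (eval₂RingHom A.subtype u) _ fun a ha => show (xx Λ t (z - h.lf a) +
        xx Λ t (z - h.lf (-a : C))) * _ = _ by
      simp only [hb, map_mul, map_sub, map_add, map_pow, map_ofNat, map_one]
      simp only [coe_eval₂RingHom, eval₂_C, eval₂_X, ValuationSubring.coe_subtype]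
      have := k2 z hz a ha
      generalize xx Λ t (z - h.lf a) + xx Λ t (z - h.lf (-a : C)) = T at this ⊢
      generalize xx Λ t z = x at this hu
      linear_combination u ^ 2 * this + (-T * (x * u + 1 - 2 * α a * u) + 2 * α a * (x * u + 1) +
        2 * α a ^ 2 * u + t ^ 2 * α a * u + t * u) * hu
    have e2 := (fm z).trans (congrArg (· - (D : ℂ)) (k1 z))
    rw [← coe_eval₂RingHom]
    simp only [map_mul, map_sub, map_add, map_pow, ← e]
    simp only [coe_eval₂RingHom, eval₂_C, eval₂_X, ValuationSubring.coe_subtype]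
    linear_combination u * eval₂ A.subtype u q * e2 + eval₂ A.subtype u q * hu
  refine ⟨S, PowerSeries.C (c ^ 2) * (PowerSeries.X * G), fun a => residue A (α a),
    fun a => (r a).map (residue A), ?_, ?_, fun a => ?_, ?_, fun P hP hne => ?_⟩
  · have := congrArg PowerSeries.constantCoeff hG
    simp at this
    rw [PowerSeries.coeff_C_mul, PowerSeries.coeff_succ_X_mul 0, PowerSeries.coeff_zero_eq_constantCoeff,
      this, mul_one]
  · refine cm_of t s (Polynomial.C c ^ 2 * X * q) (q + X * N - Polynomial.C D * X * q) _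
      (by simp [q0, mul_assoc]) ?_ (by simp) (Set.range fun k : ℕ => ((2 ^ (k + 3) : ℕ) : ℂ))
      (Set.infinite_range_of_injective fun a b e => by simpa using Nat.cast_injective e) ?_
    · have e := hq _ coeToPowerSeries.ringHom (fun a => (b a : A⟦X⟧) * r a ^ 2) fun a _ => by
        rw [map_pow, mul_assoc, ← mul_pow]
        simp [hr1]
      simp only [coeToPowerSeries.ringHom_apply] at e
      simp only [coe_sub, coe_add, coe_mul, coe_pow, coe_C, coe_X, ← e, map_pow]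
      linear_combination PowerSeries.C c ^ 2 * PowerSeries.X * q * hG
    rintro _ ⟨k, rfl⟩
    obtain ⟨u, hu⟩ : ∃ u : ℂ, u = (2 ^ (k + 3) : ℕ) := ⟨_, rfl⟩
    beta_reduce
    rw [← hu]
    have u0 : u ≠ 0 := hu ▸ Nat.cast_ne_zero.2 (by positivity)
    have u8 : u = 2 * (4 * 2 ^ k) := by rw [hu]; push_cast; ring
    have uA : u ∈ A := hu ▸ natCast_mem A _
    have pA : (2 : ℂ) ^ k ∈ A := pow_mem (ofNat_mem A 2) k
    obtain ⟨z, hz, hx⟩ := h.surj_x u⁻¹
    have z0 : h.rd z = 0 := by_contra fun e => by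
      have := lt_comb h.two (mul_mem (mul_mem (ofNat_mem A 4) pA) (h.rd_ne_zero.1 e).2) h.two
        (zero_mem A)
      rw [mul_zero, add_zero, ← mul_assoc, ← u8, hx, mul_inv_cancel₀ u0, map_one] at this
      exact this.false
    have z2 : 2 * z ∉ Λ := fun e => by
      have e1 := (h.lat.dwp_eq_zero hz).2 e
      have e2 := h.eqn hz
      rw [yy, e1, hx] at e2
      have := A.valuation.map_one_add_of_lt (lt_comb h.two (mul_mem pA (add_mem (add_mem
        (pow_mem t.2 2) (mul_mem (mul_mem (ofNat_mem A 2) t.2) uA)) (pow_mem uA 2))) h.two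
        (zero_mem A))
      field_simp at e2
      rw [show 1 + (2 * (2 ^ k * ((t : ℂ) ^ 2 + 2 * t * u + u ^ 2)) + 2 * 0) = 0 by
        linear_combination (-1 / 4) * e2 - ((t : ℂ) ^ 2 + 2 * t * u + u ^ 2) / 4 * u8] at this
      simp at this
    have z3 : h.rd (2 * z) = 0 := by rw [two_mul, map_add, z0, add_zero]
    have x2 : xx Λ t (2 * z) ≠ 0 := fun e => h.rd_ne_zero.2 ⟨z2, e ▸ zero_mem A⟩ z3
    have z4 : 2 * z ∉ h.Up C := fun e => z2 (h.inj e.1 z3)
    have e1 := (h.dup z2).1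
    have e2 := (h'.dup (z := c * z) fun e => z4 ((hH.2 _).2 (mem_of_eq e (by ring)))).1
    rw [hx] at e1
    rw [mul_left_comm] at e2
    refine ⟨_, _, _, ?_, k3 z (fun e => hz (h.inj e.1 z0)) u (by rw [hx, inv_mul_cancel₀ u0]),
      k3 _ z4 _ (mul_inv_cancel₀ x2), e2⟩
    field_simp at e1 ⊢
    linear_combination -e1
  · simpa using congrArg (PowerSeries.map (residue A)) (hr1 a)
  · have e := congrArg (PowerSeries.map (residue A)) hG
    have e1 : ∀ a, PowerSeries.map (residue A) (b a : A⟦X⟧) = PowerSeries.X ^ 2 := fun a => by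
      rw [← Polynomial.polynomial_map_coe, hb, ← C_ofNat]
      simp [res_zero h.lt, res_zero (a := 2) h.two]
    simp only [map_mul, map_add, map_sub, map_sum, map_pow, map_one, e1, PowerSeries.map_X,
      PowerSeries.map_C] at e ⊢
    linear_combination PowerSeries.C (residue A c) ^ 2 * PowerSeries.X * e
  · obtain ⟨z, rfl⟩ := h.surj P
    have hz := fun a => (h.rd_ne_zero.1 (h.off hn hC hP a)).2
    have h0 : h.rd z ≠ 0 := fun e => hP (e ▸ zero_mem C)
    have e := congrArg (rs A) (k1 z)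
    rw [rs_sum _ fun a _ => hz a, rs_add (h.rd_ne_zero.1 h0).2
      (sum_mem fun a _ => add_mem (hz a) (hz _)), rs_sum _ fun a _ => add_mem (hz a) (hz _),
      ← h.xc_rd h0] at e
    rw [Finset.sum_congr rfl fun a _ => by rw [← h.rd_sub hn hC, h.xc_rd (h.off hn hC hP a)], e]
    refine congrArg _ (Finset.sum_congr rfl fun a ha => eq_div_of_mul_eq
      (pow_ne_zero 2 (sub_ne_zero.2 (hne a ha))) ?_)
    have e1 := k2 z (fun e => hP e.2) a ha
    rw [h.xc_rd h0]
    obtain ⟨x, hx⟩ : ∃ x : A, xx Λ t z = x := ⟨⟨_, (h.rd_ne_zero.1 h0).2⟩, rfl⟩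
    obtain ⟨y, hy⟩ : ∃ y : A, xx Λ t (z - h.lf a) + xx Λ t (z - h.lf (-a : C)) = y :=
      ⟨⟨_, add_mem (hz a) (hz _)⟩, rfl⟩
    rw [hx, hy] at e1 ⊢
    simpa [rs_coe, res_zero h.lt, res_zero (a := 2) h.two] using congrArg (residue A)
      (show y * (x - α a) ^ 2 = 2 * x * α a * (x + α a) + t ^ 2 * x * α a + t * (x + α a) + 1 from
        Subtype.ext e1)

omit hn hC in
/-- **the isogeny attached to a quaternion of odd norm** -/
theorem iso (h2 : A.valuation 2 < A.valuation t) {w : kk A} (hw : Cw w) (g : Hu)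
    (hg : Odd (Hu.nm g)) (kum : ∀ C : Finset (Pt (0 : kk A)), (∀ P, P ∈ C ↔ hw.act g P = 0) →
      ∃ γ d, γ ^ 3 = 1 ∧ ∀ P ∉ C, xc (hw.act g P) = γ * ∑ a ∈ C, xc (P - a) + d) :
    ∃ (c s : A) (L : Submodule ℤ ℂ) (h' : Ss A L s) (f : A⟦X⟧),
      A.valuation s = A.valuation t ∧ A.valuation c = 1 ∧
      (∀ z : ℂ, c * z ∈ L ↔ OT Λ z ∧ hw.act g (h.rd z) = 0) ∧
      (∀ z, OT Λ z → xc (h'.rd (c * z)) = xc (hw.act g (h.rd z))) ∧
      PowerSeries.coeff 1 f = c ^ 2 ∧ Cm t s f ∧ Ser hw g (f.map (residue A)) := by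
  obtain ⟨n, en⟩ := Int.eq_ofNat_of_zero_le (Hu.nm_nonneg g)
  have hn : Odd n := by exact_mod_cast en ▸ hg
  obtain ⟨C, mC⟩ : ∃ C : AddSubgroup (Pt (0 : kk A)), ∀ P, P ∈ C ↔ hw.act g P = 0 :=
    ⟨AddMonoidHom.ker (hw.act g), fun _ => Iff.rfl⟩
  have hC : ∀ a ∈ C, n • a = 0 := fun a ha => by
    rw [← natCast_zsmul, ← en, ← hw.cj_act, (mC a).1 ha, map_zero]
  have := h.fin hn hC
  have := Fintype.ofFinite C
  obtain ⟨γ, d, hγ, hk⟩ := kum (Finset.univ.map (Function.Embedding.subtype (· ∈ C)))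
    fun P => by simp [mC]
  simp only [Finset.sum_map, Function.Embedding.coe_subtype] at hk
  replace hk := fun P (hP : P ∉ C) => hk P (by simpa using hP)
  obtain ⟨z0, hz0⟩ := h.surj (T0 0)
  obtain ⟨z0, rfl⟩ : ∃ u, z0 = n * u := ⟨z0 / n, by
    have : (n : ℂ) ≠ 0 := Nat.cast_ne_zero.2 hn.pos.ne'
    field_simp⟩
  have eQ : hw.act g (hw.act (Hu.cj g) (h.rd z0)) = T0 0 := by
    rw [hw.act_cj, en, natCast_zsmul, ← h.rd_nat, hz0]
  generalize hw.act (Hu.cj g) (h.rd z0) = Q at eQ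
  have hQ : Q ∉ C := fun e => T0_ne _ (eQ.symm.trans ((mC Q).1 e))
  obtain ⟨c, s, D, h', vs, vc, rc, rD, fm⟩ := h.quot hn hC h2 hQ
    ((mC _).2 (by rw [map_nsmul, eQ, T0_three])) hγ
  have c0 : (c : ℂ) ≠ 0 := fun e => by simp [e] at vc
  have hH := hom_scl c0 (h.Up C)
  have hk' : ∀ P ∉ C, xc (hw.act g P) = γ * (∑ a : C, xc (P - a.1) - residue A D) := fun P hP => by
    have e := hk Q hQ
    rw [eQ, show xc (T0 (0 : kk A)) = 0 from rfl] at e
    rw [hk P hP, rD]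
    linear_combination -e
  obtain ⟨S, f, α, r, f1, f2, f3, f4, f5⟩ := h.series hn hC h'.toNm c0 fm
  refine ⟨c, s, _, h', f, vs, vc, fun z => (hH.2 z).symm.trans (and_congr_right fun _ => mC _),
    fun z hz => ?_, f1, f2, C, S, α, r, γ, residue A D, fun e => by simp [e] at hγ,
    fun i _ => f3 i, ?_, fun P hP hne => ?_⟩
  · by_cases hz' : h.rd z ∈ C
    · rw [h'.rd_mem ((hH.2 z).1 ⟨hz, hz'⟩), (mC _).1 hz']
    have hx := fun a => (h.rd_ne_zero.1 (h.off hn hC hz' a)).2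
    have e := fm z
    have e1 : xx (scl c (h.Up C)) s (c * z) ∈ A := by
      rw [eq_div_of_mul_eq (pow_ne_zero 2 c0) e, div_eq_mul_inv]
      exact mul_mem (sub_mem (sum_mem fun a _ => hx a) D.2) (mem_of_one (by simp [vc]))
    have e2 := congrArg (rs A) e
    rw [rs_mul e1 (pow_mem c.2 2), rs_sub (sum_mem fun a _ => hx a) D.2, rs_sum _ fun a _ => hx a,
      ← A.coe_pow, rs_coe, rs_coe, map_pow, rc] at e2
    rw [h'.xc_rd (h'.rd_ne_zero.2 ⟨fun k => hz' ((hH.2 z).2 k).2, e1⟩), hk' _ hz',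
      Finset.sum_congr rfl fun a _ => by rw [← h.rd_sub hn hC, h.xc_rd (h.off hn hC hz' a)], ← e2]
    linear_combination (-rs A (xx (scl c (h.Up C)) s (c * z))) * hγ
  · rw [mul_left_comm, f4, rc, ← mul_assoc, ← map_mul, ← pow_succ', hγ, map_one, one_mul]
  · rw [hk' P (mt (mC P).1 hP), f5 P (mt (mC P).1 hP) hne]

end Ss

end Vale.Agent.P004M.D
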